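import Mathlib
import Vale.Agent.P260.Defs

/-!
# P260, block B: amenable groups with a finite free resolution have Euler characteristic zero

Dimension theory of left submodules of `K[G]^n` for an amenable group `G`.
-/

set_option linter.unusedSectionVars false

namespace Vale.Agent.P260.H145

open Finset Submodule MonoidAlgebra

section basic

variable (K : Type) [Field K] {G : Type} [Group G]

/-- Vectors of `K[G]^n` supported in `T`. -/
def VT (n : ℕ) (T : Finset G) : Submodule K (Fin n → MonoidAlgebra K G) where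
  carrier := {v | ∀ i, ∀ g, g ∉ T → (v i).coeff g = 0}
  zero_mem' := fun i g _ => by simp
  add_mem' := fun {a b} ha hb i g hg => by simp [ha i g hg, hb i g hg]
  smul_mem' := fun c a ha i g hg => by simp [ha i g hg]

variable {K}

theorem mem_VT {n : ℕ} {T : Finset G} {v : Fin n → MonoidAlgebra K G} :
    v ∈ VT K n T ↔ ∀ i, ∀ g, g ∉ T → (v i).coeff g = 0 := Iff.rfl

theorem VT_mono {n : ℕ} {A B : Finset G} (h : A ⊆ B) : VT K n A ≤ VT K n B :=
  fun _ hv i g hg => hv i g fun hgA => hg (h hgA)

theorem VT_inf [DecidableEq G] {n : ℕ} (A B : Finset G) :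
    VT K n A ⊓ VT K n B = VT K n (A ∩ B) := by
  ext v
  constructor
  · rintro ⟨h1, h2⟩ i g hg
    rw [Finset.mem_inter, not_and_or] at hg
    rcases hg with hg | hg
    · exact h1 i g hg
    · exact h2 i g hg
  · intro h
    exact ⟨fun i g hg => h i g fun h' => hg (Finset.mem_inter.1 h').1,
      fun i g hg => h i g fun h' => hg (Finset.mem_inter.1 h').2⟩

theorem VT_empty {n : ℕ} : VT K n (∅ : Finset G) = ⊥ := by
  rw [eq_bot_iff]
  intro v hv
  rw [Submodule.mem_bot]
  funext i
  refine MonoidAlgebra.ext (Finsupp.ext fun g => ?_)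
  exact hv i g (Finset.notMem_empty g)

open Classical in
/-- `VT T` is a space of functions on `Fin n × T`. -/
noncomputable def VTequiv (n : ℕ) (T : Finset G) : VT K n T ≃ₗ[K] (Fin n × T → K) where
  toFun v p := ((v : Fin n → MonoidAlgebra K G) p.1).coeff p.2
  map_add' v w := by
    funext p
    simp
  map_smul' c v := by
    funext p
    simp
  invFun u := ⟨fun i => ∑ g : T, single (g : G) (u (i, g)), by
    intro i g hg
    rw [coeff_sum, Finsupp.finsetSum_apply]
    refine Finset.sum_eq_zero fun h _ => ?_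
    rw [coeff_single, Finsupp.single_apply, if_neg]
    rintro rfl
    exact hg h.2⟩
  left_inv v := by
    apply Subtype.ext
    funext i
    refine MonoidAlgebra.ext (Finsupp.ext fun g => ?_)
    simp only [coeff_sum, Finsupp.finsetSum_apply, coeff_single, Finsupp.single_apply]
    by_cases hg : g ∈ T
    · rw [Finset.sum_eq_single (⟨g, hg⟩ : T)]
      · simp
      · intro b _ hb
        rw [if_neg]
        intro h
        exact hb (Subtype.ext h)
      · intro h
        exact absurd (Finset.mem_univ _) h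
    · rw [Finset.sum_eq_zero, v.2 i g hg]
      intro b _
      rw [if_neg]
      rintro rfl
      exact hg b.2
  right_inv u := by
    funext p
    obtain ⟨i, g⟩ := p
    simp only [coeff_sum, Finsupp.finsetSum_apply, coeff_single, Finsupp.single_apply]
    rw [Finset.sum_eq_single g]
    · simp
    · intro b _ hb
      rw [if_neg]
      intro h
      exact hb (Subtype.ext h)
    · intro h
      exact absurd (Finset.mem_univ _) h

instance finite_VT (n : ℕ) (T : Finset G) : FiniteDimensional K (VT K n T) :=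
  Module.Finite.equiv (VTequiv n T).symm

theorem finrank_VT (n : ℕ) (T : Finset G) : Module.finrank K (VT K n T) = n * T.card := by
  rw [(VTequiv n T).finrank_eq, Module.finrank_fintype_fun_eq_card, Fintype.card_prod,
    Fintype.card_fin, Fintype.card_coe]

theorem exists_VT {n : ℕ} (v : Fin n → MonoidAlgebra K G) : ∃ T : Finset G, v ∈ VT K n T := by
  classical
  refine ⟨Finset.univ.biUnion fun i => (v i).coeff.support, fun i g hg => ?_⟩
  rw [Finset.mem_biUnion] at hg
  push Not at hg
  exact Finsupp.notMem_support_iff.1 (hg i (Finset.mem_univ i))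

theorem exists_VT_fd {n : ℕ} (W : Submodule K (Fin n → MonoidAlgebra K G))
    [FiniteDimensional K W] : ∃ T : Finset G, W ≤ VT K n T := by
  classical
  obtain ⟨s, hs⟩ := (Module.Finite.iff_fg (N := W)).1 inferInstance
  choose T hT using fun v : Fin n → MonoidAlgebra K G => exists_VT v
  refine ⟨s.biUnion T, ?_⟩
  rw [← hs, Submodule.span_le]
  intro v hv
  exact VT_mono (Finset.subset_biUnion_of_mem T hv) (hT v)

/-- Left translation. -/
noncomputable def lt (n : ℕ) (g : G) : (Fin n → MonoidAlgebra K G) →ₗ[K] (Fin n → MonoidAlgebra K G) where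
  toFun v i := single g 1 * v i
  map_add' v w := by
    funext i
    simp [mul_add]
  map_smul' c v := by
    funext i
    simp

theorem lt_apply {n : ℕ} (g : G) (v : Fin n → MonoidAlgebra K G) (i : Fin n) :
    lt n g v i = single g 1 * v i := rfl

theorem lt_mul {n : ℕ} (g h : G) (v : Fin n → MonoidAlgebra K G) :
    lt n g (lt n h v) = lt n (g * h) v := by
  funext i
  rw [lt_apply, lt_apply, lt_apply, ← mul_assoc, single_mul_single, one_mul]

theorem lt_one {n : ℕ} (v : Fin n → MonoidAlgebra K G) : lt n 1 v = v := by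
  funext i
  rw [lt_apply, ← MonoidAlgebra.one_def, one_mul]

theorem lt_inj {n : ℕ} (g : G) :
    Function.Injective (lt n g : (Fin n → MonoidAlgebra K G) → (Fin n → MonoidAlgebra K G)) := by
  intro v w h
  have := congrArg (lt n g⁻¹) h
  rwa [lt_mul, lt_mul, inv_mul_cancel, lt_one, lt_one] at this

theorem lt_mem_VT [DecidableEq G] {n : ℕ} {T : Finset G} (g : G) {v : Fin n → MonoidAlgebra K G}
    (hv : v ∈ VT K n T) : lt n g v ∈ VT K n (T.image (g * ·)) := by
  intro i x hx
  rw [lt_apply, MonoidAlgebra.coeff_single_mul_apply, one_mul]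
  exact hv i _ fun h => hx (Finset.mem_image.2 ⟨g⁻¹ * x, h, by simp⟩)

end basic

section dim

variable {K : Type} [Field K] {G : Type} [Group G] {n : ℕ}

instance finite_inf_VT (U : Submodule K (Fin n → MonoidAlgebra K G)) (T : Finset G) :
    FiniteDimensional K (U ⊓ VT K n T : Submodule K (Fin n → MonoidAlgebra K G)) :=
  Submodule.finiteDimensional_of_le (inf_le_right : _ ≤ VT K n T)

/-- The dimension of the elements of `U` supported in `T`. -/
noncomputable def fd (U : Submodule K (Fin n → MonoidAlgebra K G)) (T : Finset G) : ℕ :=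
  Module.finrank K (U ⊓ VT K n T : Submodule K (Fin n → MonoidAlgebra K G))

variable {U U' : Submodule K (Fin n → MonoidAlgebra K G)}

theorem fd_mono {A B : Finset G} (h : A ⊆ B) : fd U A ≤ fd U B :=
  Submodule.finrank_mono (inf_le_inf_left U (VT_mono h))

theorem fd_empty : fd U ∅ = 0 := by
  unfold fd
  rw [VT_empty, inf_bot_eq, finrank_bot]

theorem fd_le (T : Finset G) : fd U T ≤ n * T.card := by
  rw [← finrank_VT (K := K)]
  exact Submodule.finrank_mono inf_le_right

theorem fd_super [DecidableEq G] (A B : Finset G) :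
    fd U A + fd U B ≤ fd U (A ∪ B) + fd U (A ∩ B) := by
  unfold fd
  rw [← Submodule.finrank_sup_add_finrank_inf_eq]
  refine add_le_add (Submodule.finrank_mono ?_) (Submodule.finrank_mono ?_)
  · exact sup_le (inf_le_inf_left U (VT_mono Finset.subset_union_left))
      (inf_le_inf_left U (VT_mono Finset.subset_union_right))
  · rw [← VT_inf]
    exact le_inf (inf_le_left.trans inf_le_left)
      (le_inf (inf_le_left.trans inf_le_right) (inf_le_right.trans inf_le_right))

theorem shearer [DecidableEq G] {ι : Type*} [DecidableEq ι] (s : Finset ι) (S : ι → Finset G) (k : ℕ)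
    (hk : ∀ x, (s.filter fun j => x ∈ S j).card ≤ k) (T : Finset G) :
    ∑ j ∈ s, fd U (S j ∩ T) ≤ k * fd U T := by
  induction T using Finset.induction_on with
  | empty => simp [fd_empty]
  | insert x T hx ih =>
    have h1 : ∀ j ∈ s, fd U (S j ∩ insert x T) ≤
        fd U (S j ∩ T) + if x ∈ S j then fd U (insert x T) - fd U T else 0 := by
      intro j _
      split_ifs with hj
      · have h2 := fd_super (U := U) (S j ∩ insert x T) T
        have h3 : S j ∩ insert x T ∪ T = insert x T := by
          ext y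
          simp only [Finset.mem_union, Finset.mem_inter, Finset.mem_insert]
          constructor
          · rintro (⟨_, h⟩ | h)
            · exact h
            · exact Or.inr h
          · rintro (rfl | h)
            · exact Or.inl ⟨hj, Or.inl rfl⟩
            · exact Or.inr h
        have h4 : S j ∩ insert x T ∩ T = S j ∩ T := by
          ext y
          simp only [Finset.mem_inter, Finset.mem_insert]
          constructor
          · rintro ⟨⟨h, _⟩, h'⟩
            exact ⟨h, h'⟩
          · rintro ⟨h, h'⟩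
            exact ⟨⟨h, Or.inr h'⟩, h'⟩
        rw [h3, h4] at h2
        omega
      · rw [Finset.inter_insert_of_notMem hj, add_zero]
    have h5 : fd U T ≤ fd U (insert x T) := fd_mono (Finset.subset_insert x T)
    calc ∑ j ∈ s, fd U (S j ∩ insert x T)
        ≤ ∑ j ∈ s, (fd U (S j ∩ T) + if x ∈ S j then fd U (insert x T) - fd U T else 0) :=
          Finset.sum_le_sum h1
      _ = ∑ j ∈ s, fd U (S j ∩ T) +
          (s.filter fun j => x ∈ S j).card * (fd U (insert x T) - fd U T) := by
          rw [Finset.sum_add_distrib, ← Finset.sum_filter, Finset.sum_const, smul_eq_mul]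
      _ ≤ k * fd U T + k * (fd U (insert x T) - fd U T) :=
          add_le_add ih (Nat.mul_le_mul_right _ (hk x))
      _ = k * fd U (insert x T) := by
          rw [← mul_add, Nat.add_sub_cancel' h5]

/-- The lower bound along translates. -/
theorem fd_lower [DecidableEq G] (T₀ T Y : Finset G) (hY : ∀ g ∈ Y, ∀ t ∈ T₀, g * t ∈ T)
    (hU : ∀ g ∈ Y, ∀ v ∈ U ⊓ VT K n T₀, lt n g v ∈ U') :
    Y.card * fd U T₀ ≤ T₀.card * fd U' T := by
  have h1 := shearer (U := U') Y (fun g => T₀.image (g * ·)) T₀.card (fun x => by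
    refine Finset.card_le_card_of_injOn (fun g => g⁻¹ * x) ?_ ?_
    · intro g hg
      have hg' := Finset.mem_filter.1 hg
      obtain ⟨t, ht, rfl⟩ := Finset.mem_image.1 hg'.2
      simpa using ht
    · intro g _ h _ hgh
      exact inv_injective (mul_right_cancel hgh)) T
  refine le_trans ?_ h1
  rw [← smul_eq_mul, ← Finset.sum_const]
  refine Finset.sum_le_sum fun g hg => ?_
  have h2 : T₀.image (g * ·) ∩ T = T₀.image (g * ·) := by
    rw [Finset.inter_eq_left]
    intro y hy
    obtain ⟨t, ht, rfl⟩ := Finset.mem_image.1 hy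
    exact hY g hg t ht
  rw [h2]
  unfold fd
  rw [(Submodule.equivMapOfInjective (lt n g) (lt_inj g) (U ⊓ VT K n T₀)).finrank_eq]
  refine Submodule.finrank_mono ?_
  rintro _ ⟨v, hv, rfl⟩
  exact ⟨hU g hg v hv, lt_mem_VT g hv.2⟩

/-- `fd` divided by the size. -/
noncomputable def bt (U : Submodule K (Fin n → MonoidAlgebra K G)) (T : Finset G) : ℝ :=
  (fd U T : ℝ) / T.card

theorem bt_le (U : Submodule K (Fin n → MonoidAlgebra K G)) (T : Finset G) : bt U T ≤ n := by
  unfold bt
  rcases T.eq_empty_or_nonempty with rfl | hT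
  · simp
  · have h0 : (0 : ℝ) < T.card := by exact_mod_cast hT.card_pos
    rw [div_le_iff₀ h0]
    exact_mod_cast fd_le (U := U) T

theorem bt_nonneg (U : Submodule K (Fin n → MonoidAlgebra K G)) (T : Finset G) : 0 ≤ bt U T := by
  unfold bt
  positivity

theorem bt_bdd (U : Submodule K (Fin n → MonoidAlgebra K G)) :
    BddAbove (Set.range (bt U)) := ⟨n, by rintro _ ⟨T, rfl⟩; exact bt_le U T⟩

/-- The dimension. -/
noncomputable def beta (U : Submodule K (Fin n → MonoidAlgebra K G)) : ℝ := ⨆ T, bt U T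

theorem bt_le_beta (U : Submodule K (Fin n → MonoidAlgebra K G)) (T : Finset G) :
    bt U T ≤ beta U := le_ciSup (bt_bdd U) T

theorem beta_nonneg (U : Submodule K (Fin n → MonoidAlgebra K G)) : 0 ≤ beta U :=
  (bt_nonneg U ∅).trans (bt_le_beta U ∅)

theorem fd_le_beta (U : Submodule K (Fin n → MonoidAlgebra K G)) (T : Finset G) :
    (fd U T : ℝ) ≤ beta U * T.card := by
  rcases T.eq_empty_or_nonempty with rfl | hT
  · simp [fd_empty]
  · have h0 : (0 : ℝ) < T.card := by exact_mod_cast hT.card_pos
    have h1 := bt_le_beta U T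
    unfold bt at h1
    rwa [div_le_iff₀ h0] at h1

theorem beta_bot : beta (⊥ : Submodule K (Fin n → MonoidAlgebra K G)) = 0 := by
  refine le_antisymm (ciSup_le fun T => ?_) (beta_nonneg _)
  unfold bt fd
  rw [bot_inf_eq, finrank_bot]
  simp

/-- Right multiplication by a matrix. -/
noncomputable def vm {a b : ℕ} (M : Matrix (Fin a) (Fin b) (MonoidAlgebra K G)) :
    (Fin a → MonoidAlgebra K G) →ₗ[K] (Fin b → MonoidAlgebra K G) where
  toFun v := Matrix.vecMul v M
  map_add' v w := Matrix.add_vecMul M v w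
  map_smul' c v := Matrix.smul_vecMul c v M

theorem vm_apply {a b : ℕ} (M : Matrix (Fin a) (Fin b) (MonoidAlgebra K G))
    (v : Fin a → MonoidAlgebra K G) : vm M v = Matrix.vecMul v M := rfl

theorem vm_lt {a b : ℕ} (M : Matrix (Fin a) (Fin b) (MonoidAlgebra K G)) (g : G)
    (v : Fin a → MonoidAlgebra K G) : vm M (lt a g v) = lt b g (vm M v) := by
  funext j
  rw [vm_apply, vm_apply, lt_apply]
  simp only [Matrix.vecMul, dotProduct, lt_apply, Finset.mul_sum, mul_assoc]

open scoped Pointwise in
/-- The support of the image. -/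
theorem vm_VT [DecidableEq G] {a b : ℕ} (M : Matrix (Fin a) (Fin b) (MonoidAlgebra K G)) :
    ∃ S : Finset G, ∀ (T : Finset G) (v : Fin a → MonoidAlgebra K G), v ∈ VT K a T →
      vm M v ∈ VT K b (T * S) := by
  refine ⟨Finset.univ.biUnion fun i => Finset.univ.biUnion fun j => (M i j).coeff.support,
    fun T v hv j g hg => ?_⟩
  rw [vm_apply]
  simp only [Matrix.vecMul, dotProduct, coeff_sum, Finsupp.finsetSum_apply]
  refine Finset.sum_eq_zero fun i _ => ?_
  rw [coeff_mul_apply_left]
  refine Finset.sum_eq_zero fun h hh => ?_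
  by_cases h1 : (M i j).coeff (h⁻¹ * g) = 0
  · simp only [h1, mul_zero]
  · exfalso
    refine hg (Finset.mem_mul.2 ⟨h, ?_, h⁻¹ * g, ?_, by simp⟩)
    · by_contra hT
      exact Finsupp.mem_support_iff.1 hh (hv i h hT)
    · exact Finset.mem_biUnion.2 ⟨i, Finset.mem_univ _, Finset.mem_biUnion.2
        ⟨j, Finset.mem_univ _, Finsupp.mem_support_iff.2 h1⟩⟩

/-- The right Følner condition. -/
theorem right_folner [hdec : DecidableEq G] (hG : Folner G) (E : Finset G) {ε : ℝ} (hε : 0 < ε) :
    ∃ T : Finset G, T.Nonempty ∧ ((T.filter fun g => ∃ t ∈ E, g * t ∉ T).card : ℝ) ≤ ε * T.card := by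
  have hdec' : (fun a b : G => Classical.propDecidable (a = b)) = hdec := Subsingleton.elim _ _
  obtain ⟨F, hF0, hF⟩ := hG (E.image (·⁻¹)) (ε / (E.card + 1)) (by positivity)
  refine ⟨F.image (·⁻¹), hF0.image _, ?_⟩
  have hc : (F.image (·⁻¹)).card = F.card := Finset.card_image_of_injective _ inv_injective
  rw [hc]
  have h1 : (((F.image (·⁻¹)).filter fun g => ∃ t ∈ E, g * t ∉ F.image (·⁻¹)).card) ≤
      ∑ t ∈ E, ((F.image fun x => t⁻¹ * x) \ F).card := by
    have h2 : ((F.image (·⁻¹)).filter fun g => ∃ t ∈ E, g * t ∉ F.image (·⁻¹)) ⊆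
        E.biUnion fun t => (((F.image fun x => t⁻¹ * x) \ F).image fun x => (t * x)⁻¹) := by
      intro g hg
      obtain ⟨hg1, t, ht, hgt⟩ := Finset.mem_filter.1 hg
      obtain ⟨f, hf, rfl⟩ := Finset.mem_image.1 hg1
      refine Finset.mem_biUnion.2 ⟨t, ht, Finset.mem_image.2 ⟨t⁻¹ * f, ?_, by simp⟩⟩
      refine Finset.mem_sdiff.2 ⟨Finset.mem_image.2 ⟨f, hf, rfl⟩, fun h => hgt ?_⟩
      exact Finset.mem_image.2 ⟨t⁻¹ * f, h, by simp⟩
    refine (Finset.card_le_card h2).trans (Finset.card_biUnion_le.trans ?_)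
    exact Finset.sum_le_sum fun t _ => Finset.card_image_le
  have h3 : ((∑ t ∈ E, ((F.image fun x => t⁻¹ * x) \ F).card : ℕ) : ℝ) ≤
      ∑ t ∈ E, (ε / (E.card + 1) * F.card) := by
    rw [Nat.cast_sum]
    refine Finset.sum_le_sum fun t ht => ?_
    have h8 := hF t⁻¹ (Finset.mem_image_of_mem _ ht)
    rw [hdec'] at h8
    exact h8
  have h4 : (((F.image (·⁻¹)).filter fun g => ∃ t ∈ E, g * t ∉ F.image (·⁻¹)).card : ℝ) ≤
      ∑ t ∈ E, (ε / (E.card + 1) * F.card) := le_trans (by exact_mod_cast h1) h3
  refine h4.trans ?_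
  rw [Finset.sum_const, nsmul_eq_mul]
  have h5 : (E.card : ℝ) * (ε / (E.card + 1) * F.card) =
      (E.card : ℝ) / (E.card + 1) * (ε * F.card) := by ring
  rw [h5]
  have h6 : (E.card : ℝ) / (E.card + 1) ≤ 1 := by
    rw [div_le_one (by positivity)]
    linarith
  have h7 : 0 ≤ ε * (F.card : ℝ) := by positivity
  nlinarith

variable {a b : ℕ} (M : Matrix (Fin a) (Fin b) (MonoidAlgebra K G))

theorem vm_finrank (T : Finset G) :
    a * T.card = fd (LinearMap.ker (vm M)) T + Module.finrank K ((VT K a T).map (vm M)) := by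
  have h1 := LinearMap.finrank_range_add_finrank_ker ((vm M).domRestrict (VT K a T))
  rw [finrank_VT] at h1
  rw [← h1, add_comm]
  congr 1
  · unfold fd
    rw [LinearMap.ker_domRestrict]
    have : (LinearMap.ker (vm M) ⊓ VT K a T : Submodule K _) =
        ((LinearMap.ker (vm M)).comap (VT K a T).subtype).map (VT K a T).subtype := by
      rw [Submodule.map_comap_subtype, inf_comm]
    rw [this]
    exact (Submodule.equivMapOfInjective _ (Submodule.injective_subtype _) _).finrank_eq
  · rw [LinearMap.range_domRestrict]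

theorem beta_add_le (hG : Folner G) :
    (a : ℝ) ≤ beta (LinearMap.ker (vm M)) + beta (LinearMap.range (vm M)) := by
  classical
  obtain ⟨S, hS⟩ := vm_VT M
  refine le_of_forall_pos_le_add fun ε hε => ?_
  set β := beta (LinearMap.range (vm M)) with hβ
  have hβ0 : 0 ≤ β := beta_nonneg _
  obtain ⟨T, hT0, hT⟩ := right_folner hG S (ε := ε / ((S.card + 1) * (β + 1))) (by positivity)
  have hTc : (0 : ℝ) < T.card := by exact_mod_cast hT0.card_pos
  open scoped Pointwise in
  have h1 : ((T * S).card : ℝ) ≤ T.card + S.card * (ε / ((S.card + 1) * (β + 1)) * T.card) := by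
    have h2 : T * S ⊆ T ∪ (T.filter fun g => ∃ t ∈ S, g * t ∉ T) * S := by
      intro x hx
      obtain ⟨t, ht, s, hs, rfl⟩ := Finset.mem_mul.1 hx
      by_cases h : t * s ∈ T
      · exact Finset.mem_union_left _ h
      · exact Finset.mem_union_right _ (Finset.mul_mem_mul
          (Finset.mem_filter.2 ⟨ht, s, hs, h⟩) hs)
    have h3 : (T * S).card ≤ T.card + (T.filter fun g => ∃ t ∈ S, g * t ∉ T).card * S.card :=
      (Finset.card_le_card h2).trans ((Finset.card_union_le _ _).trans
        (Nat.add_le_add_left Finset.card_mul_le _))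
    have h4 : ((T * S).card : ℝ) ≤
        T.card + ((T.filter fun g => ∃ t ∈ S, g * t ∉ T).card : ℝ) * S.card := by
      exact_mod_cast h3
    refine h4.trans ?_
    have h5 : (0 : ℝ) ≤ S.card := by positivity
    nlinarith
  open scoped Pointwise in
  have h2 : Module.finrank K ((VT K a T).map (vm M)) ≤ fd (LinearMap.range (vm M)) (T * S) := by
    refine Submodule.finrank_mono ?_
    rintro _ ⟨v, hv, rfl⟩
    exact ⟨⟨v, rfl⟩, hS T v hv⟩
  have h3 := vm_finrank M T
  have h4 : (a : ℝ) * T.card ≤ beta (LinearMap.ker (vm M)) * T.card +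
      β * (T.card + S.card * (ε / ((S.card + 1) * (β + 1)) * T.card)) := by
    have h5 : (a : ℝ) * T.card = fd (LinearMap.ker (vm M)) T +
        (Module.finrank K ((VT K a T).map (vm M)) : ℝ) := by exact_mod_cast h3
    rw [h5]
    refine add_le_add (fd_le_beta _ _) ?_
    refine le_trans (Nat.cast_le.2 h2) ((fd_le_beta _ _).trans ?_)
    exact mul_le_mul_of_nonneg_left h1 hβ0
  have h5 : β * (S.card * (ε / ((S.card + 1) * (β + 1)) * T.card)) ≤ ε * T.card := by
    have h6 : β * (S.card * (ε / ((S.card + 1) * (β + 1)) * T.card)) =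
        (β / (β + 1)) * (S.card / (S.card + 1)) * (ε * T.card) := by
      field_simp
    rw [h6]
    have h7 : β / (β + 1) ≤ 1 := by
      rw [div_le_one (by positivity)]; linarith
    have h8 : (S.card : ℝ) / (S.card + 1) ≤ 1 := by
      rw [div_le_one (by positivity)]; linarith
    have h9 : 0 ≤ β / (β + 1) := by positivity
    have h10 : 0 ≤ (S.card : ℝ) / (S.card + 1) := by positivity
    have h11 : 0 ≤ ε * (T.card : ℝ) := by positivity
    have h12 : β / (β + 1) * (S.card / (S.card + 1)) ≤ 1 := by nlinarith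
    nlinarith
  have h6 : (a : ℝ) * T.card ≤ (beta (LinearMap.ker (vm M)) + β + ε) * T.card := by nlinarith
  exact le_of_mul_le_mul_right h6 hTc

theorem bt_add_le (hG : Folner G) (T₀ T₁ : Finset G) :
    bt (LinearMap.ker (vm M)) T₀ + bt (LinearMap.range (vm M)) T₁ ≤ a := by
  classical
  -- preimage of the second space
  obtain ⟨W, hW, hWm⟩ : ∃ W : Finset G,
      (LinearMap.range (vm M) ⊓ VT K b T₁) ≤ (VT K a W).map (vm M) ∧ True := by
    have h1 : ∃ V : Submodule K (Fin a → MonoidAlgebra K G), FiniteDimensional K V ∧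
        V.map (vm M) = LinearMap.range (vm M) ⊓ VT K b T₁ := by
      obtain ⟨s, hs⟩ := (Module.Finite.iff_fg
        (N := (LinearMap.range (vm M) ⊓ VT K b T₁ : Submodule K _))).1 inferInstance
      have h2 : ∀ v ∈ s, ∃ w, vm M w = v := by
        intro v hv
        have : v ∈ (LinearMap.range (vm M) ⊓ VT K b T₁ : Submodule K _) := by
          rw [← hs]; exact Submodule.subset_span hv
        exact this.1
      choose! w hw using h2
      refine ⟨Submodule.span K (w '' s), FiniteDimensional.span_of_finite K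
        (s.finite_toSet.image w), ?_⟩
      rw [Submodule.map_span, ← hs]
      congr 1
      ext x
      simp only [Set.mem_image, Finset.mem_coe, exists_exists_and_eq_and]
      constructor
      · rintro ⟨v, hv, rfl⟩
        rw [hw v hv]; exact hv
      · intro hx
        exact ⟨x, hx, hw x hx⟩
    obtain ⟨V, hVf, hV⟩ := h1
    obtain ⟨T, hT⟩ := exists_VT_fd V
    exact ⟨T, by rw [← hV]; exact Submodule.map_mono hT, trivial⟩
  refine le_of_forall_pos_le_add fun ε hε => ?_
  obtain ⟨T, hT0, hT⟩ := right_folner hG (T₀ ∪ (T₁ ∪ W)) (ε := ε / (a + b + 1)) (by positivity)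
  have hTc : (0 : ℝ) < T.card := by exact_mod_cast hT0.card_pos
  set Y := T.filter fun g => ¬ ∃ t ∈ T₀ ∪ (T₁ ∪ W), g * t ∉ T with hY
  have hYc : (T.card : ℝ) - ε / (a + b + 1) * T.card ≤ Y.card := by
    have h1 := Finset.card_filter_add_card_filter_not (s := T)
      (fun g => ∃ t ∈ T₀ ∪ (T₁ ∪ W), g * t ∉ T)
    have h2 : (T.card : ℝ) = ((T.filter fun g => ∃ t ∈ T₀ ∪ (T₁ ∪ W), g * t ∉ T).card : ℝ) +
        Y.card := by
      rw [← h1]; push_cast; rfl
    linarith
  have hY' : ∀ g ∈ Y, ∀ t ∈ T₀ ∪ (T₁ ∪ W), g * t ∈ T := by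
    intro g hg t ht
    by_contra h
    exact (Finset.mem_filter.1 hg).2 ⟨t, ht, h⟩
  have h1 := fd_lower (U := LinearMap.ker (vm M)) (U' := LinearMap.ker (vm M)) T₀ T Y
    (fun g hg t ht => hY' g hg t (Finset.mem_union_left _ ht)) (fun g _ v hv => by
      rw [LinearMap.mem_ker, vm_lt, LinearMap.mem_ker.1 hv.1, map_zero])
  have h2 := fd_lower (U := LinearMap.range (vm M)) (U' := (VT K a T).map (vm M)) T₁ T Y
    (fun g hg t ht => hY' g hg t (Finset.mem_union_right _ (Finset.mem_union_left _ ht)))
    (fun g hg v hv => by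
      obtain ⟨w, hw, rfl⟩ := hW hv
      refine ⟨lt a g w, ?_, vm_lt M g w⟩
      refine VT_mono ?_ (lt_mem_VT g hw)
      intro y hy
      obtain ⟨t, ht, rfl⟩ := Finset.mem_image.1 hy
      exact hY' g hg t (Finset.mem_union_right _ (Finset.mem_union_right _ ht)))
  have h3 : fd ((VT K a T).map (vm M)) T ≤ Module.finrank K ((VT K a T).map (vm M)) :=
    Submodule.finrank_mono inf_le_left
  have h4 := vm_finrank M T
  have key : ∀ (x y t : ℕ), Y.card * x ≤ t * y → (Y.card : ℝ) * ((x : ℝ) / t) ≤ y := by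
    intro x y t h
    rcases Nat.eq_zero_or_pos t with rfl | ht
    · simp
    · have ht' : (0 : ℝ) < t := by exact_mod_cast ht
      rw [← mul_div_assoc, div_le_iff₀ ht']
      have : ((Y.card * x : ℕ) : ℝ) ≤ ((t * y : ℕ) : ℝ) := by exact_mod_cast h
      push_cast at this
      linarith
  have k1 := key _ _ _ h1
  have k2 := key _ _ _ h2
  set x := bt (LinearMap.ker (vm M)) T₀ with hx
  set y := bt (LinearMap.range (vm M)) T₁ with hy
  have k3 : (Y.card : ℝ) * (x + y) ≤ a * T.card := by
    have h5 : (a : ℝ) * T.card = fd (LinearMap.ker (vm M)) T +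
        (Module.finrank K ((VT K a T).map (vm M)) : ℝ) := by exact_mod_cast h4
    have h6 : (fd ((VT K a T).map (vm M)) T : ℝ) ≤
        Module.finrank K ((VT K a T).map (vm M)) := by exact_mod_cast h3
    have e1 : (Y.card : ℝ) * x ≤ fd (LinearMap.ker (vm M)) T := k1
    have e2 : (Y.card : ℝ) * y ≤ fd ((VT K a T).map (vm M)) T := k2
    rw [mul_add, h5]
    linarith
  have k4 : x + y ≤ a + b := add_le_add (bt_le _ _) (bt_le _ _)
  have k5 : 0 ≤ x + y := add_nonneg (bt_nonneg _ _) (bt_nonneg _ _)
  have k6 : (T.card - ε / (a + b + 1) * T.card) * (x + y) ≤ a * T.card :=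
    (mul_le_mul_of_nonneg_right hYc k5).trans k3
  have k7 : ε / (a + b + 1) * (x + y) ≤ ε := by
    rw [div_mul_eq_mul_div, div_le_iff₀ (by positivity)]
    nlinarith
  have k8 : (x + y) * T.card ≤ (a + ε) * T.card := by nlinarith
  exact le_of_mul_le_mul_right k8 hTc

theorem beta_add (hG : Folner G) :
    beta (LinearMap.ker (vm M)) + beta (LinearMap.range (vm M)) = a := by
  refine le_antisymm ?_ (beta_add_le M hG)
  rw [← le_sub_iff_add_le]
  refine ciSup_le fun T₀ => ?_
  rw [le_sub_iff_add_le, ← le_sub_iff_add_le']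
  refine ciSup_le fun T₁ => ?_
  rw [le_sub_iff_add_le']
  exact bt_add_le M hG T₀ T₁

/-- The kernel of a functional has full dimension. -/
theorem beta_ker_functional [Infinite G] (ε : (Fin n → MonoidAlgebra K G) →ₗ[K] K) :
    beta (LinearMap.ker ε) = n := by
  refine le_antisymm (ciSup_le fun T => bt_le _ T) (le_of_forall_pos_le_add fun δ hδ => ?_)
  obtain ⟨m, hm⟩ := exists_nat_gt (1 / δ)
  obtain ⟨T, hT⟩ := Infinite.exists_subset_card_eq G (m + 1)
  have h1 : n * T.card ≤ fd (LinearMap.ker ε) T + 1 := by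
    have h2 := LinearMap.finrank_range_add_finrank_ker (ε.domRestrict (VT K n T))
    rw [finrank_VT] at h2
    have h3 : Module.finrank K (LinearMap.range (ε.domRestrict (VT K n T))) ≤ 1 := by
      refine (Submodule.finrank_le _).trans ?_
      rw [Module.finrank_self]
    have h4 : Module.finrank K (LinearMap.ker (ε.domRestrict (VT K n T))) =
        fd (LinearMap.ker ε) T := by
      unfold fd
      rw [LinearMap.ker_domRestrict]
      have : (LinearMap.ker ε ⊓ VT K n T : Submodule K _) =
          ((LinearMap.ker ε).comap (VT K n T).subtype).map (VT K n T).subtype := by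
        rw [Submodule.map_comap_subtype, inf_comm]
      rw [this]
      exact (Submodule.equivMapOfInjective _ (Submodule.injective_subtype _) _).finrank_eq
    omega
  have h2 := fd_le_beta (LinearMap.ker ε) T
  have h3 : (n : ℝ) * T.card ≤ fd (LinearMap.ker ε) T + 1 := by exact_mod_cast h1
  have h4 : (T.card : ℝ) = m + 1 := by rw [hT]; push_cast; rfl
  have h5 : (1 : ℝ) ≤ δ * T.card := by
    rw [h4]
    rw [div_lt_iff₀ hδ] at hm
    nlinarith
  have h6 : (0 : ℝ) < T.card := by rw [h4]; positivity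
  have h7 : (n : ℝ) * T.card ≤ (beta (LinearMap.ker ε) + δ) * T.card := by nlinarith
  exact le_of_mul_le_mul_right h7 h6

end dim

/-- **Euler characteristic zero.** -/
theorem euler_zero {K : Type} [Field K] {G : Type} [Group G] [Infinite G] (hG : Folner G)
    {n₀ n₁ n₂ n₃ n₄ : ℕ} (ε : (Fin n₀ → MonoidAlgebra K G) →ₗ[K] K)
    (d₁ : Matrix (Fin n₁) (Fin n₀) (MonoidAlgebra K G))
    (d₂ : Matrix (Fin n₂) (Fin n₁) (MonoidAlgebra K G))
    (d₃ : Matrix (Fin n₃) (Fin n₂) (MonoidAlgebra K G))
    (d₄ : Matrix (Fin n₄) (Fin n₃) (MonoidAlgebra K G))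
    (h₀ : LinearMap.range (vm d₁) = LinearMap.ker ε)
    (h₁ : LinearMap.range (vm d₂) = LinearMap.ker (vm d₁))
    (h₂ : LinearMap.range (vm d₃) = LinearMap.ker (vm d₂))
    (h₃ : LinearMap.range (vm d₄) = LinearMap.ker (vm d₃))
    (h₄ : LinearMap.ker (vm d₄) = ⊥) : n₀ + n₂ + n₄ = n₁ + n₃ := by
  have e₁ := beta_add d₁ hG
  have e₂ := beta_add d₂ hG
  have e₃ := beta_add d₃ hG
  have e₄ := beta_add d₄ hG
  rw [h₀, beta_ker_functional] at e₁
  rw [h₁] at e₂
  rw [h₂] at e₃
  rw [h₃, h₄, beta_bot] at e₄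
  have : (n₀ : ℝ) + n₂ + n₄ = n₁ + n₃ := by linarith
  exact_mod_cast this

end Vale.Agent.P260.H145
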