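import Mathlib
import Vale.Agent.P300.H863.Fox

/-!
# P260, block C1: minimal generation modulo the augmentation ideal
-/

set_option linter.unusedSectionVars false

namespace Vale.Agent.P260.H145

open Finset Submodule MonoidAlgebra Vale.Agent.P300.GS

variable {K : Type} [Field K] {S : Type} [Group S]

theorem amap_of {G H : Type} [Group G] [Group H] (f : G →* H) (g : G) :
    mapDomainAlgHom K K f (of K G g) = of K H (f g) := by simp

theorem of_pow_sub_one {G : Type} [Group G] (l : ℕ) [Fact l.Prime] [CharP K l] (g : G) :
    of K G (g ^ l) - 1 = (of K G g - 1) ^ l := by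
  have : CharP (MonoidAlgebra K G) l := by
    refine charP_of_injective_algebraMap (R := K) ?_ l
    exact (algebraMap K (MonoidAlgebra K G)).injective
  rw [sub_pow_char_of_commute l (Commute.one_right _), one_pow, map_pow]

/-- The derivation attached to a homomorphism. -/
noncomputable def der (χ : Additive S →+ K) : MonoidAlgebra K S →ₗ[K] K where
  toFun y := y.coeff.sum fun s c => c * χ (Additive.ofMul s)
  map_add' y z := by
    rw [coeff_add, Finsupp.sum_add_index']
    · intro; rw [zero_mul]
    · intro _ _ _; rw [add_mul]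
  map_smul' c y := by
    rw [coeff_smul, Finsupp.sum_smul_index', smul_eq_mul, Finsupp.mul_sum, RingHom.id_apply]
    · refine Finsupp.sum_congr fun g _ => ?_
      rw [smul_eq_mul, mul_assoc]
    · intro; rw [zero_mul]

theorem der_of (χ : Additive S →+ K) (s : S) : der χ (of K S s) = χ (Additive.ofMul s) := by
  show (of K S s).coeff.sum (fun s c => c * χ (Additive.ofMul s)) = _
  rw [of_apply, coeff_single, Finsupp.sum_single_index (by rw [zero_mul]), one_mul]

theorem der_mul (χ : Additive S →+ K) (y z : MonoidAlgebra K S) :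
    der χ (y * z) = der χ y * aug K S z + aug K S y * der χ z := by
  induction y using MonoidAlgebra.induction_on with
  | of g =>
    induction z using MonoidAlgebra.induction_on with
    | of h =>
      rw [← map_mul (of K S), der_of, der_of, der_of, aug_of, aug_of, mul_one, one_mul, ofMul_mul,
        map_add]
    | add x y hx hy => rw [mul_add, map_add, hx, hy, map_add, map_add]; ring
    | smul c x hx => rw [mul_smul_comm, map_smul, hx, map_smul, map_smul]; simp only [smul_eq_mul]; ring
  | add x y hx hy => rw [add_mul, map_add, hx, hy, map_add, map_add]; ring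
  | smul c x hx => rw [smul_mul_assoc, map_smul, hx, map_smul, map_smul]; simp only [smul_eq_mul]; ring

theorem der_one (χ : Additive S →+ K) : der χ (1 : MonoidAlgebra K S) = 0 := by
  have := der_mul χ 1 1
  rw [mul_one, map_one (aug K S), mul_one, one_mul] at this
  simpa using this

theorem der_two (χ : Additive S →+ K) {y : MonoidAlgebra K S} (hy : y ∈ augF K S 2) :
    der χ y = 0 := by
  rw [mem_augF, show (2 : ℕ) = 1 + 1 from rfl, Submodule.pow_succ, Submodule.pow_one] at hy
  refine Submodule.mul_induction_on (C := fun y => der χ y = 0) hy (fun a ha b hb => ?_)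
    fun x y hx hy => ?_
  · rw [der_mul, mem_augI.1 ha, mem_augI.1 hb, mul_zero, zero_mul, add_zero]
  · rw [map_add, hx, hy, add_zero]

/-- Elements separating homomorphisms. -/
theorem exists_sep [FiniteDimensional K (Additive S →+ K)] :
    ∃ (x : Fin (Module.finrank K (Additive S →+ K)) → S),
      (∀ χ : Additive S →+ K, (∀ i, χ (Additive.ofMul (x i)) = 0) → χ = 0) ∧
      ∀ i, ∃ χ : Additive S →+ K, ∀ j, χ (Additive.ofMul (x j)) = if j = i then 1 else 0 := by
  classical
  let V := Additive S →+ K
  let ev : S → Module.Dual K V := fun s =>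
    { toFun := fun χ => χ (Additive.ofMul s)
      map_add' := fun _ _ => rfl
      map_smul' := fun _ _ => rfl }
  have hev : ∀ s χ, ev s χ = χ (Additive.ofMul s) := fun _ _ => rfl
  have hspan : Submodule.span K (Set.range ev) = ⊤ := by
    by_contra hne
    obtain ⟨f, hf0, hf⟩ := Submodule.exists_le_ker_of_lt_top _ (lt_top_iff_ne_top.2 hne)
    obtain ⟨χ, rfl⟩ := (Module.evalEquiv K V).surjective f
    refine hf0 ?_
    have hχ : χ = 0 := by
      refine AddMonoidHom.ext fun s => ?_
      have h1 := hf (Submodule.subset_span ⟨s.toMul, rfl⟩)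
      rw [LinearMap.mem_ker] at h1
      exact h1
    rw [hχ, map_zero]
  obtain ⟨f, hf1, hf2, -⟩ := Submodule.exists_fun_fin_finrank_span_eq K (Set.range ev)
  have hfr : Module.finrank K (Submodule.span K (Set.range ev)) = Module.finrank K V := by
    rw [hspan, finrank_top, Subspace.dual_finrank_eq]
  have key : ∀ (d : ℕ) (f : Fin d → Module.Dual K V), (∀ i, f i ∈ Set.range ev) →
      Submodule.span K (Set.range f) = Submodule.span K (Set.range ev) →
      d = Module.finrank K V → ∃ (x : Fin (Module.finrank K V) → S),
      (∀ χ : V, (∀ i, χ (Additive.ofMul (x i)) = 0) → χ = 0) ∧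
      ∀ i, ∃ χ : V, ∀ j, χ (Additive.ofMul (x j)) = if j = i then 1 else 0 := by
    intro d f hf1 hf2 hd
    subst hd
    choose x hx using hf1
    have h1 : ∀ χ : V, (∀ i, χ (Additive.ofMul (x i)) = 0) → χ = 0 := by
      intro χ hχ
      have h2 : ∀ φ : Module.Dual K V, φ χ = 0 := by
        intro φ
        have h3 : φ ∈ Submodule.span K (Set.range f) := by rw [hf2, hspan]; trivial
        have h4 : Submodule.span K (Set.range f) ≤ LinearMap.ker (Module.Dual.eval K V χ) := by
          refine Submodule.span_le.2 ?_
          rintro _ ⟨i, rfl⟩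
          rw [SetLike.mem_coe, LinearMap.mem_ker, Module.Dual.eval_apply, ← hx i]
          exact hχ i
        exact h4 h3
      exact (Module.forall_dual_apply_eq_zero_iff K χ).1 h2
    refine ⟨x, h1, ?_⟩
    let T : V →ₗ[K] (Fin (Module.finrank K V) → K) :=
      LinearMap.pi fun i => ev (x i)
    have hT : Function.Injective T := by
      rw [injective_iff_map_eq_zero]
      intro χ hχ
      exact h1 χ fun i => congrFun hχ i
    have hT' : Function.Surjective T :=
      (LinearMap.injective_iff_surjective_of_finrank_eq_finrank (by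
        rw [Module.finrank_fintype_fun_eq_card, Fintype.card_fin])).1 hT
    intro i
    obtain ⟨χ, hχ⟩ := hT' fun j => if j = i then 1 else 0
    exact ⟨χ, fun j => congrFun hχ j⟩
  exact key _ f hf1 hf2 hfr

/-- Minimality. -/
theorem min_of_sep {d : ℕ} (x : Fin d → S)
    (h : ∀ i, ∃ χ : Additive S →+ K, ∀ j, χ (Additive.ofMul (x j)) = if j = i then 1 else 0)
    (a : MonoidAlgebra K (FreeGroup (Fin d)))
    (ha : mapDomainAlgHom K K (FreeGroup.lift x) a ∈ augF K S 2) : a ∈ augF K _ 2 := by
  classical
  have haug : ∀ r : MonoidAlgebra K (FreeGroup (Fin d)),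
      aug K S (mapDomainAlgHom K K (FreeGroup.lift x) r) = aug K _ r := by
    intro r
    induction r using MonoidAlgebra.induction_on with
    | of g => rw [show mapDomainAlgHom K K (FreeGroup.lift x) (of K _ g) =
        of K S (FreeGroup.lift x g) from amap_of _ _, aug_of, aug_of]
    | add x y hx hy => rw [map_add, map_add, map_add, hx, hy]
    | smul c x hx => rw [map_smul, map_smul, map_smul, hx]
  obtain ⟨c, b, rfl⟩ := (foxFil K (Fin d)).dec0 a
  have hc : c = 0 := by
    have h1 := augF_anti (show 1 ≤ 2 by norm_num) ha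
    rw [mem_augF_one, haug, map_add, AlgHom.commutes, map_sum] at h1
    simp only [foxFil_X, XX, map_mul, map_sub, aug_of, map_one, sub_self, mul_zero,
      Finset.sum_const_zero, add_zero] at h1
    exact h1
  subst hc
  rw [map_zero, zero_add] at ha ⊢
  have hb : ∀ i, b i ∈ augF K (FreeGroup (Fin d)) 1 := by
    intro i
    obtain ⟨χ, hχ⟩ := h i
    have h1 := der_two χ ha
    rw [map_sum, map_sum] at h1
    have h2 : ∀ j, der χ (mapDomainAlgHom K K (FreeGroup.lift x) (b j * (foxFil K (Fin d)).X j)) =
        if j = i then aug K _ (b j) else 0 := by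
      intro j
      rw [map_mul, der_mul, foxFil_X, XX, haug, haug, map_sub, map_sub,
        show mapDomainAlgHom K K (FreeGroup.lift x) (of K _ (FreeGroup.of j)) =
        of K S (FreeGroup.lift x (FreeGroup.of j)) from amap_of _ _, FreeGroup.lift_apply_of,
        map_one, map_one, aug_of, sub_self, mul_zero, zero_add, map_sub, der_of, der_one,
        sub_zero, hχ]
      split_ifs <;> simp
    rw [Finset.sum_congr rfl fun j _ => h2 j] at h1
    simp only [Finset.sum_ite_eq', Finset.mem_univ, if_true] at h1
    rw [mem_augF_one]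
    exact h1
  exact sum_mem fun i _ => augF_mul (hb i) ((foxFil K (Fin d)).Xmem i)

/-- Generation, first step. -/
theorem gen_base {d : ℕ} (x : Fin d → S)
    (h : ∀ χ : Additive S →+ K, (∀ i, χ (Additive.ofMul (x i)) = 0) → χ = 0) :
    ∀ y ∈ augF K S 1, ∃ a ∈ augF K (FreeGroup (Fin d)) 1,
      y - mapDomainAlgHom K K (FreeGroup.lift x) a ∈ augF K S 2 := by
  classical
  intro y hy
  set U := augF K S 2 ⊔ (augF K (FreeGroup (Fin d)) 1).map
    (mapDomainAlgHom K K (FreeGroup.lift x)).toLinearMap with hU
  have hmem : y ∈ U := by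
    by_contra hyU
    obtain ⟨f, hf, hUf⟩ := Submodule.exists_le_ker_of_notMem hyU
    refine hf ?_
    have hf2 : ∀ z ∈ augF K S 2, f z = 0 := fun z hz => hUf (le_sup_left (a := augF K S 2) hz)
    let χ : Additive S →+ K :=
      { toFun := fun s => f (of K S s.toMul - 1)
        map_zero' := by rw [toMul_zero, map_one, sub_self, map_zero]
        map_add' := fun s t => by
          rw [toMul_add, ← map_add, ← sub_eq_zero, ← map_sub]
          refine hf2 _ ?_
          have e : of K S (s.toMul * t.toMul) - 1 - (of K S s.toMul - 1 + (of K S t.toMul - 1)) =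
              (of K S s.toMul - 1) * (of K S t.toMul - 1) := by
            rw [map_mul (of K S), sub_mul, mul_sub, mul_one, one_mul]
            abel
          rw [e]
          exact augF_mul (augF_one_sub _) (augF_one_sub _) }
    have hχ : ∀ s, χ (Additive.ofMul s) = f (of K S s - 1) := fun _ => rfl
    have hχ0 : χ = 0 := by
      refine h χ fun i => ?_
      rw [hχ]
      refine hUf (Submodule.mem_sup_right ?_)
      refine ⟨XX K i, augF_one_sub _, ?_⟩
      show mapDomainAlgHom K K (FreeGroup.lift x) (of K _ (FreeGroup.of i) - 1) = _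
      rw [map_sub, map_one, show mapDomainAlgHom K K (FreeGroup.lift x) (of K _ (FreeGroup.of i)) =
        of K S (FreeGroup.lift x (FreeGroup.of i)) from amap_of _ _, FreeGroup.lift_apply_of]
    have hall : ∀ z : MonoidAlgebra K S, f (z - algebraMap K _ (aug K S z)) = 0 := by
      intro z
      induction z using MonoidAlgebra.induction_on with
      | of g =>
        rw [aug_of, map_one, ← hχ, hχ0]
        rfl
      | add x y hx hy => rw [map_add, map_add, add_sub_add_comm, map_add, hx, hy, add_zero]
      | smul c x hx =>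
        have e : c • x - algebraMap K _ (aug K S (c • x)) =
            c • (x - algebraMap K _ (aug K S x)) := by
          rw [map_smul, smul_eq_mul, map_mul, smul_sub, Algebra.smul_def c (algebraMap K _ _)]
        rw [e, map_smul, hx, smul_zero]
    have h3 := hall y
    rw [mem_augF_one.1 hy, map_zero, sub_zero] at h3
    exact h3
  obtain ⟨z, hz, _, ⟨a, ha, rfl⟩, rfl⟩ := mem_sup.1 hmem
  refine ⟨a, ha, ?_⟩
  have e : z + (mapDomainAlgHom K K (FreeGroup.lift x)).toLinearMap a -
      mapDomainAlgHom K K (FreeGroup.lift x) a = z := add_sub_cancel_right _ _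
  rw [e]
  exact hz

/-- Generation. -/
theorem gen_of_sep {d : ℕ} (x : Fin d → S)
    (h : ∀ χ : Additive S →+ K, (∀ i, χ (Additive.ofMul (x i)) = 0) → χ = 0) (k : ℕ) :
    ∀ y ∈ augF K S k, ∃ a ∈ augF K (FreeGroup (Fin d)) k,
      y - mapDomainAlgHom K K (FreeGroup.lift x) a ∈ augF K S (k + 1) := by
  classical
  rcases Nat.eq_zero_or_pos k with rfl | hk
  · intro y _
    refine ⟨algebraMap K _ (aug K S y), by rw [augF_zero]; trivial, ?_⟩
    rw [zero_add, mem_augF_one, AlgHom.commutes, map_sub, AlgHom.commutes,
      Algebra.algebraMap_self_apply, sub_self]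
  induction k, hk using Nat.le_induction with
  | base =>
    exact gen_base x h
  | succ k hk ih =>
    intro y hy
    rw [mem_augF, Submodule.pow_succ] at hy
    refine Submodule.mul_induction_on (C := fun y => ∃ a ∈ augF K (FreeGroup (Fin d)) (k + 1),
      y - mapDomainAlgHom K K (FreeGroup.lift x) a ∈ augF K S (k + 1 + 1)) hy
      (fun a ha b hb => ?_) fun y z hy hz => ?_
    · obtain ⟨a', ha', haa⟩ := ih a ha
      have hbase : ∃ b' ∈ augF K (FreeGroup (Fin d)) 1,
          b - mapDomainAlgHom K K (FreeGroup.lift x) b' ∈ augF K S 2 := by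
        exact gen_base x h b (by rw [mem_augF_one]; exact mem_augI.1 hb)
      obtain ⟨b', hb', hbb⟩ := hbase
      refine ⟨a' * b', augF_mul ha' hb', ?_⟩
      have e : a * b - mapDomainAlgHom K K (FreeGroup.lift x) (a' * b') =
          (a - mapDomainAlgHom K K (FreeGroup.lift x) a') * b +
          mapDomainAlgHom K K (FreeGroup.lift x) a' *
            (b - mapDomainAlgHom K K (FreeGroup.lift x) b') := by
        rw [map_mul, sub_mul, mul_sub]
        abel
      rw [e]
      refine add_mem (augF_mul haa (by rw [mem_augF_one]; exact mem_augI.1 hb)) ?_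
      have := augF_mul (map_augF (FreeGroup.lift x) ha') hbb
      exact this
    · obtain ⟨a, ha, ha'⟩ := hy
      obtain ⟨b, hb, hb'⟩ := hz
      refine ⟨a + b, add_mem ha hb, ?_⟩
      rw [map_add, add_sub_add_comm]
      exact add_mem ha' hb'

end Vale.Agent.P260.H145
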