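import Mathlib
import Vale.Agent.P300.H863.GS

/-!
# P260, block C1: quantitative growth in the Golod-Shafarevich theorem
-/

namespace Vale.Agent.P260.H145

open Finset Submodule Vale.Agent.P300.GS

variable {F : Type*} [Field F] {R : Type*} [Ring R] [Algebra F R] {ι : Type*} [Fintype ι]
  (A : FoxFil F R ι) {κ : Type*} {f : κ → R} {d : κ → ℕ}

/-- **Golod-Shafarevich**, quantitative form. -/
theorem gs_growth (hf : ∀ k, f k ∈ A.I (d k)) (hd : ∀ k, 1 ≤ d k) {t : ℝ} (ht0 : 0 < t)
    (ht1 : t < 1) (hs : Summable fun k => t ^ d k)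
    (hgs : 1 - Fintype.card ι * t + ∑' k, t ^ d k ≤ 0) (N : ℕ) :
    t ≤ (1 + ∑' k, t ^ d k) * (A.c f (N + 1) * t ^ (N + 1)) := by
  classical
  have hfin : ∀ n, {k | d k ≤ n}.Finite := by
    intro n
    have h1 : 0 < t ^ n := pow_pos ht0 n
    have h2 : ∀ᶠ k in Filter.cofinite, t ^ d k < t ^ n :=
      hs.tendsto_cofinite_zero.eventually (gt_mem_nhds h1)
    rw [Filter.eventually_cofinite] at h2
    refine h2.subset fun k hk => ?_
    exact not_lt.mpr (pow_le_pow_of_le_one ht0.le ht1.le hk)
  set S : ℝ := ∑' k, t ^ d k with hS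
  set r : ℝ := (Fintype.card ι : ℝ) with hr
  let C : ℕ → ℝ := fun N => ∑ n ∈ Finset.range N, (A.c f n : ℝ) * t ^ n
  have hC0 : ∀ N, 0 ≤ C N := fun N => Finset.sum_nonneg fun n _ => by positivity
  have hCs : ∀ N, C (N + 1) = C N + A.c f N * t ^ N := fun N => Finset.sum_range_succ _ _
  have hCmono : Monotone C := monotone_nat_of_le_succ fun N => by
    rw [hCs]
    have : 0 ≤ (A.c f N : ℝ) * t ^ N := by positivity
    linarith
  -- the summed inequality
  have key : ∀ N, r * t * C N + ∑ n ∈ Finset.range N, t ^ (n + 1) ≤ (1 + S) * C (N + 1) := by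
    intro N
    have h1 : ∀ n, r * (A.c f n : ℝ) + 1 ≤
        A.c f (n + 1) + ∑ k ∈ (hfin n).toFinset, (A.c f (n + 1 - d k) : ℝ) := by
      intro n
      have h2 := A.gs_ineq hf hd hfin n
      have h3 : ((Fintype.card ι * A.c f n + 1 : ℕ) : ℝ) ≤
        ((A.c f (n + 1) + ∑ k ∈ (hfin n).toFinset, A.c f (n + 1 - d k) : ℕ) : ℝ) := by
        exact_mod_cast h2
      push_cast at h3
      exact h3
    have h2 : r * t * C N + ∑ n ∈ Finset.range N, t ^ (n + 1) =
        ∑ n ∈ Finset.range N, (r * (A.c f n : ℝ) + 1) * t ^ (n + 1) := by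
      simp only [C]
      rw [Finset.mul_sum, ← Finset.sum_add_distrib]
      exact Finset.sum_congr rfl fun n _ => by ring
    rw [h2]
    have h3 : ∑ n ∈ Finset.range N, (r * (A.c f n : ℝ) + 1) * t ^ (n + 1) ≤
        ∑ n ∈ Finset.range N, ((A.c f (n + 1) : ℝ) * t ^ (n + 1) +
          ∑ k ∈ (hfin n).toFinset, (A.c f (n + 1 - d k) : ℝ) * t ^ (n + 1)) := by
      refine Finset.sum_le_sum fun n _ => ?_
      have h4 := mul_le_mul_of_nonneg_right (h1 n) (pow_pos ht0 (n + 1)).le
      rw [add_mul (A.c f (n + 1) : ℝ), Finset.sum_mul] at h4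
      exact h4
    refine h3.trans ?_
    rw [Finset.sum_add_distrib]
    have h4 : ∑ n ∈ Finset.range N, (A.c f (n + 1) : ℝ) * t ^ (n + 1) = C (N + 1) := by
      simp only [C]
      rw [Finset.sum_range_succ', A.c_zero]
      simp
    have h5 : ∑ n ∈ Finset.range N, ∑ k ∈ (hfin n).toFinset,
        (A.c f (n + 1 - d k) : ℝ) * t ^ (n + 1) ≤ S * C (N + 1) := by
      have h6 : ∀ n ∈ Finset.range N, ∑ k ∈ (hfin n).toFinset,
          (A.c f (n + 1 - d k) : ℝ) * t ^ (n + 1) =
          ∑ k ∈ (hfin N).toFinset, if d k ≤ n then (A.c f (n + 1 - d k) : ℝ) * t ^ (n + 1)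
            else 0 := by
        intro n hn
        rw [← Finset.sum_filter]
        refine Finset.sum_congr ?_ fun _ _ => rfl
        ext k
        simp only [Set.Finite.mem_toFinset, Set.mem_ofPred_eq, Finset.mem_filter]
        have := Finset.mem_range.mp hn
        constructor
        · intro h; exact ⟨by omega, h⟩
        · intro h; exact h.2
      rw [Finset.sum_congr rfl h6, Finset.sum_comm]
      have h7 : ∀ k ∈ (hfin N).toFinset, (∑ n ∈ Finset.range N,
          if d k ≤ n then (A.c f (n + 1 - d k) : ℝ) * t ^ (n + 1) else 0) ≤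
          t ^ d k * C (N + 1) := by
        intro k _
        simp only [C]
        rw [Finset.mul_sum, ← Finset.sum_filter]
        have h8 : ∑ n ∈ (Finset.range N).filter (fun n => d k ≤ n),
            (A.c f (n + 1 - d k) : ℝ) * t ^ (n + 1) =
            ∑ m ∈ ((Finset.range N).filter (fun n => d k ≤ n)).image (fun n => n + 1 - d k),
              t ^ d k * ((A.c f m : ℝ) * t ^ m) := by
          rw [Finset.sum_image]
          · refine Finset.sum_congr rfl fun n hn => ?_
            have hn' := (Finset.mem_filter.mp hn).2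
            have e : t ^ (n + 1) = t ^ d k * t ^ (n + 1 - d k) := by
              rw [← pow_add]; congr 1; omega
            rw [e]; ring
          · intro a ha b hb hab
            have ha' := (Finset.mem_filter.mp ha).2
            have hb' := (Finset.mem_filter.mp hb).2
            simp only at hab
            omega
        rw [h8]
        refine Finset.sum_le_sum_of_subset_of_nonneg ?_ fun m _ _ => by positivity
        intro m hm
        obtain ⟨n, hn, rfl⟩ := Finset.mem_image.mp hm
        have := Finset.mem_range.mp (Finset.mem_filter.mp hn).1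
        have := hd k
        exact Finset.mem_range.mpr (by omega)
      refine (Finset.sum_le_sum h7).trans ?_
      rw [← Finset.sum_mul]
      refine mul_le_mul_of_nonneg_right ?_ (hC0 _)
      exact hs.sum_le_tsum _ fun k _ => by positivity
    rw [h4]
    linarith
  -- conclusion
  have hS0 : 0 ≤ S := tsum_nonneg fun k => by positivity
  have h2 := key (N + 1)
  rw [hCs (N + 1)] at h2
  have h3 : t ≤ ∑ n ∈ Finset.range (N + 1), t ^ (n + 1) := by
    have h4 : t ^ (0 + 1) ≤ ∑ n ∈ Finset.range (N + 1), t ^ (n + 1) :=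
      Finset.single_le_sum (f := fun n => t ^ (n + 1)) (fun n _ => by positivity)
        (Finset.mem_range.mpr (Nat.succ_pos N))
    simpa using h4
  have h4 : 0 ≤ (r * t - 1 - S) * C (N + 1) := mul_nonneg (by linarith) (hC0 _)
  nlinarith

end Vale.Agent.P260.H145
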