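import Mathlib
import Vale.Agent.P260.H145.Gen
import Vale.Agent.P260.H145.Growth

/-!
# P260, block C1: large finite quotients with prescribed relations
-/

set_option linter.unusedSectionVars false

namespace Vale.Agent.P260.H145

open Finset Submodule MonoidAlgebra Vale.Agent.P300.GS
open scoped commutatorElement

/-! ### Degrees of commutators -/

section deg

variable {K : Type} [Field K] {G : Type} [Group G]

/-- elements congruent to one modulo `I^n`. -/
theorem deg_mul {n : ℕ} {u v : G} (hu : of K G u - 1 ∈ augF K G n) (hv : of K G v - 1 ∈ augF K G n) :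
    of K G (u * v) - 1 ∈ augF K G n := by
  have e : of K G (u * v) - 1 = of K G u * (of K G v - 1) + (of K G u - 1) := by
    rw [map_mul, mul_sub, mul_one]
    abel
  rw [e]
  exact add_mem (augF_mul_left _ hv) hu

theorem deg_one {n : ℕ} : of K G 1 - 1 ∈ augF K G n := by
  rw [map_one, sub_self]
  exact zero_mem _

theorem deg_pow {n : ℕ} {u : G} (hu : of K G u - 1 ∈ augF K G n) (m : ℕ) :
    of K G (u ^ m) - 1 ∈ augF K G n := by
  induction m with
  | zero => rw [pow_zero]; exact deg_one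
  | succ m ih => rw [pow_succ]; exact deg_mul ih hu

theorem deg_prod {n : ℕ} (L : List G) (h : ∀ u ∈ L, of K G u - 1 ∈ augF K G n) :
    of K G L.prod - 1 ∈ augF K G n := by
  induction L with
  | nil => rw [List.prod_nil]; exact deg_one
  | cons u L ih =>
    rw [List.prod_cons]
    exact deg_mul (h u (by simp)) (ih fun v hv => h v (by simp [hv]))

theorem deg_comm {i j : ℕ} {u v : G} (hu : of K G u - 1 ∈ augF K G i)
    (hv : of K G v - 1 ∈ augF K G j) : of K G ⁅u, v⁆ - 1 ∈ augF K G (i + j) := by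
  have e : of K G ⁅u, v⁆ - 1 = ((of K G u - 1) * (of K G v - 1) -
      (of K G v - 1) * (of K G u - 1)) * of K G (u⁻¹ * v⁻¹) := by
    have e1 : (of K G u - 1) * (of K G v - 1) - (of K G v - 1) * (of K G u - 1) =
        of K G (u * v) - of K G (v * u) := by
      rw [map_mul, map_mul]
      noncomm_ring
    rw [e1, sub_mul, ← map_mul, ← map_mul, commutatorElement_def]
    have e2 : v * u * (u⁻¹ * v⁻¹) = 1 := by group
    rw [e2, map_one, ← mul_assoc]
  rw [e]
  refine augF_mul_right _ (sub_mem (augF_mul hu hv) ?_)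
  rw [add_comm i j]
  exact augF_mul hv hu

end deg

/-! ### The relators -/

section rel

variable (q l : ℕ)

/-- index type of the group relators -/
abbrev RI (l : ℕ) : Type :=
  (Fin 16 × Fin l × Fin l) ⊕ ((Fin 16 × Fin l) ⊕ ((Fin 16 × Fin 16 × Fin (15 * l)) ⊕
    (Fin 16 × Fin 16 × Fin l × Fin l × Fin l)))

variable {q l} {Q : Type} [Group Q] (x : Fin 16 × Fin l → Q) (c : Fin (15 * l) → Fin l × Fin l → ℕ)

/-- the code word -/
noncomputable def codeWord (a b : Fin 16) (k : Fin (15 * l)) : Q :=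
  ((Finset.univ : Finset (Fin l × Fin l)).toList.map fun p => ⁅x (a, p.1), x (b, p.2)⁆ ^ c k p).prod

open Classical in
/-- the relators -/
noncomputable def rw' (q : ℕ) : RI l → Q
  | Sum.inl p => ⁅x (p.1, p.2.1), x (p.1, p.2.2)⁆
  | Sum.inr (Sum.inl p) => x p ^ q
  | Sum.inr (Sum.inr (Sum.inl p)) => if p.1 = p.2.1 then 1 else codeWord x c p.1 p.2.1 p.2.2
  | Sum.inr (Sum.inr (Sum.inr p)) => if p.1 = p.2.1 then 1 else
      ⁅⁅x (p.1, p.2.2.1), x (p.2.1, p.2.2.2.1)⁆, x (p.1, p.2.2.2.2)⁆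

/-- the degrees -/
def rdeg : RI l → ℕ
  | Sum.inl _ => 2
  | Sum.inr (Sum.inl _) => 2
  | Sum.inr (Sum.inr (Sum.inl _)) => 2
  | Sum.inr (Sum.inr (Sum.inr _)) => 3

theorem rw_deg (q : ℕ) [Fact q.Prime] (x : Fin 16 × Fin l → Q) (k : RI l) :
    of (ZMod q) Q (rw' x c q k) - 1 ∈ augF (ZMod q) Q (rdeg k) := by
  have h1 : ∀ g : Q, of (ZMod q) Q g - 1 ∈ augF (ZMod q) Q 1 := fun g => augF_one_sub g
  rcases k with p | p | p | p
  · exact deg_comm (i := 1) (j := 1) (h1 _) (h1 _)
  · show of (ZMod q) Q (x p ^ q) - 1 ∈ augF (ZMod q) Q 2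
    rw [of_pow_sub_one]
    have hpow : ∀ m, (of (ZMod q) Q (x p) - 1) ^ m ∈ augF (ZMod q) Q m := by
      intro m
      induction m with
      | zero => rw [augF_zero]; trivial
      | succ k ih => rw [pow_succ]; exact augF_mul ih (h1 _)
    exact augF_anti (Fact.out : q.Prime).two_le (hpow q)
  · show of (ZMod q) Q (if p.1 = p.2.1 then 1 else codeWord x c p.1 p.2.1 p.2.2) - 1 ∈
      augF (ZMod q) Q 2
    split_ifs
    · exact deg_one
    · refine deg_prod _ fun u hu => ?_
      obtain ⟨p', -, rfl⟩ := List.mem_map.1 hu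
      exact deg_pow (deg_comm (i := 1) (j := 1) (h1 _) (h1 _)) _
  · show of (ZMod q) Q (if p.1 = p.2.1 then 1 else
      ⁅⁅x (p.1, p.2.2.1), x (p.2.1, p.2.2.2.1)⁆, x (p.1, p.2.2.2.2)⁆) - 1 ∈ augF (ZMod q) Q 3
    split_ifs
    · exact deg_one
    · exact deg_comm (i := 2) (j := 1) (deg_comm (i := 1) (j := 1) (h1 _) (h1 _)) (h1 _)

theorem rw_map {Q' : Type} [Group Q'] (f : Q →* Q') (x : Fin 16 × Fin l → Q) (k : RI l) :
    f (rw' x c q k) = rw' (fun p => f (x p)) c q k := by
  rcases k with p | p | p | p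
  · exact map_commutatorElement f _ _
  · exact map_pow f _ _
  · show f (if p.1 = p.2.1 then 1 else codeWord x c p.1 p.2.1 p.2.2) =
      if p.1 = p.2.1 then 1 else codeWord (fun p => f (x p)) c p.1 p.2.1 p.2.2
    split_ifs
    · exact map_one f
    · rw [codeWord, codeWord, map_list_prod, List.map_map]
      congr 1
      refine List.map_congr_left fun p' _ => ?_
      rw [Function.comp_apply, map_pow, map_commutatorElement]
  · show f (if p.1 = p.2.1 then 1 else
      ⁅⁅x (p.1, p.2.2.1), x (p.2.1, p.2.2.2.1)⁆, x (p.1, p.2.2.2.2)⁆) =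
      if p.1 = p.2.1 then 1 else
      ⁅⁅f (x (p.1, p.2.2.1)), f (x (p.2.1, p.2.2.2.1))⁆, f (x (p.1, p.2.2.2.2))⁆
    split_ifs
    · exact map_one f
    · rw [map_commutatorElement, map_commutatorElement]

theorem rdeg_sum (t : ℝ) : ∑ k : RI l, t ^ rdeg k =
    (16 * (l : ℝ) ^ 2 + 16 * l + 256 * (15 * l)) * t ^ 2 + 256 * (l : ℝ) ^ 3 * t ^ 3 := by
  rw [Fintype.sum_sum_type, Fintype.sum_sum_type, Fintype.sum_sum_type]
  simp only [rdeg, Finset.sum_const, Finset.card_univ, Fintype.card_prod, Fintype.card_fin,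
    nsmul_eq_mul]
  push_cast
  ring

end rel

/-! ### The construction -/

/-- **Block C1.** -/
theorem blockC1 (q : ℕ) [Fact q.Prime] {S : Type} [Group S] {d : ℕ} (x : Fin d → S) {l : ℕ}
    (hl : 250 ≤ l) (e : Fin 16 × Fin l → Fin d) (he : Function.Injective e)
    (c : Fin (15 * l) → Fin l × Fin l → ℕ)
    (hrel : ∀ n, 2 ≤ n → ∃ (r : ℕ) (ρ : Fin r → MonoidAlgebra (ZMod q) (FreeGroup (Fin d))),
      r ≤ 32 * l + 30 ∧ (∀ j, ρ j ∈ augF (ZMod q) _ 2) ∧
      ∀ w : FreeGroup (Fin d), FreeGroup.lift x w = 1 →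
        of (ZMod q) _ w - 1 ∈ FoxFil.J (ZMod q) ρ ⊔ augF (ZMod q) _ n) (B : ℕ) :
    ∃ N : Subgroup (FreeGroup (Fin 16 × Fin l)), N.Normal ∧ Finite (FreeGroup (Fin 16 × Fin l) ⧸ N) ∧
      B ≤ Nat.card (FreeGroup (Fin 16 × Fin l) ⧸ N) ∧
      (∀ w, FreeGroup.lift (fun p => x (e p)) w = 1 → w ∈ N) ∧
      ∀ k : RI l, rw' FreeGroup.of c q k ∈ N := by
  classical
  set t : ℝ := 1 / (8 * l) with ht
  have hl0 : (250 : ℝ) ≤ l := by exact_mod_cast hl
  have ht0 : 0 < t := by positivity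
  have hlt : (l : ℝ) * t = 1 / 8 := by rw [ht]; field_simp
  have ht1 : t < 1 := by
    rw [ht, div_lt_one (by positivity)]
    linarith
  -- choose the level
  obtain ⟨M, hM⟩ : ∃ M : ℕ, (2 * B : ℝ) * t ^ M < 1 ∧ 1 ≤ M := by
    have h1 : Filter.Tendsto (fun M : ℕ => (2 * B : ℝ) * t ^ M) Filter.atTop (nhds ((2 * B : ℝ) * 0)) :=
      (tendsto_pow_atTop_nhds_zero_of_lt_one ht0.le ht1).const_mul _
    rw [mul_zero] at h1
    have h2 := (h1.eventually (gt_mem_nhds (show (0 : ℝ) < 1 by norm_num))).and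
      (Filter.eventually_ge_atTop 1)
    exact h2.exists
  obtain ⟨r, ρ, hr, hρ, hw⟩ := hrel (M + 1) (by omega)
  -- the retraction
  let ret : FreeGroup (Fin d) →* FreeGroup (Fin 16 × Fin l) :=
    FreeGroup.lift fun i => if h : ∃ p, e p = i then FreeGroup.of h.choose else 1
  have hret : ∀ w : FreeGroup (Fin 16 × Fin l), ret (FreeGroup.map e w) = w := by
    intro w
    have : ret.comp (FreeGroup.map e) = MonoidHom.id _ := by
      refine FreeGroup.ext_hom _ _ fun p => ?_
      rw [MonoidHom.comp_apply, FreeGroup.map.of, MonoidHom.id_apply]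
      show FreeGroup.lift _ (FreeGroup.of (e p)) = _
      rw [FreeGroup.lift_apply_of]
      have h : ∃ p', e p' = e p := ⟨p, rfl⟩
      rw [dif_pos h, he h.choose_spec]
    exact DFunLike.congr_fun this w
  let R := mapDomainAlgHom (ZMod q) (ZMod q) ret
  let f : Fin r ⊕ RI l → MonoidAlgebra (ZMod q) (FreeGroup (Fin 16 × Fin l)) :=
    Sum.elim (fun j => R (ρ j)) fun k => of (ZMod q) _ (rw' FreeGroup.of c q k) - 1
  let dg : Fin r ⊕ RI l → ℕ := Sum.elim (fun _ => 2) rdeg
  have hf : ∀ k, f k ∈ (foxFil (ZMod q) (Fin 16 × Fin l)).I (dg k) := by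
    rintro (j | k)
    · exact map_augF ret (hρ j)
    · exact rw_deg c q FreeGroup.of k
  have hd : ∀ k, 1 ≤ dg k := by
    rintro (j | k)
    · exact (by norm_num : 1 ≤ 2)
    · rcases k with p | p | p | p <;> simp [dg, rdeg]
  have hS : ∑' k, t ^ dg k ≤ 1 := by
    rw [tsum_fintype, Fintype.sum_sum_type]
    simp only [dg, Sum.elim_inl, Sum.elim_inr, Finset.sum_const, Finset.card_univ,
      Fintype.card_fin, nsmul_eq_mul]
    rw [rdeg_sum]
    have h1 : (r : ℝ) ≤ 32 * l + 30 := by exact_mod_cast hr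
    have h2 : (r : ℝ) * t ^ 2 ≤ (32 * l + 30) * t ^ 2 := by
      refine mul_le_mul_of_nonneg_right h1 (by positivity)
    have h3 : (16 * (l : ℝ) ^ 2 + 16 * l + 256 * (15 * l)) * t ^ 2 =
        16 * ((l : ℝ) * t) ^ 2 + 3856 * ((l : ℝ) * t) * t := by ring
    have h4 : 256 * (l : ℝ) ^ 3 * t ^ 3 = 256 * ((l : ℝ) * t) ^ 3 := by ring
    have h5 : (32 * (l : ℝ) + 30) * t ^ 2 = 32 * ((l : ℝ) * t) * t + 30 * t ^ 2 := by ring
    rw [h3, h4, hlt]
    rw [h5, hlt] at h2
    have h6 : t ≤ 1 / 2000 := by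
      rw [ht]
      exact one_div_le_one_div_of_le (by norm_num) (by linarith)
    nlinarith
  have hgs : 1 - Fintype.card (Fin 16 × Fin l) * t + ∑' k, t ^ dg k ≤ 0 := by
    rw [Fintype.card_prod, Fintype.card_fin, Fintype.card_fin]
    have : ((16 * l : ℕ) : ℝ) * t = 2 := by
      push_cast
      rw [mul_assoc, hlt]
      norm_num
    rw [this]
    linarith
  have hgr := gs_growth (foxFil (ZMod q) (Fin 16 × Fin l)) (f := f) (d := dg) hf hd ht0 ht1
    (Summable.of_finite) hgs M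
  -- the quotient
  have hNfin : Finite (FreeGroup (Fin 16 × Fin l) ⧸ cong f (M + 1)) := by
    have h1 : Finite (MonoidAlgebra (ZMod q) (FreeGroup (Fin 16 × Fin l)) ⧸
        (foxFil (ZMod q) (Fin 16 × Fin l)).K f (M + 1)) := Module.finite_of_finite (ZMod q)
    let g : FreeGroup (Fin 16 × Fin l) ⧸ cong f (M + 1) →
        (MonoidAlgebra (ZMod q) (FreeGroup (Fin 16 × Fin l)) ⧸
        (foxFil (ZMod q) (Fin 16 × Fin l)).K f (M + 1)) :=
      fun y => ((foxFil (ZMod q) (Fin 16 × Fin l)).K f (M + 1)).mkQ (of (ZMod q) _ y.out)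
    refine Finite.of_injective g fun y z hyz => ?_
    simp only [g, mkQ_apply] at hyz
    rw [Submodule.Quotient.eq] at hyz
    have h2 := (foxFil (ZMod q) (Fin 16 × Fin l)).K_mul_left
      (of (ZMod q) _ (y.out)⁻¹) hyz
    rw [mul_sub, ← map_mul, ← map_mul, inv_mul_cancel, map_one] at h2
    have h3 : (y.out)⁻¹ * z.out ∈ cong f (M + 1) := by
      rw [mem_cong]
      have := neg_mem h2
      rwa [neg_sub] at this
    rw [← QuotientGroup.eq, QuotientGroup.out_eq', QuotientGroup.out_eq'] at h3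
    exact h3
  refine ⟨cong f (M + 1), inferInstance, hNfin, ?_, ?_, ?_⟩
  · have h1 := card_bound (F := ZMod q) (f := f) (n := M + 1) (N := cong f (M + 1)) le_rfl
    have h2 : (B : ℝ) ≤ (foxFil (ZMod q) (Fin 16 × Fin l)).c f (M + 1) := by
      by_contra hcon
      push Not at hcon
      have h3 : t ≤ 2 * (((foxFil (ZMod q) (Fin 16 × Fin l)).c f (M + 1) : ℝ) * t ^ (M + 1)) := by
        refine hgr.trans ?_
        refine mul_le_mul_of_nonneg_right (by linarith) (by positivity)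
      have h4 : (((foxFil (ZMod q) (Fin 16 × Fin l)).c f (M + 1) : ℝ) * t ^ (M + 1)) ≤
          B * t ^ (M + 1) := mul_le_mul_of_nonneg_right hcon.le (by positivity)
      have h5 : 2 * (B * t ^ (M + 1)) = (2 * B * t ^ M) * t := by ring
      have h6 := hM.1
      nlinarith
    have h3 : B ≤ (foxFil (ZMod q) (Fin 16 × Fin l)).c f (M + 1) := by exact_mod_cast h2
    exact h3.trans h1
  · intro w hw1
    rw [mem_cong]
    have h1 : FreeGroup.lift x (FreeGroup.map e w) = 1 := by
      rw [← hw1]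
      have : (FreeGroup.lift x).comp (FreeGroup.map e) = FreeGroup.lift fun p => x (e p) := by
        refine FreeGroup.ext_hom _ _ fun p => ?_
        rw [MonoidHom.comp_apply, FreeGroup.map.of, FreeGroup.lift_apply_of,
          FreeGroup.lift_apply_of]
      exact DFunLike.congr_fun this w
    have h2 := hw _ h1
    obtain ⟨a, ha, b, hb, hab⟩ := mem_sup.1 h2
    have h3 : of (ZMod q) _ w - 1 = R a + R b := by
      rw [← map_add, hab]
      show _ = mapDomainAlgHom (ZMod q) (ZMod q) ret (of (ZMod q) _ (FreeGroup.map e w) - 1)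
      rw [map_sub, map_one, amap_of, hret]
    rw [h3]
    refine add_mem ?_ ((foxFil (ZMod q) (Fin 16 × Fin l)).I_le_K _ (map_augF ret hb))
    refine (foxFil (ZMod q) (Fin 16 × Fin l)).J_le_K _ ?_
    clear hab h3 h2
    induction ha using span_induction with
    | mem y hy =>
      obtain ⟨u, k, v, rfl⟩ := hy
      rw [map_mul, map_mul]
      exact FoxFil.J_mul_right _ (FoxFil.J_mul_left _ (FoxFil.gen_mem (f := f) (Sum.inl k)))
    | zero => rw [map_zero]; exact zero_mem _
    | add y z _ _ hy hz => rw [map_add]; exact add_mem hy hz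
    | smul c y _ hy => rw [map_smul]; exact smul_mem _ _ hy
  · intro k
    rw [mem_cong]
    exact (foxFil (ZMod q) (Fin 16 × Fin l)).J_le_K _ (FoxFil.gen_mem (f := f) (Sum.inr k))

end Vale.Agent.P260.H145
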