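import Mathlib

/-!
# P260, block C3: a rank-metric code
-/

set_option linter.unusedSectionVars false

namespace Vale.Agent.P260.H145

open Finset Matrix

section greedy

variable {F : Type} [Field F] [Finite F] {V : Type} [AddCommGroup V] [Module F V] [Finite V]

theorem card_dual_ker {v : V} (hv : v ≠ 0) :
    Nat.card {lam : Module.Dual F V // lam v = 0} * Nat.card F = Nat.card (Module.Dual F V) := by
  have hfin : Module.Finite F V := Module.Finite.of_finite
  let e : Module.Dual F V →ₗ[F] F := Module.Dual.eval F V v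
  have he : Function.Surjective e := by
    obtain ⟨f, hf⟩ := Module.Projective.exists_dual_ne_zero F hv
    intro c
    refine ⟨(c / f v) • f, ?_⟩
    show (c / f v) * f v = c
    exact div_mul_cancel₀ c hf
  have h1 := LinearMap.finrank_range_add_finrank_ker e
  rw [LinearMap.range_eq_top.2 he, finrank_top, Module.finrank_self] at h1
  have h2 : Nat.card {lam : Module.Dual F V // lam v = 0} = Nat.card (LinearMap.ker e) := rfl
  rw [h2, Module.natCard_eq_pow_finrank (K := F) (V := LinearMap.ker e),
    Module.natCard_eq_pow_finrank (K := F) (V := Module.Dual F V), ← h1, add_comm, pow_succ]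

theorem exists_functional [DecidableEq F] (T : Finset V) (hT : ∀ v ∈ T, v ≠ 0) :
    ∃ lam : Module.Dual F V, (T.filter fun v => lam v = 0).card * Nat.card F ≤ T.card := by
  classical
  have hfin : Module.Finite F V := Module.Finite.of_finite
  have : Finite (Module.Dual F V) := Module.finite_of_finite F
  cases nonempty_fintype (Module.Dual F V)
  by_contra hcon
  push Not at hcon
  have h1 : ∑ lam : Module.Dual F V, T.card <
      ∑ lam : Module.Dual F V, (T.filter fun v => lam v = 0).card * Nat.card F :=
    Finset.sum_lt_sum_of_nonempty ⟨0, Finset.mem_univ _⟩ fun lam _ => hcon lam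
  have h2 : ∑ lam : Module.Dual F V, (T.filter fun v => lam v = 0).card * Nat.card F =
      ∑ v ∈ T, Nat.card {lam : Module.Dual F V // lam v = 0} * Nat.card F := by
    rw [← Finset.sum_mul, ← Finset.sum_mul]
    congr 1
    simp only [Finset.card_filter]
    rw [Finset.sum_comm]
    refine Finset.sum_congr rfl fun v _ => ?_
    rw [← Finset.card_filter, Nat.card_eq_fintype_card, Fintype.card_subtype]
  rw [h2, Finset.sum_congr rfl fun v hv => card_dual_ker (hT v hv), Finset.sum_const,
    Finset.sum_const, Finset.card_univ, ← Nat.card_eq_fintype_card, smul_eq_mul, smul_eq_mul,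
    mul_comm] at h1
  exact lt_irrefl _ h1

theorem greedy (m : ℕ) (T : Finset V) (hT : ∀ v ∈ T, v ≠ 0) (hc : T.card < Nat.card F ^ m) :
    ∃ L : V →ₗ[F] (Fin m → F), ∀ v ∈ T, L v ≠ 0 := by
  classical
  induction m generalizing T with
  | zero =>
    have : T = ∅ := by
      rw [pow_zero, Nat.lt_one_iff, Finset.card_eq_zero] at hc
      exact hc
    exact ⟨0, fun v hv => by rw [this] at hv; exact absurd hv (Finset.notMem_empty v)⟩
  | succ m ih =>
    obtain ⟨lam, hlam⟩ := exists_functional (F := F) T hT
    have hF : 0 < Nat.card F := Nat.card_pos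
    obtain ⟨L, hL⟩ := ih (T.filter fun v => lam v = 0)
      (fun v hv => hT v (Finset.mem_filter.1 hv).1) (by
        rw [pow_succ] at hc
        exact lt_of_mul_lt_mul_right (lt_of_le_of_lt hlam hc) hF.le)
    refine ⟨LinearMap.pi (Fin.cons lam fun i => (LinearMap.proj i) ∘ₗ L), fun v hv h0 => ?_⟩
    have h1 : lam v = 0 := congrFun h0 0
    refine hL v (Finset.mem_filter.2 ⟨hv, h1⟩) ?_
    funext i
    exact congrFun h0 i.succ

end greedy

section code

variable {F : Type} [Field F] [Finite F] {l : ℕ}

/-- Factorisation of matrices with small row space. -/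
theorem factor (B : Matrix (Fin l) (Fin l) F) (h : Module.finrank F (LinearMap.range B.vecMulLinear) ≤ 7) :
    ∃ (U : Matrix (Fin l) (Fin 7) F) (W : Matrix (Fin 7) (Fin l) F), U * W = B := by
  classical
  let b := Module.finBasis F (LinearMap.range B.vecMulLinear)
  let w : Fin 7 → (Fin l → F) := fun k =>
    if hk : (k : ℕ) < Module.finrank F (LinearMap.range B.vecMulLinear) then (b ⟨k, hk⟩ : Fin l → F) else 0
  have hspan : ∀ y ∈ LinearMap.range B.vecMulLinear, y ∈ Submodule.span F (Set.range w) := by
    intro y hy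
    have h1 : (⟨y, hy⟩ : LinearMap.range B.vecMulLinear) ∈ Submodule.span F (Set.range b) := by
      rw [b.span_eq]; trivial
    have h2 := Submodule.mem_map_of_mem (f := (LinearMap.range B.vecMulLinear).subtype) h1
    rw [Submodule.map_span, ← Set.range_comp] at h2
    refine (Submodule.span_le.2 ?_) h2
    rintro _ ⟨i, rfl⟩
    refine Submodule.subset_span ⟨⟨i, lt_of_lt_of_le i.2 h⟩, ?_⟩
    simp only [w]
    rw [dif_pos i.2]
    rfl
  have hrow : ∀ i, ∃ c : Fin 7 → F, ∑ k, c k • w k = B i := by
    intro i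
    have h1 : B i ∈ LinearMap.range B.vecMulLinear := by
      refine ⟨Pi.single i 1, ?_⟩
      rw [Matrix.vecMulLinear_apply, Matrix.single_one_vecMul]
      rfl
    exact (Submodule.mem_span_range_iff_exists_fun F).1 (hspan _ h1)
  choose c hc using hrow
  refine ⟨Matrix.of c, Matrix.of w, ?_⟩
  ext i j
  rw [Matrix.mul_apply]
  have := congrFun (hc i) j
  rw [Finset.sum_apply] at this
  exact this

/-- **Block C3.** -/
theorem blockC3 (q : ℕ) [Fact q.Prime] (l : ℕ) (hl : 1 ≤ l) :
    ∃ L : Matrix (Fin l) (Fin l) (ZMod q) →ₗ[ZMod q] (Fin (15 * l) → ZMod q),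
      ∀ B, L B = 0 → B ≠ 0 →
        Nat.card {y : Fin l → ZMod q // Matrix.vecMul y B = 0} * q ^ 8 ≤ q ^ l := by
  classical
  have hq : 0 < q := (Fact.out : q.Prime).pos
  let T : Finset (Matrix (Fin l) (Fin l) (ZMod q)) := Finset.univ.filter fun B => B ≠ 0 ∧
    Module.finrank (ZMod q) (LinearMap.range B.vecMulLinear) ≤ 7
  have hTc : T.card ≤ q ^ (14 * l) := by
    have h1 : T ⊆ (Finset.univ : Finset (Matrix (Fin l) (Fin 7) (ZMod q) ×
        Matrix (Fin 7) (Fin l) (ZMod q))).image fun p => p.1 * p.2 := by
      intro B hB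
      obtain ⟨U, W, h⟩ := factor B (Finset.mem_filter.1 hB).2.2
      exact Finset.mem_image.2 ⟨(U, W), Finset.mem_univ _, h⟩
    refine (Finset.card_le_card h1).trans (Finset.card_image_le.trans ?_)
    rw [Finset.card_univ, Fintype.card_prod]
    have e1 : Fintype.card (Matrix (Fin l) (Fin 7) (ZMod q)) = q ^ (7 * l) := by
      show Fintype.card (Fin l → Fin 7 → ZMod q) = _
      rw [Fintype.card_fun, Fintype.card_fun, ZMod.card, Fintype.card_fin, Fintype.card_fin,
        ← pow_mul]
    have e2 : Fintype.card (Matrix (Fin 7) (Fin l) (ZMod q)) = q ^ (7 * l) := by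
      show Fintype.card (Fin 7 → Fin l → ZMod q) = _
      rw [Fintype.card_fun, Fintype.card_fun, ZMod.card, Fintype.card_fin, Fintype.card_fin,
        ← pow_mul, mul_comm]
    rw [e1, e2, ← pow_add]
    exact Nat.pow_le_pow_right hq (by omega)
  obtain ⟨L, hL⟩ := greedy (F := ZMod q) (15 * l) T (fun v hv => (Finset.mem_filter.1 hv).2.1) (by
    rw [Nat.card_zmod]
    refine lt_of_le_of_lt hTc (Nat.pow_lt_pow_right (Fact.out : q.Prime).one_lt (by omega)))
  refine ⟨L, fun B hB hB0 => ?_⟩
  have h8 : 8 ≤ Module.finrank (ZMod q) (LinearMap.range B.vecMulLinear) := by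
    by_contra hcon
    exact hL B (Finset.mem_filter.2 ⟨Finset.mem_univ _, hB0, by omega⟩) hB
  have h1 := LinearMap.finrank_range_add_finrank_ker B.vecMulLinear
  rw [Module.finrank_fintype_fun_eq_card, Fintype.card_fin] at h1
  have h2 : Nat.card {y : Fin l → ZMod q // Matrix.vecMul y B = 0} =
      Nat.card (LinearMap.ker B.vecMulLinear) := rfl
  rw [h2, Module.natCard_eq_pow_finrank (K := ZMod q) (V := LinearMap.ker B.vecMulLinear),
    Nat.card_zmod, ← pow_add]
  exact Nat.pow_le_pow_right hq (by omega)

end code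

end Vale.Agent.P260.H145
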