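import Mathlib
import Vale.Agent.P260.H145.B

/-!
# P260, block D: homology of finite-index subgroups via functions on `G/H`
-/

set_option linter.unusedSectionVars false

namespace Vale.Agent.P260.H145

open Finset Submodule MonoidAlgebra

section ext

variable {K : Type} [Field K] {G : Type} [Group G] {n : ℕ}

/-- Standard basis vector. -/
noncomputable def bv (K : Type) [Field K] {G : Type} {n : ℕ} (i : Fin n) (g : G) :
    Fin n → MonoidAlgebra K G := Pi.single i (single g 1)

theorem sum_bv (v : Fin n → MonoidAlgebra K G) :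
    v = ∑ i, (v i).coeff.sum fun g c => c • bv K i g := by
  classical
  funext j
  rw [Finset.sum_apply, Finset.sum_eq_single j]
  · rw [Finsupp.sum, Finset.sum_apply]
    have : ∀ g ∈ (v j).coeff.support, ((v j).coeff g • bv K j g) j = single g ((v j).coeff g) := by
      intro g _
      rw [Pi.smul_apply, bv, Pi.single_eq_same, smul_single, smul_eq_mul, mul_one]
    rw [Finset.sum_congr rfl this]
    refine MonoidAlgebra.ext ?_
    rw [coeff_sum]
    simp only [coeff_single]
    exact ((v j).coeff.sum_single).symm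
  · intro i _ hij
    rw [Finsupp.sum, Finset.sum_apply]
    refine Finset.sum_eq_zero fun g _ => ?_
    rw [Pi.smul_apply, bv, Pi.single_eq_of_ne (Ne.symm hij), smul_zero]
  · intro h
    exact absurd (Finset.mem_univ _) h

theorem ext_bv {M : Type*} [AddCommGroup M] [Module K M]
    {f f' : (Fin n → MonoidAlgebra K G) →ₗ[K] M} (h : ∀ i g, f (bv K i g) = f' (bv K i g)) :
    f = f' := by
  refine LinearMap.ext fun v => ?_
  rw [sum_bv v, map_sum, map_sum]
  refine Finset.sum_congr rfl fun i _ => ?_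
  rw [Finsupp.sum, map_sum, map_sum]
  refine Finset.sum_congr rfl fun g _ => ?_
  rw [map_smul, map_smul, h]

theorem lt_bv (g h : G) (i : Fin n) : lt n g (bv K i h) = bv K i (g * h) := by
  classical
  funext j
  rw [lt_apply, bv, bv]
  by_cases hij : j = i
  · subst hij
    rw [Pi.single_eq_same, Pi.single_eq_same, single_mul_single, one_mul]
  · rw [Pi.single_eq_of_ne hij, Pi.single_eq_of_ne hij, mul_zero]

/-- A linear map with prescribed values on the standard basis. -/
noncomputable def ofBasis {M : Type*} [AddCommGroup M] [Module K M] (F : Fin n → G → M) :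
    (Fin n → MonoidAlgebra K G) →ₗ[K] M where
  toFun v := ∑ i, (v i).coeff.sum fun g c => c • F i g
  map_add' v w := by
    rw [← Finset.sum_add_distrib]
    refine Finset.sum_congr rfl fun i _ => ?_
    rw [Pi.add_apply, coeff_add, Finsupp.sum_add_index']
    · intro; rw [zero_smul]
    · intro _ _ _; rw [add_smul]
  map_smul' c v := by
    rw [Finset.smul_sum]
    refine Finset.sum_congr rfl fun i _ => ?_
    rw [Pi.smul_apply, coeff_smul, Finsupp.sum_smul_index', Finsupp.smul_sum, RingHom.id_apply]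
    · refine Finsupp.sum_congr fun g _ => ?_
      rw [smul_assoc]
    · intro; rw [zero_smul]

theorem ofBasis_bv {M : Type*} [AddCommGroup M] [Module K M] (F : Fin n → G → M) (i : Fin n)
    (g : G) : ofBasis (K := K) F (bv K i g) = F i g := by
  classical
  show ∑ j, ((bv K i g : Fin n → MonoidAlgebra K G) j).coeff.sum (fun g c => c • F j g) = F i g
  rw [Finset.sum_eq_single i]
  · rw [bv, Pi.single_eq_same, coeff_single, Finsupp.sum_single_index (by rw [zero_smul]), one_smul]
  · intro j _ hj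
    rw [bv, Pi.single_eq_of_ne hj]
    rw [coeff_zero, Finsupp.sum_zero_index]
  · intro h
    exact absurd (Finset.mem_univ _) h

end ext

section act

variable (K : Type) [Field K] {G : Type} [Group G] (Y : Type) [Fintype Y] [DecidableEq Y]
  [MulAction G Y]

/-- The permutation matrices. -/
def pm : G →* Matrix Y Y K where
  toFun x := Matrix.of fun y z => if y = x • z then 1 else 0
  map_one' := by
    ext y z
    rw [Matrix.of_apply, one_smul, Matrix.one_apply]
  map_mul' x x' := by
    ext y z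
    rw [Matrix.mul_apply, Finset.sum_eq_single (x' • z)]
    · simp [mul_smul]
    · intro w _ hw
      simp [hw]
    · intro h
      exact absurd (Finset.mem_univ _) h

theorem pm_apply (x : G) (y z : Y) : pm K Y x y z = if y = x • z then 1 else 0 := rfl

/-- The group algebra acting on functions on `Y`. -/
noncomputable def lam : MonoidAlgebra K G →ₐ[K] Matrix Y Y K :=
  MonoidAlgebra.lift K (Matrix Y Y K) G (pm K Y)

theorem lam_single (x : G) (c : K) : lam K Y (single x c) = c • pm K Y x := by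
  rw [lam, MonoidAlgebra.lift_single]

theorem pm_mulVec (x : G) (u : Y → K) (y : Y) : ((pm K Y x).mulVec u) y = u (x⁻¹ • y) := by
  rw [Matrix.mulVec, dotProduct, Finset.sum_eq_single (x⁻¹ • y)]
  · simp [pm_apply]
  · intro z _ hz
    rw [pm_apply, if_neg, zero_mul]
    rintro rfl
    exact hz (by simp)
  · intro h
    exact absurd (Finset.mem_univ _) h

/-- Matrices over the group algebra acting on vectors of functions on `Y`. -/
noncomputable def Lam {a b : ℕ} (M : Matrix (Fin a) (Fin b) (MonoidAlgebra K G)) :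
    Matrix (Fin a × Y) (Fin b × Y) K := Matrix.of fun p r => lam K Y (M p.1 r.1) p.2 r.2

theorem Lam_mulVec {a b : ℕ} (M : Matrix (Fin a) (Fin b) (MonoidAlgebra K G))
    (u : Fin b × Y → K) (i : Fin a) :
    (fun y => ((Lam K Y M).mulVec u) (i, y)) =
      ∑ j, (lam K Y (M i j)).mulVec (fun z => u (j, z)) := by
  funext y
  rw [Finset.sum_apply, Matrix.mulVec, dotProduct, Fintype.sum_prod_type]
  rfl

/-- The functional attached to a function. -/
noncomputable def Phi {n : ℕ} (y₀ : Y) (u : Fin n × Y → K) :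
    (Fin n → MonoidAlgebra K G) →ₗ[K] K where
  toFun v := ∑ i, ((lam K Y (v i)).mulVec fun y => u (i, y)) y₀
  map_add' v w := by
    rw [← Finset.sum_add_distrib]
    refine Finset.sum_congr rfl fun i _ => ?_
    rw [Pi.add_apply, map_add, Matrix.add_mulVec, Pi.add_apply]
  map_smul' c v := by
    rw [Finset.smul_sum]
    refine Finset.sum_congr rfl fun i _ => ?_
    rw [Pi.smul_apply, map_smul, Matrix.smul_mulVec, Pi.smul_apply, RingHom.id_apply]

variable {K Y}

theorem Phi_apply {n : ℕ} (y₀ : Y) (u : Fin n × Y → K) (v : Fin n → MonoidAlgebra K G) :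
    Phi K Y y₀ u v = ∑ i, ((lam K Y (v i)).mulVec fun y => u (i, y)) y₀ := rfl

theorem Phi_vm {a b : ℕ} (M : Matrix (Fin a) (Fin b) (MonoidAlgebra K G)) (y₀ : Y)
    (u : Fin b × Y → K) (v : Fin a → MonoidAlgebra K G) :
    Phi K Y y₀ u (vm M v) = Phi K Y y₀ ((Lam K Y M).mulVec u) v := by
  rw [Phi_apply, Phi_apply]
  simp only [Lam_mulVec, Matrix.mulVec_sum, Matrix.mulVec_mulVec, Finset.sum_apply]
  rw [Finset.sum_comm]
  refine Finset.sum_congr rfl fun j _ => ?_
  rw [vm_apply]
  simp only [Matrix.vecMul, dotProduct, map_sum, map_mul]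
  rw [Matrix.sum_mulVec, Finset.sum_apply]

theorem Phi_bv {n : ℕ} (y₀ : Y) (u : Fin n × Y → K) (i : Fin n) (g : G) :
    Phi K Y y₀ u (bv K i g) = u (i, g⁻¹ • y₀) := by
  classical
  rw [Phi_apply, Finset.sum_eq_single i]
  · rw [bv, Pi.single_eq_same, lam_single, one_smul, pm_mulVec]
  · intro j _ hj
    rw [bv, Pi.single_eq_of_ne hj, map_zero, Matrix.zero_mulVec, Pi.zero_apply]
  · intro h
    exact absurd (Finset.mem_univ _) h

theorem Phi_lt {n : ℕ} (y₀ : Y) (u : Fin n × Y → K) {h : G} (hh : h • y₀ = y₀)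
    (v : Fin n → MonoidAlgebra K G) : Phi K Y y₀ u (lt n h v) = Phi K Y y₀ u v := by
  have : Phi K Y y₀ u ∘ₗ lt n h = Phi K Y y₀ u := by
    refine ext_bv fun i g => ?_
    rw [LinearMap.comp_apply, lt_bv, Phi_bv, Phi_bv, mul_inv_rev, mul_smul]
    congr 3
    rw [inv_smul_eq_iff, hh]
  exact LinearMap.congr_fun this v

theorem Phi_inj {n : ℕ} (y₀ : Y) (htr : ∀ y : Y, ∃ g : G, g • y₀ = y) {u u' : Fin n × Y → K}
    (h : (Phi K Y y₀ u : (Fin n → MonoidAlgebra K G) →ₗ[K] K) = Phi K Y y₀ u') : u = u' := by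
  funext p
  obtain ⟨i, y⟩ := p
  obtain ⟨g, rfl⟩ := htr y
  have := LinearMap.congr_fun h (bv K i g⁻¹)
  rw [Phi_bv, Phi_bv, inv_inv] at this
  exact this

theorem Phi_surj {n : ℕ} (y₀ : Y) (htr : ∀ y : Y, ∃ g : G, g • y₀ = y)
    (s : (Fin n → MonoidAlgebra K G) →ₗ[K] K)
    (hs : ∀ h : G, h • y₀ = y₀ → ∀ v, s (lt n h v) = s v) : ∃ u, Phi K Y y₀ u = s := by
  choose t ht using htr
  refine ⟨fun p => s (bv K p.1 (t p.2)⁻¹), ext_bv fun i g => ?_⟩
  rw [Phi_bv]
  show s (bv K i (t (g⁻¹ • y₀))⁻¹) = _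
  have h1 : ((t (g⁻¹ • y₀))⁻¹ * g⁻¹) • y₀ = y₀ := by
    rw [mul_smul, inv_smul_eq_iff, ht]
  rw [← hs _ h1 (bv K i g), lt_bv, inv_mul_cancel_right]

theorem Phi_add {n : ℕ} (y₀ : Y) (u u' : Fin n × Y → K) :
    (Phi K Y y₀ (u + u') : (Fin n → MonoidAlgebra K G) →ₗ[K] K) =
      Phi K Y y₀ u + Phi K Y y₀ u' := by
  refine ext_bv fun i g => ?_
  rw [LinearMap.add_apply, Phi_bv, Phi_bv, Phi_bv, Pi.add_apply]

theorem Phi_smul {n : ℕ} (y₀ : Y) (c : K) (u : Fin n × Y → K) :
    (Phi K Y y₀ (c • u) : (Fin n → MonoidAlgebra K G) →ₗ[K] K) = c • Phi K Y y₀ u := by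
  refine ext_bv fun i g => ?_
  rw [LinearMap.smul_apply, Phi_bv, Phi_bv, Pi.smul_apply]

theorem Phi_zero {n : ℕ} (y₀ : Y) :
    (Phi K Y y₀ 0 : (Fin n → MonoidAlgebra K G) →ₗ[K] K) = 0 := by
  refine ext_bv fun i g => ?_
  rw [LinearMap.zero_apply, Phi_bv, Pi.zero_apply]

/-- Kernel of `Lam M` = invariant functionals vanishing on the image of `M`. -/
theorem mem_ker_Lam {a b : ℕ} (M : Matrix (Fin a) (Fin b) (MonoidAlgebra K G)) (y₀ : Y)
    (htr : ∀ y : Y, ∃ g : G, g • y₀ = y) (u : Fin b × Y → K) :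
    (Lam K Y M).mulVec u = 0 ↔ ∀ v, Phi K Y y₀ u (vm M v) = 0 := by
  constructor
  · intro h v
    rw [Phi_vm, h, Phi_zero, LinearMap.zero_apply]
  · intro h
    refine Phi_inj (G := G) y₀ htr (LinearMap.ext fun v => ?_)
    rw [← Phi_vm, h v, Phi_zero, LinearMap.zero_apply]

/-- **The bound on the first homology.** -/
theorem h1_bound {n₀ n₁ n₂ : ℕ} (ε : (Fin n₀ → MonoidAlgebra K G) →ₗ[K] K)
    (d₁ : Matrix (Fin n₁) (Fin n₀) (MonoidAlgebra K G))
    (d₂ : Matrix (Fin n₂) (Fin n₁) (MonoidAlgebra K G))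
    (y₀ : Y) (htr : ∀ y : Y, ∃ g : G, g • y₀ = y)
    (hε0 : ε ≠ 0) (hε : ∀ h : G, h • y₀ = y₀ → ∀ v, ε (lt n₀ h v) = ε v)
    (h₀ : LinearMap.range (vm d₁) = LinearMap.ker ε)
    (h₁ : LinearMap.range (vm d₂) = LinearMap.ker (vm d₁))
    [FiniteDimensional K (Additive (MulAction.stabilizer G y₀) →+ K)] :
    n₁ * Fintype.card Y ≤ (Lam K Y d₂).rank + (Lam K Y d₁).rank +
      Module.finrank K (Additive (MulAction.stabilizer G y₀) →+ K) := by
  classical
  obtain ⟨e, he⟩ : ∃ e, ε e = 1 := by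
    obtain ⟨v, hv⟩ := DFunLike.ne_iff.1 hε0
    rw [LinearMap.zero_apply] at hv
    exact ⟨(ε v)⁻¹ • v, by rw [map_smul, smul_eq_mul, inv_mul_cancel₀ hv]⟩
  -- lifts
  have hlift : ∀ h : MulAction.stabilizer G y₀, ∃ v, vm d₁ v = lt n₀ (h : G) e - e := by
    intro h
    have : lt n₀ (h : G) e - e ∈ LinearMap.range (vm d₁) := by
      rw [h₀, LinearMap.mem_ker, map_sub, hε _ h.2, sub_self]
    exact this
  choose L hL using hlift
  set Z := LinearMap.ker (Lam K Y d₂).mulVecLin with hZ
  have hker : ∀ u ∈ Z, ∀ v w : Fin n₁ → MonoidAlgebra K G, vm d₁ v = vm d₁ w →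
      Phi K Y y₀ u v = Phi K Y y₀ u w := by
    intro u hu v w hvw
    have h1 : v - w ∈ LinearMap.range (vm d₂) := by
      rw [h₁, LinearMap.mem_ker, map_sub, hvw, sub_self]
    obtain ⟨x, hx⟩ := h1
    have h2 : (Lam K Y d₂).mulVec u = 0 := by
      have := LinearMap.mem_ker.1 hu
      rwa [Matrix.mulVecLin_apply] at this
    have h3 := (mem_ker_Lam d₂ y₀ htr u).1 h2 x
    rw [hx, map_sub, sub_eq_zero] at h3
    exact h3
  -- the map to homs
  let χ : Z →ₗ[K] (Additive (MulAction.stabilizer G y₀) →+ K) :=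
    { toFun := fun u =>
        { toFun := fun h => Phi K Y y₀ (u : Fin n₁ × Y → K) (L h.toMul)
          map_zero' := by
            rw [← map_zero (Phi K Y y₀ (u : Fin n₁ × Y → K) : (Fin n₁ → MonoidAlgebra K G) →ₗ[K] K)]
            refine hker _ u.2 _ _ ?_
            rw [toMul_zero, hL, map_zero (vm d₁), Subgroup.coe_one, lt_one, sub_self]
          map_add' := fun h k => by
            rw [toMul_add]
            rw [← Phi_lt y₀ (u : Fin n₁ × Y → K) (h.toMul).2 (L k.toMul), ← map_add]
            refine hker _ u.2 _ _ ?_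
            rw [map_add, vm_lt, hL, hL, hL, map_sub, lt_mul, Subgroup.coe_mul]
            abel }
      map_add' := fun u u' => by
        refine AddMonoidHom.ext fun h => ?_
        show Phi K Y y₀ ((u + u' : Z) : Fin n₁ × Y → K) _ = Phi K Y y₀ (u : Fin n₁ × Y → K) _ +
          Phi K Y y₀ (u' : Fin n₁ × Y → K) _
        rw [Submodule.coe_add, Phi_add, LinearMap.add_apply]
      map_smul' := fun c u => by
        refine AddMonoidHom.ext fun h => ?_
        show Phi K Y y₀ ((c • u : Z) : Fin n₁ × Y → K) _ = c • Phi K Y y₀ (u : Fin n₁ × Y → K) _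
        rw [Submodule.coe_smul, Phi_smul, LinearMap.smul_apply] }
  have hχ : ∀ (u : Z) (h : MulAction.stabilizer G y₀),
      χ u (Additive.ofMul h) = Phi K Y y₀ (u : Fin n₁ × Y → K) (L h) := fun _ _ => rfl
  -- the kernel
  have hkerχ : (LinearMap.ker χ).map Z.subtype ≤ LinearMap.range (Lam K Y d₁).mulVecLin := by
    rintro _ ⟨u, hu, rfl⟩
    have hu0 : ∀ h, Phi K Y y₀ (u : Fin n₁ × Y → K) (L h) = 0 := by
      intro h
      rw [← hχ]
      have : χ u = 0 := hu
      rw [this]
      rfl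
    -- the functional on V₀
    have hex : ∀ x : Fin n₀ → MonoidAlgebra K G, ∃ v, vm d₁ v = x - ε x • e := by
      intro x
      have : x - ε x • e ∈ LinearMap.range (vm d₁) := by
        rw [h₀, LinearMap.mem_ker, map_sub, map_smul, he, smul_eq_mul, mul_one, sub_self]
      exact this
    choose P hP using hex
    let s : (Fin n₀ → MonoidAlgebra K G) →ₗ[K] K :=
      { toFun := fun x => Phi K Y y₀ (u : Fin n₁ × Y → K) (P x)
        map_add' := fun x y => by
          rw [← map_add]
          refine hker _ u.2 _ _ ?_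
          rw [map_add, hP, hP, hP, map_add, add_smul]
          abel
        map_smul' := fun c x => by
          rw [RingHom.id_apply, ← map_smul]
          refine hker _ u.2 _ _ ?_
          rw [map_smul, hP, hP, map_smul, smul_sub, smul_assoc] }
    have hs : ∀ x, s x = Phi K Y y₀ (u : Fin n₁ × Y → K) (P x) := fun _ => rfl
    have hsinv : ∀ h : G, h • y₀ = y₀ → ∀ v, s (lt n₀ h v) = s v := by
      intro h hh v
      have h1 : Phi K Y y₀ (u : Fin n₁ × Y → K) (P (lt n₀ h v)) =
          Phi K Y y₀ (u : Fin n₁ × Y → K) (lt n₁ h (P v) + ε v • L ⟨h, hh⟩) := by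
        refine hker _ u.2 _ _ ?_
        rw [map_add, vm_lt, map_smul, hP, hP, hL, hε h hh, map_sub, map_smul, smul_sub]
        abel
      rw [hs, h1, map_add, map_smul, hu0, smul_zero, add_zero, Phi_lt y₀ _ hh, hs]
    obtain ⟨w, hw⟩ := Phi_surj y₀ htr s hsinv
    refine ⟨w, ?_⟩
    rw [Matrix.mulVecLin_apply]
    refine Phi_inj (G := G) y₀ htr (LinearMap.ext fun v => ?_)
    rw [← Phi_vm, hw, hs]
    refine hker _ u.2 _ _ ?_
    have h2 : ε (vm d₁ v) = 0 := by
      have : vm d₁ v ∈ LinearMap.ker ε := by rw [← h₀]; exact ⟨v, rfl⟩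
      exact this
    rw [hP, h2, zero_smul, sub_zero]
  have h2 := LinearMap.finrank_range_add_finrank_ker χ
  have h3 : Module.finrank K (LinearMap.ker χ) ≤ (Lam K Y d₁).rank := by
    rw [(Submodule.equivMapOfInjective Z.subtype Z.injective_subtype (LinearMap.ker χ)).finrank_eq]
    exact Submodule.finrank_mono hkerχ
  have h4 : Module.finrank K (LinearMap.range χ) ≤
      Module.finrank K (Additive (MulAction.stabilizer G y₀) →+ K) := Submodule.finrank_le _
  have h5 : (Lam K Y d₂).rank + Module.finrank K Z = n₁ * Fintype.card Y := by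
    have := LinearMap.finrank_range_add_finrank_ker (Lam K Y d₂).mulVecLin
    rw [Module.finrank_fintype_fun_eq_card, Fintype.card_prod, Fintype.card_fin] at this
    exact this
  omega

end act

end Vale.Agent.P260.H145
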