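import Mathlib

/-!
# P260: Poincare duality groups of formal dimension 4 over a field, of type FF
-/

namespace Vale.Agent.P260.H145

open Matrix

/-- The augmentation `K[G] → K`. -/
noncomputable abbrev augm (K : Type) [Field K] (G : Type) [Group G] : MonoidAlgebra K G →ₐ[K] K :=
  MonoidAlgebra.lift K K G 1

/-- Data showing that `G` is a Poincare duality group of formal dimension 4 over the field `K`, of
type FF: a finite free resolution `0 → K[G]^n₄ → K[G]^n₃ → K[G]^n₂ → K[G]^n₁ → K[G]^n₀ → K → 0` of the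
trivial left module `K` (row vectors, the maps are right multiplication by the matrices `dᵢ`), such
that the dual complex `Hom_{K[G]}(-, K[G])` (column vectors, left multiplication by the `dᵢ`) is
exact except at the end, where the cokernel `H⁴(G; K[G])` is one-dimensional. -/
structure PD4 (K : Type) [Field K] (G : Type) [Group G] where
  n₀ : ℕ
  n₁ : ℕ
  n₂ : ℕ
  n₃ : ℕ
  n₄ : ℕ
  /-- the augmentation `v ↦ ∑ i, aug (v i) * c i` -/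
  c : Fin n₀ → K
  d₁ : Matrix (Fin n₁) (Fin n₀) (MonoidAlgebra K G)
  d₂ : Matrix (Fin n₂) (Fin n₁) (MonoidAlgebra K G)
  d₃ : Matrix (Fin n₃) (Fin n₂) (MonoidAlgebra K G)
  d₄ : Matrix (Fin n₄) (Fin n₃) (MonoidAlgebra K G)
  c_ne : c ≠ 0
  ex₀ : ∀ v, ∑ i, augm K G (v i) * c i = 0 ↔ ∃ w, w ᵥ* d₁ = v
  ex₁ : ∀ v, v ᵥ* d₁ = 0 ↔ ∃ w, w ᵥ* d₂ = v
  ex₂ : ∀ v, v ᵥ* d₂ = 0 ↔ ∃ w, w ᵥ* d₃ = v
  ex₃ : ∀ v, v ᵥ* d₃ = 0 ↔ ∃ w, w ᵥ* d₄ = v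
  ex₄ : ∀ v, v ᵥ* d₄ = 0 → v = 0
  co₀ : ∀ w, d₁ *ᵥ w = 0 → w = 0
  co₁ : ∀ w, d₂ *ᵥ w = 0 → ∃ u, d₁ *ᵥ u = w
  co₂ : ∀ w, d₃ *ᵥ w = 0 → ∃ u, d₂ *ᵥ u = w
  co₃ : ∀ w, d₄ *ᵥ w = 0 → ∃ u, d₃ *ᵥ u = w
  co₄ : ∃ θ : (Fin n₄ → MonoidAlgebra K G) →ₗ[K] K, θ ≠ 0 ∧ ∀ w, θ w = 0 ↔ ∃ u, d₄ *ᵥ u = w

end Vale.Agent.P260.H145
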