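import Mathlib
import Vale.Agent.P260.H145.D
import Vale.Agent.P260.H145.PDDef

/-!
# P260, block D (2): Poincare duality groups over a field, and the bound on the second homology
-/

set_option linter.unusedSectionVars false

namespace Vale.Agent.P260.H145

open Finset Submodule MonoidAlgebra Matrix

section star

variable {K : Type} [Field K] {G : Type} [Group G]

/-- The canonical anti-automorphism, as a map to the opposite algebra. -/
noncomputable def iotaOp (K : Type) [Field K] (G : Type) [Group G] :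
    MonoidAlgebra K G →ₐ[K] (MonoidAlgebra K G)ᵐᵒᵖ :=
  MonoidAlgebra.lift K (MonoidAlgebra K G)ᵐᵒᵖ G
    { toFun := fun g => MulOpposite.op (single g⁻¹ 1)
      map_one' := by
        rw [inv_one, ← MonoidAlgebra.one_def]
        rfl
      map_mul' := fun g h => by
        rw [_root_.mul_inv_rev, ← MulOpposite.op_mul, MonoidAlgebra.single_mul_single, one_mul] }

/-- The canonical anti-automorphism `g ↦ g⁻¹` of the group algebra. -/
noncomputable def iota : MonoidAlgebra K G →ₗ[K] MonoidAlgebra K G :=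
  (MulOpposite.opLinearEquiv K).symm.toLinearMap ∘ₗ (iotaOp K G).toLinearMap

theorem iota_apply (x : MonoidAlgebra K G) : iota x = (iotaOp K G x).unop := rfl

theorem iota_single (g : G) (c : K) : iota (single g c) = single g⁻¹ c := by
  rw [iota_apply, iotaOp, MonoidAlgebra.lift_single]
  show (c • MulOpposite.op (single g⁻¹ (1 : K))).unop = single g⁻¹ c
  rw [MulOpposite.unop_smul, MulOpposite.unop_op, MonoidAlgebra.smul_single, smul_eq_mul, mul_one]

theorem iota_mul (x y : MonoidAlgebra K G) : iota (x * y) = iota y * iota x := by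
  rw [iota_apply, map_mul, MulOpposite.unop_mul]
  rfl

theorem iota_iota (x : MonoidAlgebra K G) : iota (iota x) = x := by
  have : (iota ∘ₗ iota : MonoidAlgebra K G →ₗ[K] MonoidAlgebra K G) = LinearMap.id := by
    refine MonoidAlgebra.lhom_ext' fun g => ?_
    refine LinearMap.ext fun c => ?_
    show iota (iota (single g c)) = single g c
    rw [iota_single, iota_single, inv_inv]
  exact LinearMap.congr_fun this x

/-- The conjugate transpose. -/
noncomputable def ct {a b : ℕ} (M : Matrix (Fin a) (Fin b) (MonoidAlgebra K G)) :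
    Matrix (Fin b) (Fin a) (MonoidAlgebra K G) := Matrix.of fun j i => iota (M i j)

theorem iota_mulVec {a b : ℕ} (M : Matrix (Fin a) (Fin b) (MonoidAlgebra K G))
    (w : Fin b → MonoidAlgebra K G) :
    (fun i => iota ((M *ᵥ w) i)) = (fun j => iota (w j)) ᵥ* ct M := by
  funext i
  simp only [Matrix.mulVec, Matrix.vecMul, dotProduct, map_sum, iota_mul, ct, Matrix.of_apply]

theorem vecMul_ct {a b : ℕ} (M : Matrix (Fin a) (Fin b) (MonoidAlgebra K G))
    (v : Fin b → MonoidAlgebra K G) :
    v ᵥ* ct M = fun i => iota ((M *ᵥ fun j => iota (v j)) i) := by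
  rw [iota_mulVec]
  simp only [iota_iota]

variable (Y : Type) [Fintype Y] [DecidableEq Y] [MulAction G Y]

theorem lam_iota (x : MonoidAlgebra K G) : lam K Y (iota x) = (lam K Y x)ᵀ := by
  have : ((lam K Y).toLinearMap ∘ₗ (iota : MonoidAlgebra K G →ₗ[K] MonoidAlgebra K G)) =
      (Matrix.transposeLinearEquiv Y Y K K).toLinearMap ∘ₗ (lam K Y).toLinearMap := by
    refine MonoidAlgebra.lhom_ext' fun g => ?_
    refine LinearMap.ext fun c => ?_
    show lam K Y (iota (single g c)) = (lam K Y (single g c))ᵀ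
    rw [iota_single, lam_single, lam_single, Matrix.transpose_smul]
    congr 1
    ext y z
    rw [Matrix.transpose_apply, pm_apply, pm_apply]
    have h : (y = g⁻¹ • z) ↔ (z = g • y) := by rw [eq_inv_smul_iff, eq_comm]
    simp only [h]
  exact LinearMap.congr_fun this x

theorem Lam_ct {a b : ℕ} (M : Matrix (Fin a) (Fin b) (MonoidAlgebra K G)) :
    Lam K Y (ct M) = (Lam K Y M)ᵀ := by
  ext p r
  rw [Matrix.transpose_apply, Lam, Lam, Matrix.of_apply, Matrix.of_apply, ct, Matrix.of_apply,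
    lam_iota, Matrix.transpose_apply]

end star

namespace PD4

variable {K : Type} [Field K] {G : Type} [Group G] (P : PD4 K G)

/-- The augmentation as a linear map. -/
noncomputable def eps : (Fin P.n₀ → MonoidAlgebra K G) →ₗ[K] K where
  toFun v := ∑ i, augm K G (v i) * P.c i
  map_add' v w := by
    rw [← Finset.sum_add_distrib]
    refine Finset.sum_congr rfl fun i _ => ?_
    rw [Pi.add_apply, map_add, add_mul]
  map_smul' r v := by
    rw [Finset.smul_sum]
    refine Finset.sum_congr rfl fun i _ => ?_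
    rw [Pi.smul_apply, map_smul, RingHom.id_apply, smul_mul_assoc]

theorem eps_apply (v : Fin P.n₀ → MonoidAlgebra K G) :
    P.eps v = ∑ i, augm K G (v i) * P.c i := rfl

theorem eps_ne : P.eps ≠ 0 := by
  classical
  intro h
  refine P.c_ne (funext fun i => ?_)
  have h1 := LinearMap.congr_fun h (Pi.single i 1)
  rw [eps_apply, LinearMap.zero_apply, Finset.sum_eq_single i] at h1
  · rw [Pi.single_eq_same, map_one, one_mul] at h1
    exact h1
  · intro j _ hj
    rw [Pi.single_eq_of_ne hj, map_zero, zero_mul]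
  · intro h
    exact absurd (Finset.mem_univ _) h

theorem eps_lt (g : G) (v : Fin P.n₀ → MonoidAlgebra K G) : P.eps (lt P.n₀ g v) = P.eps v := by
  rw [eps_apply, eps_apply]
  refine Finset.sum_congr rfl fun i _ => ?_
  rw [lt_apply, map_mul]
  simp

theorem range_d₁ : LinearMap.range (vm P.d₁) = LinearMap.ker P.eps := by
  ext v
  exact (P.ex₀ v).symm

theorem range_d₂ : LinearMap.range (vm P.d₂) = LinearMap.ker (vm P.d₁) := by
  ext v
  exact (P.ex₁ v).symm

theorem range_d₃ : LinearMap.range (vm P.d₃) = LinearMap.ker (vm P.d₂) := by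
  ext v
  exact (P.ex₂ v).symm

theorem range_d₄ : LinearMap.range (vm P.d₄) = LinearMap.ker (vm P.d₃) := by
  ext v
  exact (P.ex₃ v).symm

theorem ker_d₄ : LinearMap.ker (vm P.d₄) = ⊥ := by
  rw [eq_bot_iff]
  intro v hv
  exact P.ex₄ v hv

theorem iota_zero_iff {a : ℕ} (v : Fin a → MonoidAlgebra K G) :
    (fun i => iota (v i)) = 0 ↔ v = 0 := by
  constructor
  · intro h
    funext i
    have := congrFun h i
    simp only [Pi.zero_apply] at this
    rw [← iota_iota (v i), this, map_zero, Pi.zero_apply]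
  · rintro rfl
    funext i
    simp

/-- Exactness of the dual complex in row form. -/
theorem range_ct {a b c : ℕ} (A : Matrix (Fin b) (Fin c) (MonoidAlgebra K G))
    (B : Matrix (Fin a) (Fin b) (MonoidAlgebra K G)) (hz : ∀ w, B *ᵥ (A *ᵥ w) = 0)
    (h : ∀ w, B *ᵥ w = 0 → ∃ u, A *ᵥ u = w) :
    LinearMap.range (vm (ct A)) = LinearMap.ker (vm (ct B)) := by
  ext v
  rw [LinearMap.mem_ker, LinearMap.mem_range]
  constructor
  · rintro ⟨u, rfl⟩
    rw [vm_apply, vm_apply, vecMul_ct, iota_zero_iff, vecMul_ct]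
    simp only [iota_iota]
    exact hz _
  · intro hv
    rw [vm_apply, vecMul_ct, iota_zero_iff] at hv
    obtain ⟨u, hu⟩ := h _ hv
    refine ⟨fun i => iota (u i), ?_⟩
    rw [vm_apply, vecMul_ct]
    simp only [iota_iota]
    funext i
    rw [hu, iota_iota]

theorem mulVec_mulVec_zero {a b c : ℕ} (A : Matrix (Fin b) (Fin c) (MonoidAlgebra K G))
    (B : Matrix (Fin a) (Fin b) (MonoidAlgebra K G)) (h : ∀ v, (v ᵥ* B) ᵥ* A = 0)
    (w : Fin c → MonoidAlgebra K G) : B *ᵥ (A *ᵥ w) = 0 := by
  have hBA : B * A = 0 := by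
    refine Matrix.ext fun i j => ?_
    have h1 := congrFun (h (Pi.single i 1)) j
    rw [Matrix.vecMul_vecMul, Matrix.single_one_vecMul] at h1
    exact h1
  rw [Matrix.mulVec_mulVec, hBA, Matrix.zero_mulVec]

theorem d₄_d₃ (w : Fin P.n₂ → MonoidAlgebra K G) : P.d₄ *ᵥ (P.d₃ *ᵥ w) = 0 :=
  mulVec_mulVec_zero _ _ (fun v => (P.ex₃ _).2 ⟨v, rfl⟩) w

theorem range_ct_d₃ : LinearMap.range (vm (ct P.d₃)) = LinearMap.ker (vm (ct P.d₄)) :=
  range_ct _ _ P.d₄_d₃ P.co₃

/-- The functional defining the dualizing module, in row form. -/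
noncomputable def theta : (Fin P.n₄ → MonoidAlgebra K G) →ₗ[K] K :=
  P.co₄.choose ∘ₗ (LinearMap.pi fun i => iota ∘ₗ LinearMap.proj i)

theorem theta_apply (v : Fin P.n₄ → MonoidAlgebra K G) :
    P.theta v = P.co₄.choose fun i => iota (v i) := rfl

theorem theta_ne : P.theta ≠ 0 := by
  intro h
  refine P.co₄.choose_spec.1 (LinearMap.ext fun v => ?_)
  have := LinearMap.congr_fun h fun i => iota (v i)
  rw [theta_apply] at this
  simp only [iota_iota] at this
  exact this

theorem range_ct_d₄ : LinearMap.range (vm (ct P.d₄)) = LinearMap.ker P.theta := by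
  ext v
  rw [LinearMap.mem_ker, LinearMap.mem_range, theta_apply, P.co₄.choose_spec.2]
  constructor
  · rintro ⟨u, rfl⟩
    refine ⟨fun i => iota (u i), ?_⟩
    rw [vm_apply, vecMul_ct]
    simp only [iota_iota]
  · rintro ⟨u, hu⟩
    refine ⟨fun i => iota (u i), ?_⟩
    rw [vm_apply, vecMul_ct]
    simp only [iota_iota]
    funext i
    rw [hu, iota_iota]

/-- The orientation character (as a map). -/
theorem exists_omega : ∃ ω : G →* Kˣ, ∀ g v, P.theta (lt P.n₄ g v) = (ω g : K) * P.theta v := by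
  obtain ⟨e, he⟩ : ∃ e, P.theta e = 1 := by
    obtain ⟨v, hv⟩ := DFunLike.ne_iff.1 P.theta_ne
    rw [LinearMap.zero_apply] at hv
    exact ⟨(P.theta v)⁻¹ • v, by rw [map_smul, smul_eq_mul, inv_mul_cancel₀ hv]⟩
  have hk : ∀ g v, P.theta v = 0 → P.theta (lt P.n₄ g v) = 0 := by
    intro g v hv
    have : v ∈ LinearMap.range (vm (ct P.d₄)) := by rw [range_ct_d₄]; exact hv
    obtain ⟨u, rfl⟩ := this
    have h2 : lt P.n₄ g (vm (ct P.d₄) u) ∈ LinearMap.range (vm (ct P.d₄)) :=
      ⟨lt P.n₃ g u, vm_lt _ _ _⟩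
    rw [range_ct_d₄] at h2
    exact h2
  have h1 : ∀ g v, P.theta (lt P.n₄ g v) = P.theta (lt P.n₄ g e) * P.theta v := by
    intro g v
    have h2 := hk g (v - P.theta v • e) (by rw [map_sub, map_smul, he, smul_eq_mul, mul_one, sub_self])
    rw [map_sub, map_smul, map_sub, map_smul, sub_eq_zero, smul_eq_mul] at h2
    rw [h2, mul_comm]
  let ω₀ : G →* K :=
    { toFun := fun g => P.theta (lt P.n₄ g e)
      map_one' := by rw [lt_one, he]
      map_mul' := fun g h => by rw [← lt_mul, h1] }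
  refine ⟨ω₀.toHomUnits, fun g v => ?_⟩
  rw [h1, MonoidHom.coe_toHomUnits]
  rfl

/-- **The bound on the second homology**: `b₂(H) ≤ 2 dim Hom(H, K)`. -/
theorem b2_bound [Infinite G] (hG : Folner G) (Y : Type) [Fintype Y] [DecidableEq Y]
    [MulAction G Y] (y₀ : Y) (htr : ∀ y : Y, ∃ g : G, g • y₀ = y)
    (hθ : ∀ h : G, h • y₀ = y₀ → ∀ v, P.theta (lt P.n₄ h v) = P.theta v)
    [FiniteDimensional K (Additive (MulAction.stabilizer G y₀) →+ K)] :
    P.n₂ * Fintype.card Y ≤ (Lam K Y P.d₃).rank + (Lam K Y P.d₂).rank +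
      2 * Module.finrank K (Additive (MulAction.stabilizer G y₀) →+ K) := by
  have e := euler_zero hG P.eps P.d₁ P.d₂ P.d₃ P.d₄ P.range_d₁ P.range_d₂ P.range_d₃ P.range_d₄
    P.ker_d₄
  have h1 := h1_bound P.eps P.d₁ P.d₂ y₀ htr P.eps_ne (fun h _ v => P.eps_lt h v) P.range_d₁
    P.range_d₂
  have h2 := h1_bound P.theta (ct P.d₄) (ct P.d₃) y₀ htr P.theta_ne hθ P.range_ct_d₄
    P.range_ct_d₃
  rw [Lam_ct, Lam_ct, Matrix.rank_transpose, Matrix.rank_transpose] at h2
  have h3 : (Lam K Y P.d₁).rank ≤ P.n₀ * Fintype.card Y := by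
    refine (Matrix.rank_le_card_width _).trans ?_
    rw [Fintype.card_prod, Fintype.card_fin]
  have h4 : (Lam K Y P.d₄).rank ≤ P.n₄ * Fintype.card Y := by
    refine (Matrix.rank_le_card_height _).trans ?_
    rw [Fintype.card_prod, Fintype.card_fin]
  have h5 : (P.n₀ + P.n₂ + P.n₄) * Fintype.card Y = (P.n₁ + P.n₃) * Fintype.card Y := by rw [e]
  have h6 : P.n₀ * Fintype.card Y + P.n₂ * Fintype.card Y + P.n₄ * Fintype.card Y =
      P.n₁ * Fintype.card Y + P.n₃ * Fintype.card Y := by
    rw [← add_mul, ← add_mul, ← add_mul]; exact h5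
  omega

end PD4

end Vale.Agent.P260.H145
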