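import Mathlib
import Vale.Agent.P260.H145.D2

/-!
# P260: a Poincare duality group over a field is finitely generated and infinite
-/

set_option linter.unusedSectionVars false

namespace Vale.Agent.P260.H145

open Finset Submodule MonoidAlgebra Matrix

namespace PD4

variable {K : Type} [Field K] {G : Type} [Group G] (P : PD4 K G)

/-- Restriction to the elements of a subset. -/
noncomputable def res (s : Set G) [DecidablePred (· ∈ s)] :
    MonoidAlgebra K G →ₗ[K] MonoidAlgebra K G where
  toFun x := ofCoeff (x.coeff.filter (· ∈ s))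
  map_add' x y := by
    rw [coeff_add, Finsupp.filter_add, ofCoeff_add]
  map_smul' c x := by
    rw [coeff_smul, Finsupp.filter_smul]
    rfl

theorem res_single (s : Set G) [DecidablePred (· ∈ s)] (g : G) (c : K) :
    res s (single g c) = if g ∈ s then single g c else 0 := by
  show ofCoeff ((single g c).coeff.filter (· ∈ s)) = _
  rw [coeff_single]
  split_ifs with h
  · rw [Finsupp.filter_single_of_pos _ h]
    rfl
  · rw [Finsupp.filter_single_of_neg _ h]
    rfl

theorem res_mul (H : Subgroup G) [DecidablePred (· ∈ (H : Set G))] (x y : MonoidAlgebra K G)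
    (hy : ∀ g ∈ y.coeff.support, g ∈ H) : res (H : Set G) (x * y) = res (H : Set G) x * y := by
  classical
  have hy' : y = ∑ g ∈ y.coeff.support, single g (y.coeff g) := by
    refine MonoidAlgebra.ext ?_
    rw [coeff_sum]
    simp only [coeff_single]
    exact (y.coeff.sum_single).symm
  rw [hy', Finset.mul_sum, Finset.mul_sum, map_sum]
  refine Finset.sum_congr rfl fun g hg => ?_
  have : (res (H : Set G)) ∘ₗ (LinearMap.mulRight K (single g (y.coeff g))) =
      (LinearMap.mulRight K (single g (y.coeff g))) ∘ₗ (res (H : Set G) (K := K)) := by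
    refine MonoidAlgebra.lhom_ext' fun h => ?_
    refine LinearMap.ext fun c => ?_
    show res (H : Set G) (single h c * single g (y.coeff g)) =
      res (H : Set G) (single h c) * single g (y.coeff g)
    rw [MonoidAlgebra.single_mul_single, res_single, res_single]
    have h1 : h * g ∈ (H : Set G) ↔ h ∈ (H : Set G) := by
      rw [SetLike.mem_coe, SetLike.mem_coe, Subgroup.mul_mem_cancel_right _ (hy g hg)]
    by_cases h2 : h ∈ (H : Set G)
    · rw [if_pos (h1.2 h2), if_pos h2, MonoidAlgebra.single_mul_single]
    · rw [if_neg (fun h => h2 (h1.1 h)), if_neg h2, zero_mul]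
  exact LinearMap.congr_fun this x

include P in
theorem fg : Group.FG G := by
  classical
  let T : Finset G := Finset.univ.biUnion fun i => Finset.univ.biUnion fun j =>
    (P.d₁ i j).coeff.support
  let H : Subgroup G := Subgroup.closure (T : Set G)
  suffices h : H = ⊤ by
    exact ⟨⟨T, h⟩⟩
  rw [eq_top_iff]
  intro g _
  by_contra hg
  obtain ⟨j, hj⟩ : ∃ j, P.c j ≠ 0 := by
    by_contra hcon
    push Not at hcon
    exact P.c_ne (funext hcon)
  obtain ⟨w, hw⟩ := (P.ex₀ (Pi.single j (single g 1 - 1))).1 (by
    rw [Finset.sum_eq_single j]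
    · rw [Pi.single_eq_same, map_sub, map_one]
      simp
    · intro i _ hi
      rw [Pi.single_eq_of_ne hi, map_zero, zero_mul]
    · intro h
      exact absurd (Finset.mem_univ _) h)
  have h1 : (fun i => res (H : Set G) (w i)) ᵥ* P.d₁ = Pi.single j (-1) := by
    funext i
    have h2 : ((fun i => res (H : Set G) (w i)) ᵥ* P.d₁) i = res (H : Set G) ((w ᵥ* P.d₁) i) := by
      simp only [Matrix.vecMul, dotProduct, map_sum]
      refine Finset.sum_congr rfl fun k _ => ?_
      rw [res_mul]
      intro g hg
      refine Subgroup.subset_closure (Finset.mem_coe.2 ?_)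
      exact Finset.mem_biUnion.2 ⟨k, Finset.mem_univ _, Finset.mem_biUnion.2
        ⟨i, Finset.mem_univ _, hg⟩⟩
    rw [h2, hw]
    by_cases hij : i = j
    · subst hij
      rw [Pi.single_eq_same, Pi.single_eq_same, map_sub, MonoidAlgebra.one_def, res_single,
        res_single, if_neg (show g ∉ (H : Set G) from hg),
        if_pos (show (1 : G) ∈ (H : Set G) from H.one_mem), zero_sub]
    · rw [Pi.single_eq_of_ne hij, Pi.single_eq_of_ne hij, map_zero]
  have h3 := (P.ex₀ (Pi.single j (-1))).2 ⟨_, h1⟩
  rw [Finset.sum_eq_single j] at h3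
  · rw [Pi.single_eq_same, map_neg, map_one, neg_mul, one_mul, neg_eq_zero] at h3
    exact hj h3
  · intro i _ hi
    rw [Pi.single_eq_of_ne hi, map_zero, zero_mul]
  · intro h
    exact absurd (Finset.mem_univ _) h

include P in
theorem infinite : Infinite G := by
  classical
  by_contra hfin
  rw [not_infinite_iff_finite] at hfin
  cases nonempty_fintype G
  obtain ⟨j, hj⟩ : ∃ j, P.c j ≠ 0 := by
    by_contra hcon
    push Not at hcon
    exact P.c_ne (funext hcon)
  let N : MonoidAlgebra K G := ∑ g : G, single g 1
  have hN : ∀ x : MonoidAlgebra K G, x * N = augm K G x • N := by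
    intro x
    induction x using MonoidAlgebra.induction_on with
    | of g =>
      have h1 : augm K G (of K G g) = 1 := by simp [augm]
      rw [h1, one_smul, Finset.mul_sum]
      rw [MonoidAlgebra.of_apply]
      simp only [MonoidAlgebra.single_mul_single, one_mul]
      exact Fintype.sum_equiv (Equiv.mulLeft g) _ _ fun h => rfl
    | add x y hx hy => rw [add_mul, hx, hy, map_add, add_smul]
    | smul c x hx => rw [smul_mul_assoc, hx, map_smul, smul_eq_mul, mul_smul]
  have hw := P.co₀ (fun i => P.c i • N) (by
    funext i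
    simp only [Matrix.mulVec, dotProduct, Pi.zero_apply]
    have h1 : ∀ k, P.d₁ i k * P.c k • N = (augm K G (P.d₁ i k) * P.c k) • N := by
      intro k
      rw [mul_smul_comm, hN, smul_smul, mul_comm]
    rw [Finset.sum_congr rfl fun k _ => h1 k, ← Finset.sum_smul]
    have h2 := (P.ex₀ (P.d₁ i)).2 ⟨Pi.single i 1, by rw [Matrix.single_one_vecMul]; rfl⟩
    rw [h2, zero_smul])
  have h2 := congrFun hw j
  simp only [Pi.zero_apply] at h2
  have h3 : N = 0 := by
    rcases smul_eq_zero.1 h2 with h | h
    · exact absurd h hj
    · exact h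
  have h4 : N.coeff 1 = 1 := by
    simp only [N, coeff_sum, coeff_single, Finsupp.finsetSum_apply, Finsupp.single_apply]
    simp
  rw [h3, coeff_zero, Finsupp.zero_apply] at h4
  exact zero_ne_one h4

end PD4

end Vale.Agent.P260.H145
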