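import Mathlib
import Vale.Agent.P260.H145.D2
import Vale.Agent.P300.H863.Fox

/-!
# P260, block C1': the number of relators of the nilpotent quotients of `K[S]` is at most `b₂(S)`
-/

set_option linter.unusedSectionVars false

namespace Vale.Agent.P260.H145

open Finset Submodule MonoidAlgebra Vale.Agent.P300.GS

section

variable {K : Type} [Field K] {G : Type} [Group G]

/-- Left multiplication on `K[G]^n`. -/
noncomputable def lm (n : ℕ) (y : MonoidAlgebra K G) :
    (Fin n → MonoidAlgebra K G) →ₗ[K] (Fin n → MonoidAlgebra K G) where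
  toFun v i := y * v i
  map_add' v w := by
    funext i
    simp [mul_add]
  map_smul' c v := by
    funext i
    simp

theorem lm_apply {n : ℕ} (y : MonoidAlgebra K G) (v : Fin n → MonoidAlgebra K G) (i : Fin n) :
    lm n y v i = y * v i := rfl

theorem lm_of {n : ℕ} (g : G) (v : Fin n → MonoidAlgebra K G) :
    lm n (single g 1) v = lt n g v := rfl

theorem lm_add {n : ℕ} (y z : MonoidAlgebra K G) (v : Fin n → MonoidAlgebra K G) :
    lm n (y + z) v = lm n y v + lm n z v := by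
  funext i
  rw [lm_apply, Pi.add_apply, lm_apply, lm_apply, add_mul]

theorem lm_smul {n : ℕ} (c : K) (y : MonoidAlgebra K G) (v : Fin n → MonoidAlgebra K G) :
    lm n (c • y) v = c • lm n y v := by
  funext i
  rw [lm_apply, Pi.smul_apply, lm_apply, smul_mul_assoc]

theorem lm_mul {n : ℕ} (y z : MonoidAlgebra K G) (v : Fin n → MonoidAlgebra K G) :
    lm n (y * z) v = lm n y (lm n z v) := by
  funext i
  rw [lm_apply, lm_apply, lm_apply, mul_assoc]

theorem vm_lm {a b : ℕ} (M : Matrix (Fin a) (Fin b) (MonoidAlgebra K G)) (y : MonoidAlgebra K G)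
    (v : Fin a → MonoidAlgebra K G) : vm M (lm a y v) = lm b y (vm M v) := by
  funext j
  rw [vm_apply, vm_apply, lm_apply]
  simp only [Matrix.vecMul, dotProduct, lm_apply, Finset.mul_sum, mul_assoc]

end

section

variable {K : Type} [Field K] {G : Type} [Group G] {Y : Type} [Fintype Y] [DecidableEq Y]
  [MulAction G Y]

/-- explicit form of `Phi_surj` -/
theorem Phi_eq {n : ℕ} (y₀ : Y) (t : Y → G) (ht : ∀ y : Y, t y • y₀ = y)
    (s : (Fin n → MonoidAlgebra K G) →ₗ[K] K)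
    (hs : ∀ h : G, h • y₀ = y₀ → ∀ v, s (lt n h v) = s v) :
    Phi K Y y₀ (fun p => s (bv K p.1 (t p.2)⁻¹)) = s := by
  refine ext_bv fun i g => ?_
  rw [Phi_bv]
  show s (bv K i (t (g⁻¹ • y₀))⁻¹) = _
  have h1 : ((t (g⁻¹ • y₀))⁻¹ * g⁻¹) • y₀ = y₀ := by
    rw [mul_smul, inv_smul_eq_iff, ht]
  rw [← hs _ h1 (bv K i g), lt_bv, inv_mul_cancel_right]

/-- The inclusion of group algebras. -/
noncomputable def inc (K : Type) [Field K] (S : Subgroup G) :
    MonoidAlgebra K S →ₐ[K] MonoidAlgebra K G := mapDomainAlgHom K K S.subtype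

theorem inc_single (S : Subgroup G) (s : S) (c : K) : inc K S (single s c) = single (s : G) c := by
  simp [inc]

/-- Data for the relator bound. -/
structure RData (K : Type) [Field K] {G : Type} [Group G] {Y : Type} [Fintype Y] [DecidableEq Y]
    [MulAction G Y] (y₀ : Y) where
  n₀ : ℕ
  n₁ : ℕ
  n₂ : ℕ
  n₃ : ℕ
  ε : (Fin n₀ → MonoidAlgebra K G) →ₗ[K] K
  d₁ : Matrix (Fin n₁) (Fin n₀) (MonoidAlgebra K G)
  d₂ : Matrix (Fin n₂) (Fin n₁) (MonoidAlgebra K G)
  d₃ : Matrix (Fin n₃) (Fin n₂) (MonoidAlgebra K G)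
  hε0 : ε ≠ 0
  hε : ∀ h : G, h • y₀ = y₀ → ∀ v, ε (lt n₀ h v) = ε v
  r₁ : LinearMap.range (vm d₁) = LinearMap.ker ε
  r₂ : LinearMap.range (vm d₂) = LinearMap.ker (vm d₁)
  r₃ : LinearMap.range (vm d₃) = LinearMap.ker (vm d₂)
  t : Y → G
  ht : ∀ y : Y, t y • y₀ = y
  /-- number of generators -/
  d : ℕ
  x : Fin d → MulAction.stabilizer G y₀
  n : ℕ
  hn : 2 ≤ n
  /-- minimality -/
  hmin : ∀ a : MonoidAlgebra K (FreeGroup (Fin d)),
    mapDomainAlgHom K K (FreeGroup.lift x) a ∈ augF K _ 2 → a ∈ augF K _ 2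
  /-- generation -/
  hgen : ∀ k, ∀ y ∈ augF K (MulAction.stabilizer G y₀) k,
    ∃ a ∈ augF K (FreeGroup (Fin d)) k,
      y - mapDomainAlgHom K K (FreeGroup.lift x) a ∈ augF K (MulAction.stabilizer G y₀) (k + 1)

namespace RData

variable {y₀ : Y} (D : RData K (G := G) y₀)

/-- The algebra map. -/
noncomputable def θ : MonoidAlgebra K (FreeGroup (Fin D.d)) →ₐ[K]
    MonoidAlgebra K (MulAction.stabilizer G y₀) :=
  mapDomainAlgHom K K (FreeGroup.lift D.x)

theorem aug_θ (a : MonoidAlgebra K (FreeGroup (Fin D.d))) :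
    aug K _ (D.θ a) = aug K _ a := by
  induction a using MonoidAlgebra.induction_on with
  | of g =>
    have h : D.θ (of K _ g) = of K _ (FreeGroup.lift D.x g) := by simp [θ]
    rw [h, aug_of, aug_of]
  | add x y hx hy => rw [map_add, map_add, map_add, hx, hy]
  | smul c x hx => rw [map_smul, map_smul, map_smul, hx]

/-- The relation ideal of the `n`-th quotient. -/
noncomputable def J : Submodule K (MonoidAlgebra K (FreeGroup (Fin D.d))) :=
  (augF K (MulAction.stabilizer G y₀) D.n).comap D.θ.toLinearMap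

theorem mem_J {a : MonoidAlgebra K (FreeGroup (Fin D.d))} :
    a ∈ D.J ↔ D.θ a ∈ augF K (MulAction.stabilizer G y₀) D.n := Iff.rfl

theorem of_mem_J (w : FreeGroup (Fin D.d)) (hw : FreeGroup.lift D.x w = 1) :
    of K _ w - 1 ∈ D.J := by
  have h1 : D.θ (of K _ w) = of K _ (FreeGroup.lift D.x w) := by simp [θ]
  rw [mem_J, map_sub, map_one, h1, hw, map_one, sub_self]
  exact zero_mem _

theorem J_le_two : D.J ≤ augF K _ 2 := fun a ha => D.hmin a (augF_anti D.hn ha)

theorem J_le_one : D.J ≤ augF K _ 1 := D.J_le_two.trans (augF_anti (by norm_num))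

theorem J_mul_left (a : MonoidAlgebra K (FreeGroup (Fin D.d))) {b} (hb : b ∈ D.J) :
    a * b ∈ D.J := by
  rw [mem_J, map_mul]
  exact augF_mul_left _ hb

theorem J_mul_right (a : MonoidAlgebra K (FreeGroup (Fin D.d))) {b} (hb : b ∈ D.J) :
    b * a ∈ D.J := by
  rw [mem_J, map_mul]
  exact augF_mul_right _ hb

/-- The decomposable relations. -/
noncomputable def W : Submodule K (MonoidAlgebra K (FreeGroup (Fin D.d))) :=
  (augF K _ 1 * D.J ⊔ D.J * augF K _ 1) ⊔ augF K _ D.n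

theorem mJ_mem {a b : MonoidAlgebra K (FreeGroup (Fin D.d))} (ha : a ∈ augF K _ 1)
    (hb : b ∈ D.J) : a * b ∈ D.W :=
  (le_sup_left.trans le_sup_left : _ ≤ D.W) (Submodule.mul_mem_mul ha hb)

theorem Jm_mem {a b : MonoidAlgebra K (FreeGroup (Fin D.d))} (ha : a ∈ D.J)
    (hb : b ∈ augF K _ 1) : a * b ∈ D.W :=
  (le_sup_right.trans le_sup_left : _ ≤ D.W) (Submodule.mul_mem_mul ha hb)

theorem pow_le_W : augF K _ D.n ≤ D.W := le_sup_right

theorem pow_le_J : augF K (FreeGroup (Fin D.d)) D.n ≤ D.J := by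
  intro a ha
  exact map_augF (FreeGroup.lift D.x) ha

theorem W_le_J : D.W ≤ D.J := by
  refine sup_le (sup_le ?_ ?_) D.pow_le_J
  · exact Submodule.mul_le.2 fun a _ b hb => D.J_mul_left a hb
  · exact Submodule.mul_le.2 fun a ha b _ => D.J_mul_right b ha

/-- Approximation to any order. -/
theorem gen' (k m : ℕ) : ∀ y ∈ augF K (MulAction.stabilizer G y₀) k,
    ∃ a ∈ augF K (FreeGroup (Fin D.d)) k, y - D.θ a ∈ augF K (MulAction.stabilizer G y₀) (k + m) := by
  induction m with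
  | zero => exact fun y hy => ⟨0, zero_mem _, by rw [map_zero, sub_zero]; exact hy⟩
  | succ m ih =>
    intro y hy
    obtain ⟨a, ha, h⟩ := ih y hy
    obtain ⟨b, hb, h'⟩ := D.hgen (k + m) _ h
    refine ⟨a + b, add_mem ha (augF_anti (by omega) hb), ?_⟩
    rw [map_add, ← sub_sub]
    exact h'

theorem gen0 (y : MonoidAlgebra K (MulAction.stabilizer G y₀)) :
    ∃ a, y - D.θ a ∈ augF K (MulAction.stabilizer G y₀) D.n := by
  obtain ⟨a, _, h⟩ := D.gen' 0 D.n y (by rw [augF_zero]; trivial)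
  rw [zero_add] at h
  exact ⟨a, h⟩

/-- Lifting of group elements. -/
noncomputable def lam0 (s : MulAction.stabilizer G y₀) : MonoidAlgebra K (FreeGroup (Fin D.d)) :=
  (D.gen0 (of K _ s)).choose

/-- The linear section. -/
noncomputable def sec : MonoidAlgebra K (MulAction.stabilizer G y₀) →ₗ[K]
    MonoidAlgebra K (FreeGroup (Fin D.d)) where
  toFun y := y.coeff.sum fun s c => c • D.lam0 s
  map_add' y z := by
    rw [coeff_add, Finsupp.sum_add_index']
    · intro; rw [zero_smul]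
    · intro _ _ _; rw [add_smul]
  map_smul' c y := by
    rw [coeff_smul, Finsupp.sum_smul_index', Finsupp.smul_sum, RingHom.id_apply]
    · refine Finsupp.sum_congr fun g _ => ?_
      rw [smul_assoc]
    · intro; rw [zero_smul]

theorem sec_of (s : MulAction.stabilizer G y₀) : D.sec (of K _ s) = D.lam0 s := by
  show (of K _ s).coeff.sum (fun s c => c • D.lam0 s) = _
  rw [of_apply, coeff_single, Finsupp.sum_single_index (by rw [zero_smul]), one_smul]

theorem sec_spec (y : MonoidAlgebra K (MulAction.stabilizer G y₀)) :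
    y - D.θ (D.sec y) ∈ augF K (MulAction.stabilizer G y₀) D.n := by
  induction y using MonoidAlgebra.induction_on with
  | of g =>
    rw [sec_of]
    exact (D.gen0 (of K _ g)).choose_spec
  | add x y hx hy =>
    rw [map_add, map_add, add_sub_add_comm]
    exact add_mem hx hy
  | smul c x hx =>
    rw [map_smul, map_smul, ← smul_sub]
    exact Submodule.smul_mem _ _ hx

theorem aug_sec (y : MonoidAlgebra K (MulAction.stabilizer G y₀)) :
    aug K _ (D.sec y) = aug K _ y := by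
  have h := augF_anti (show 1 ≤ D.n from le_trans (by norm_num) D.hn) (D.sec_spec y)
  rw [mem_augF_one, map_sub, aug_θ, sub_eq_zero] at h
  exact h.symm

/-- `θ a - θ b ∈ I^n` iff `a - b ∈ J`. -/
theorem sec_θ (a : MonoidAlgebra K (FreeGroup (Fin D.d))) : a - D.sec (D.θ a) ∈ D.J := by
  rw [mem_J, map_sub]
  exact D.sec_spec _

/-! ### The lifts -/

/-- The `S`-component of an element of `G`. -/
def hh (g : G) : MulAction.stabilizer G y₀ := ⟨g * D.t (g⁻¹ • y₀), by
  rw [MulAction.mem_stabilizer_iff, mul_smul, D.ht, smul_inv_smul]⟩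

theorem hh_mul (s : MulAction.stabilizer G y₀) (g : G) : D.hh ((s : G) * g) = s * D.hh g := by
  apply Subtype.ext
  show (s : G) * g * D.t (((s : G) * g)⁻¹ • y₀) = s * (g * D.t (g⁻¹ • y₀))
  have h : ((s : G) * g)⁻¹ • y₀ = g⁻¹ • y₀ := by
    rw [mul_inv_rev, mul_smul]
    congr 1
    rw [inv_smul_eq_iff]
    exact s.2.symm
  rw [h, mul_assoc]

theorem inv_smul_mul (s : MulAction.stabilizer G y₀) (g : G) :
    ((s : G) * g)⁻¹ • y₀ = g⁻¹ • y₀ := by
  rw [mul_inv_rev, mul_smul]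
  congr 1
  rw [inv_smul_eq_iff]
  exact s.2.symm

/-- The lift of the augmentation. -/
noncomputable def f₀ : (Fin D.n₀ → MonoidAlgebra K G) →ₗ[K]
    MonoidAlgebra K (MulAction.stabilizer G y₀) :=
  ofBasis fun i g => D.ε (bv K i g) • of K _ (D.hh g)

theorem aug_f₀ (v : Fin D.n₀ → MonoidAlgebra K G) : aug K _ (D.f₀ v) = D.ε v := by
  have : (aug K _).toLinearMap ∘ₗ D.f₀ = D.ε := by
    refine ext_bv fun i g => ?_
    show aug K _ (D.f₀ (bv K i g)) = _
    rw [f₀, ofBasis_bv, map_smul, aug_of, smul_eq_mul, mul_one]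
  exact LinearMap.congr_fun this v

theorem f₀_lt (s : MulAction.stabilizer G y₀) (v : Fin D.n₀ → MonoidAlgebra K G) :
    D.f₀ (lt D.n₀ (s : G) v) = of K _ s * D.f₀ v := by
  have : D.f₀ ∘ₗ lt D.n₀ (s : G) = LinearMap.mulLeft K (of K _ s) ∘ₗ D.f₀ := by
    refine ext_bv fun i g => ?_
    rw [LinearMap.comp_apply, LinearMap.comp_apply, LinearMap.mulLeft_apply, lt_bv, f₀,
      ofBasis_bv, ofBasis_bv, mul_smul_comm, ← map_mul, hh_mul, ← lt_bv, D.hε _ s.2]
  exact LinearMap.congr_fun this v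

theorem f₀_lm (y : MonoidAlgebra K (MulAction.stabilizer G y₀))
    (v : Fin D.n₀ → MonoidAlgebra K G) : D.f₀ (lm D.n₀ (inc K _ y) v) = y * D.f₀ v := by
  induction y using MonoidAlgebra.induction_on with
  | of g => rw [of_apply, inc_single, lm_of, f₀_lt, of_apply]
  | add x y hx hy => rw [map_add, lm_add, map_add, hx, hy, add_mul]
  | smul c x hx => rw [map_smul, lm_smul, map_smul, hx, smul_mul_assoc]

theorem ex_p (i : Fin D.n₁) (g : G) : ∃ p ∈ augF K (FreeGroup (Fin D.d)) 1,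
    D.f₀ (vm D.d₁ (bv K i g)) - D.θ p ∈ augF K _ D.n := by
  obtain ⟨p, hp⟩ := D.gen0 (D.f₀ (vm D.d₁ (bv K i g)))
  refine ⟨p, ?_, hp⟩
  have h1 : D.ε (vm D.d₁ (bv K i g)) = 0 := by
    have : vm D.d₁ (bv K i g) ∈ LinearMap.ker D.ε := by rw [← D.r₁]; exact ⟨_, rfl⟩
    exact this
  have h := augF_anti (show 1 ≤ D.n from le_trans (by norm_num) D.hn) hp
  rw [mem_augF_one, map_sub, aug_θ, aug_f₀, h1, zero_sub, neg_eq_zero] at h
  rw [mem_augF_one]
  exact h

/-- The lift on the basis. -/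
noncomputable def pp (i : Fin D.n₁) (g : G) : MonoidAlgebra K (FreeGroup (Fin D.d)) :=
  (D.ex_p i g).choose

theorem pp_mem (i : Fin D.n₁) (g : G) : D.pp i g ∈ augF K (FreeGroup (Fin D.d)) 1 :=
  (D.ex_p i g).choose_spec.1

theorem pp_spec (i : Fin D.n₁) (g : G) :
    D.f₀ (vm D.d₁ (bv K i g)) - D.θ (D.pp i g) ∈ augF K _ D.n := (D.ex_p i g).choose_spec.2

/-- The second lift. -/
noncomputable def f₁ : (Fin D.n₁ → MonoidAlgebra K G) →ₗ[K]
    MonoidAlgebra K (FreeGroup (Fin D.d)) :=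
  ofBasis fun i g => D.sec (of K _ (D.hh g)) * D.pp i (D.t (g⁻¹ • y₀))⁻¹

theorem f₁_bv (i : Fin D.n₁) (g : G) :
    D.f₁ (bv K i g) = D.sec (of K _ (D.hh g)) * D.pp i (D.t (g⁻¹ • y₀))⁻¹ := ofBasis_bv _ _ _

/-- Induction for statements about linear conditions. -/
theorem lin_mem {n : ℕ} {M : Type*} [AddCommGroup M] [Module K M]
    (f : (Fin n → MonoidAlgebra K G) →ₗ[K] M) (U : Submodule K M)
    (h : ∀ i g, f (bv K i g) ∈ U) (v : Fin n → MonoidAlgebra K G) : f v ∈ U := by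
  rw [sum_bv v, map_sum]
  refine sum_mem fun i _ => ?_
  rw [Finsupp.sum, map_sum]
  refine sum_mem fun g _ => ?_
  rw [map_smul]
  exact Submodule.smul_mem _ _ (h i g)

theorem f₁_mem (v : Fin D.n₁ → MonoidAlgebra K G) :
    D.f₁ v ∈ augF K (FreeGroup (Fin D.d)) 1 := by
  refine lin_mem _ _ (fun i g => ?_) v
  rw [f₁_bv]
  exact augF_mul_left _ (D.pp_mem _ _)

theorem θ_f₁ (v : Fin D.n₁ → MonoidAlgebra K G) :
    D.θ (D.f₁ v) - D.f₀ (vm D.d₁ v) ∈ augF K (MulAction.stabilizer G y₀) D.n := by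
  refine lin_mem (D.θ.toLinearMap ∘ₗ D.f₁ - D.f₀ ∘ₗ vm D.d₁) _ (fun i g => ?_) v
  show D.θ (D.f₁ (bv K i g)) - D.f₀ (vm D.d₁ (bv K i g)) ∈ _
  rw [f₁_bv, map_mul]
  set s := D.hh g with hs
  set τ := (D.t (g⁻¹ • y₀))⁻¹ with hτ
  have h1 : bv K i g = lt D.n₁ (s : G) (bv K i τ) := by
    rw [lt_bv]
    congr 1
    show g = g * D.t (g⁻¹ • y₀) * τ
    rw [hτ, mul_inv_cancel_right]
  rw [h1, vm_lt, f₀_lt]
  have h2 := augF_mul_right (D.θ (D.pp i τ)) (D.sec_spec (of K _ s))
  have h3 := augF_mul_left (of K _ s) (D.pp_spec i τ)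
  have h4 := neg_mem (add_mem h2 h3)
  convert h4 using 1
  rw [sub_mul, mul_sub]
  abel

theorem f₁_lt (s : MulAction.stabilizer G y₀) (v : Fin D.n₁ → MonoidAlgebra K G) :
    D.f₁ (lt D.n₁ (s : G) v) - D.sec (of K _ s) * D.f₁ v ∈ D.W := by
  refine lin_mem (D.f₁ ∘ₗ lt D.n₁ (s : G) - LinearMap.mulLeft K (D.sec (of K _ s)) ∘ₗ D.f₁) _
    (fun i g => ?_) v
  show D.f₁ (lt D.n₁ (s : G) (bv K i g)) - D.sec (of K _ s) * D.f₁ (bv K i g) ∈ _
  rw [lt_bv, f₁_bv, f₁_bv, inv_smul_mul, hh_mul, ← mul_assoc, ← sub_mul]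
  refine D.Jm_mem ?_ (D.pp_mem _ _)
  rw [mem_J, map_sub, map_mul D.θ, map_mul (of K _)]
  have h1 := D.sec_spec (of K _ s * of K _ (D.hh g))
  have h2 := augF_mul_right (D.θ (D.sec (of K _ (D.hh g)))) (D.sec_spec (of K _ s))
  have h3 := augF_mul_left (of K _ s) (D.sec_spec (of K _ (D.hh g)))
  have h4 := sub_mem (add_mem h2 h3) h1
  convert h4 using 1
  rw [sub_mul, mul_sub]
  abel

theorem f₁_lm (y : MonoidAlgebra K (MulAction.stabilizer G y₀))
    (v : Fin D.n₁ → MonoidAlgebra K G) :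
    D.f₁ (lm D.n₁ (inc K _ y) v) - D.sec y * D.f₁ v ∈ D.W := by
  induction y using MonoidAlgebra.induction_on with
  | of g =>
    have := D.f₁_lt g v
    rwa [of_apply, inc_single, lm_of]
  | add x y hx hy =>
    rw [map_add, lm_add, map_add, map_add, add_mul, add_sub_add_comm]
    exact add_mem hx hy
  | smul c x hx =>
    rw [map_smul, lm_smul, map_smul, map_smul, smul_mul_assoc, ← smul_sub]
    exact Submodule.smul_mem _ _ hx

theorem f₁_d₂ (v : Fin D.n₂ → MonoidAlgebra K G) : D.f₁ (vm D.d₂ v) ∈ D.J := by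
  have h := D.θ_f₁ (vm D.d₂ v)
  have h1 : vm D.d₁ (vm D.d₂ v) = 0 := by
    have : vm D.d₂ v ∈ LinearMap.ker (vm D.d₁) := by rw [← D.r₂]; exact ⟨_, rfl⟩
    exact this
  rw [h1, map_zero, sub_zero] at h
  exact h

/-! ### The main argument -/

theorem htr (D : RData K (G := G) y₀) : ∀ y : Y, ∃ g : G, g • y₀ = y := fun y => ⟨D.t y, D.ht y⟩

section main

variable (φ : MonoidAlgebra K (FreeGroup (Fin D.d)) →ₗ[K] K) (hφ : ∀ a ∈ D.W, φ a = 0)

include hφ in
theorem phi_inv (h : G) (hh : h • y₀ = y₀) (v : Fin D.n₂ → MonoidAlgebra K G) :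
    φ (D.f₁ (vm D.d₂ (lt D.n₂ h v))) = φ (D.f₁ (vm D.d₂ v)) := by
  have h1 := hφ _ (D.f₁_lt ⟨h, hh⟩ (vm D.d₂ v))
  rw [map_sub, sub_eq_zero] at h1
  rw [vm_lt]
  refine h1.trans ?_
  rw [← sub_eq_zero, ← map_sub]
  refine hφ _ ?_
  have h2 : D.sec (of K _ (⟨h, hh⟩ : MulAction.stabilizer G y₀)) * D.f₁ (vm D.d₂ v) -
      D.f₁ (vm D.d₂ v) =
      (D.sec (of K _ (⟨h, hh⟩ : MulAction.stabilizer G y₀)) - 1) * D.f₁ (vm D.d₂ v) := by
    rw [sub_mul, one_mul]
  rw [h2]
  refine D.mJ_mem ?_ (D.f₁_d₂ v)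
  rw [mem_augF_one, map_sub, map_one, aug_sec, aug_of, sub_self]

/-- The function attached to `φ`. -/
noncomputable def uφ : Fin D.n₂ × Y → K :=
  fun p => φ (D.f₁ (vm D.d₂ (bv K p.1 (D.t p.2)⁻¹)))

include hφ in
theorem Phi_uφ : Phi K Y y₀ (D.uφ φ) = φ ∘ₗ D.f₁ ∘ₗ vm D.d₂ :=
  Phi_eq y₀ D.t D.ht (φ ∘ₗ D.f₁ ∘ₗ vm D.d₂) fun h hh v => D.phi_inv φ hφ h hh v

include hφ in
theorem uφ_ker : (Lam K Y D.d₃).mulVec (D.uφ φ) = 0 := by
  rw [mem_ker_Lam D.d₃ y₀ D.htr, D.Phi_uφ φ hφ]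
  intro v
  show φ (D.f₁ (vm D.d₂ (vm D.d₃ v))) = 0
  have : vm D.d₂ (vm D.d₃ v) = 0 := by
    have : vm D.d₃ v ∈ LinearMap.ker (vm D.d₂) := by rw [← D.r₃]; exact ⟨_, rfl⟩
    exact this
  rw [this, map_zero, map_zero]

include hφ in
/-- **The key injectivity.** -/
theorem key (w : Fin D.n₁ × Y → K) (hw : (Lam K Y D.d₂).mulVec w = D.uφ φ) :
    ∀ j ∈ D.J, φ j = 0 := by
  by_contra hcon
  push Not at hcon
  obtain ⟨r₁, hr₁, hφr₁⟩ := hcon
  -- normalise
  obtain ⟨r, hr, hφr⟩ : ∃ r ∈ D.J, φ r = 1 :=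
    ⟨(φ r₁)⁻¹ • r₁, Submodule.smul_mem _ _ hr₁, by
      rw [map_smul, smul_eq_mul, inv_mul_cancel₀ hφr₁]⟩
  obtain ⟨e, he⟩ : ∃ e, D.ε e = 1 := by
    obtain ⟨v, hv⟩ := DFunLike.ne_iff.1 D.hε0
    rw [LinearMap.zero_apply] at hv
    exact ⟨(D.ε v)⁻¹ • v, by rw [map_smul, smul_eq_mul, inv_mul_cancel₀ hv]⟩
  -- the corrected lift
  let F : (Fin D.n₁ → MonoidAlgebra K G) →ₗ[K] MonoidAlgebra K (FreeGroup (Fin D.d)) :=
    D.f₁ - LinearMap.smulRight (Phi K Y y₀ w) r
  have hF : ∀ v, F v = D.f₁ v - Phi K Y y₀ w v • r := fun v => rfl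
  have hFm : ∀ v, F v ∈ augF K (FreeGroup (Fin D.d)) 1 := fun v =>
    sub_mem (D.f₁_mem v) (Submodule.smul_mem _ _ (D.J_le_one hr))
  have hFθ : ∀ v, D.θ (F v) - D.f₀ (vm D.d₁ v) ∈ augF K (MulAction.stabilizer G y₀) D.n := by
    intro v
    rw [hF, map_sub, map_smul, sub_right_comm]
    exact sub_mem (D.θ_f₁ v) (Submodule.smul_mem _ _ hr)
  have hFlm : ∀ (y : MonoidAlgebra K (MulAction.stabilizer G y₀)) v,
      F (lm D.n₁ (inc K _ y) v) - D.sec y * F v ∈ D.W := by
    intro y v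
    have h1 : Phi K Y y₀ w (lm D.n₁ (inc K _ y) v) = aug K _ y * Phi K Y y₀ w v := by
      induction y using MonoidAlgebra.induction_on with
      | of g => rw [of_apply, inc_single, lm_of, Phi_lt _ _ g.2, ← of_apply, aug_of, one_mul]
      | add x y hx hy => rw [map_add, lm_add, map_add, hx, hy, map_add, add_mul]
      | smul c x hx =>
        rw [map_smul, lm_smul, map_smul, hx, map_smul, smul_eq_mul, smul_eq_mul, mul_assoc]
    rw [hF, hF, h1, mul_sub]
    have h2 : D.f₁ (lm D.n₁ (inc K _ y) v) - (aug K _ y * Phi K Y y₀ w v) • r -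
        (D.sec y * D.f₁ v - D.sec y * Phi K Y y₀ w v • r) =
        (D.f₁ (lm D.n₁ (inc K _ y) v) - D.sec y * D.f₁ v) +
          Phi K Y y₀ w v • ((D.sec y - algebraMap K _ (aug K _ y)) * r) := by
      rw [sub_mul, smul_sub, mul_smul_comm, ← Algebra.smul_def, smul_smul,
        mul_comm (aug K _ y)]
      abel
    rw [h2]
    refine add_mem (D.f₁_lm y v) (Submodule.smul_mem _ _ (D.mJ_mem ?_ hr))
    rw [mem_augF_one, map_sub, aug_sec, AlgHom.commutes, Algebra.algebraMap_self_apply, sub_self]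
  have hFker : ∀ v v', vm D.d₁ v = vm D.d₁ v' → φ (F v) = φ (F v') := by
    intro v v' h
    have h1 : v - v' ∈ LinearMap.range (vm D.d₂) := by
      rw [D.r₂, LinearMap.mem_ker, map_sub, h, sub_self]
    obtain ⟨x, hx⟩ := h1
    rw [← sub_eq_zero, ← map_sub, ← map_sub, ← hx, hF, map_sub, map_smul, hφr, smul_eq_mul,
      mul_one, Phi_vm, hw, D.Phi_uφ φ hφ]
    exact sub_self _
  -- vectors over the ideal
  have hlift : ∀ y : MonoidAlgebra K (MulAction.stabilizer G y₀), aug K _ y = 0 →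
      ∃ v, vm D.d₁ v = lm D.n₀ (inc K _ y) e := by
    intro y hy
    have : lm D.n₀ (inc K _ y) e ∈ LinearMap.range (vm D.d₁) := by
      rw [D.r₁, LinearMap.mem_ker, ← aug_f₀, f₀_lm, map_mul, hy, zero_mul]
    exact this
  -- an inverse of `u`
  set u := D.f₀ e with hu
  have haugu : aug K _ u = 1 := by rw [hu, aug_f₀, he]
  obtain ⟨u', hu', hu''⟩ : ∃ u', u' * u - 1 ∈ augF K (MulAction.stabilizer G y₀) D.n ∧
      u * u' - 1 ∈ augF K (MulAction.stabilizer G y₀) D.n := by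
    have hw1 : 1 - u ∈ augF K (MulAction.stabilizer G y₀) 1 := by
      rw [mem_augF_one, map_sub, map_one, haugu, sub_self]
    have hpow : ∀ k, (1 - u) ^ k ∈ augF K (MulAction.stabilizer G y₀) k := by
      intro k
      induction k with
      | zero => rw [augF_zero]; trivial
      | succ k ih => rw [pow_succ]; exact augF_mul ih hw1
    refine ⟨∑ k ∈ Finset.range D.n, (1 - u) ^ k, ?_, ?_⟩
    · have h1 := geom_sum_mul_neg (1 - u) D.n
      rw [sub_sub_cancel] at h1
      rw [h1, sub_sub_cancel_left]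
      exact neg_mem (hpow _)
    · have h1 := mul_neg_geom_sum (1 - u) D.n
      rw [sub_sub_cancel] at h1
      rw [h1, sub_sub_cancel_left]
      exact neg_mem (hpow _)
  -- claim 1
  have claim1 : ∀ a ∈ augI K (FreeGroup (Fin D.d)) ^ 2, ∃ (z : MonoidAlgebra K (MulAction.stabilizer G y₀)) (v : Fin D.n₁ → MonoidAlgebra K G),
      vm D.d₁ v = lm D.n₀ (inc K _ z) e ∧
      a - F v ∈ D.W := by
    intro a ha
    rw [show (2 : ℕ) = 1 + 1 from rfl, Submodule.pow_succ, Submodule.pow_one] at ha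
    refine Submodule.mul_induction_on (C := fun a => ∃ (z : MonoidAlgebra K (MulAction.stabilizer G y₀)) (v : Fin D.n₁ → MonoidAlgebra K G),
      vm D.d₁ v = lm D.n₀ (inc K _ z) e ∧
      a - F v ∈ D.W) ha (fun m hm a ha => ?_) fun a b ha hb => ?_
    · -- write `a = F v + c r + n`
      have hθa : aug K _ (D.θ a * u') = 0 := by
        rw [map_mul, aug_θ, mem_augI.1 ha, zero_mul]
      obtain ⟨v, hv⟩ := hlift _ hθa
      have h1 : a - F v ∈ D.J := by
        rw [mem_J, map_sub]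
        have h2 := hFθ v
        rw [hv, f₀_lm, ← hu] at h2
        have h3 := augF_mul_left (D.θ a) hu'
        have h4 := neg_mem (add_mem h2 h3)
        convert h4 using 1
        rw [mul_sub, mul_one, mul_assoc]
        abel
      refine ⟨D.θ m * (D.θ a * u'), lm D.n₁ (inc K _ (D.θ m)) v, ?_, ?_⟩
      · rw [vm_lm, hv, map_mul (inc K _) (D.θ m), lm_mul]
      · have h2 := D.mJ_mem (show m ∈ augF K _ 1 by rw [mem_augF_one]; exact mem_augI.1 hm) h1
        have h3 := D.Jm_mem (D.sec_θ m) (hFm v)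
        have h4 := hFlm (D.θ m) v
        have h5 := sub_mem (add_mem h2 h3) h4
        convert h5 using 1
        rw [mul_sub, sub_mul]
        abel
    · obtain ⟨z, v, hz, hv⟩ := ha
      obtain ⟨z', v', hz', hv'⟩ := hb
      refine ⟨z + z', v + v', ?_, ?_⟩
      · rw [map_add, map_add, lm_add, hz, hz']
      · rw [map_add, add_sub_add_comm]
        exact add_mem hv hv'
  -- claim 2
  have claim2 : ∀ z ∈ augI K (MulAction.stabilizer G y₀) ^ D.n,
      ∃ v, vm D.d₁ v = lm D.n₀ (inc K _ z) e ∧ F v ∈ D.W := by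
    intro z hz
    have hn : D.n = (D.n - 1) + 1 := by have := D.hn; omega
    rw [hn, Submodule.pow_succ] at hz
    refine Submodule.mul_induction_on (C := fun z => ∃ v, vm D.d₁ v = lm D.n₀ (inc K _ z) e ∧
      F v ∈ D.W) hz (fun a ha b hb => ?_) fun a b ha hb => ?_
    · obtain ⟨v, hv⟩ := hlift b (mem_augI.1 hb)
      refine ⟨lm D.n₁ (inc K _ a) v, ?_, ?_⟩
      · rw [vm_lm, hv, map_mul (inc K _) a, lm_mul]
      · obtain ⟨m, hm, hma⟩ := D.gen' (D.n - 1) 1 a ha
        rw [← hn] at hma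
        have h1 : D.sec a - m ∈ D.J := by
          rw [mem_J, map_sub]
          have h2 := sub_mem hma (D.sec_spec a)
          convert h2 using 1
          abel
        have h2 := D.Jm_mem h1 (hFm v)
        have h3 : m * F v ∈ D.W := by
          refine D.pow_le_W ?_
          rw [hn]
          exact augF_mul hm (hFm v)
        have h4 := add_mem (add_mem (hFlm a v) h2) h3
        convert h4 using 1
        rw [sub_mul]
        abel
    · obtain ⟨v, hv, hv'⟩ := ha
      obtain ⟨w, hw, hw'⟩ := hb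
      refine ⟨v + w, ?_, ?_⟩
      · rw [map_add, map_add, lm_add, hv, hw]
      · rw [map_add]
        exact add_mem hv' hw'
  -- conclusion
  obtain ⟨z, v, hz, hv⟩ := claim1 r (D.J_le_two hr)
  have hzn : z ∈ augF K (MulAction.stabilizer G y₀) D.n := by
    have h1 := hFθ v
    rw [hz, f₀_lm, ← hu] at h1
    have h2 : D.θ (r - F v) ∈ augF K (MulAction.stabilizer G y₀) D.n := D.W_le_J hv
    rw [map_sub] at h2
    have h3 : z * u ∈ augF K (MulAction.stabilizer G y₀) D.n := by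
      have h4 := sub_mem (sub_mem (show D.θ r ∈ _ from hr) h2) h1
      convert h4 using 1
      abel
    have h5 := sub_mem (augF_mul_right u' h3) (augF_mul_left z hu'')
    convert h5 using 1
    rw [mul_sub, mul_one, mul_assoc]
    abel
  obtain ⟨v', hv', hv'W⟩ := claim2 z hzn
  have h1 := hφ _ hv
  rw [map_sub, hφr, hFker v v' (hz.trans hv'.symm), hφ _ hv'W, sub_zero] at h1
  exact one_ne_zero h1

end main

/-! ### Counting -/

instance finite_A_W : FiniteDimensional K (MonoidAlgebra K (FreeGroup (Fin D.d)) ⧸ D.W) := by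
  have : FiniteDimensional K (MonoidAlgebra K (FreeGroup (Fin D.d)) ⧸
      augF K (FreeGroup (Fin D.d)) D.n) := (foxFil K (Fin D.d)).finite_quot_I D.n
  refine Module.Finite.of_surjective (mapQ (augF K (FreeGroup (Fin D.d)) D.n) D.W LinearMap.id
    (by rw [comap_id]; exact D.pow_le_W)) fun y => ?_
  obtain ⟨r, rfl⟩ := D.W.mkQ_surjective y
  exact ⟨(augF K (FreeGroup (Fin D.d)) D.n).mkQ r, rfl⟩

/-- The relations modulo decomposables. -/
noncomputable def Jq : Submodule K (MonoidAlgebra K (FreeGroup (Fin D.d)) ⧸ D.W) :=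
  D.J.map D.W.mkQ

theorem range_le_ker : LinearMap.range (Lam K Y D.d₂).mulVecLin ≤
    LinearMap.ker (Lam K Y D.d₃).mulVecLin := by
  rintro _ ⟨w, rfl⟩
  rw [LinearMap.mem_ker, Matrix.mulVecLin_apply, Matrix.mulVecLin_apply,
    mem_ker_Lam D.d₃ y₀ D.htr]
  intro v
  have : vm D.d₂ (vm D.d₃ v) = 0 := by
    have : vm D.d₃ v ∈ LinearMap.ker (vm D.d₂) := by rw [← D.r₃]; exact ⟨_, rfl⟩
    exact this
  rw [← Phi_vm, this, map_zero]

theorem count : Module.finrank K D.Jq + (Lam K Y D.d₂).rank + (Lam K Y D.d₃).rank ≤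
    D.n₂ * Fintype.card Y := by
  classical
  obtain ⟨g, hg⟩ := LinearMap.exists_leftInverse_of_injective D.Jq.subtype (by
    rw [Submodule.ker_subtype])
  let φ : Module.Dual K D.Jq →ₗ[K] (MonoidAlgebra K (FreeGroup (Fin D.d)) →ₗ[K] K) :=
    (LinearMap.lcomp K K (g ∘ₗ D.W.mkQ))
  have hφ : ∀ (f : Module.Dual K D.Jq) a, φ f a = f (g (D.W.mkQ a)) := fun _ _ => rfl
  have hφW : ∀ f, ∀ a ∈ D.W, φ f a = 0 := by
    intro f a ha
    have : D.W.mkQ a = 0 := by
      rw [Submodule.mkQ_apply, Submodule.Quotient.mk_eq_zero]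
      exact ha
    rw [hφ, this, map_zero, map_zero]
  let C : Module.Dual K D.Jq →ₗ[K] (Fin D.n₂ × Y → K) :=
    { toFun := fun f => D.uφ (φ f)
      map_add' := fun f f' => by
        funext p
        rw [Pi.add_apply, uφ, uφ, uφ, map_add, LinearMap.add_apply]
      map_smul' := fun c f => by
        funext p
        rw [Pi.smul_apply, uφ, uφ, map_smul, LinearMap.smul_apply, RingHom.id_apply] }
  have hC : ∀ f, C f = D.uφ (φ f) := fun _ => rfl
  have hker : LinearMap.range C ≤ LinearMap.ker (Lam K Y D.d₃).mulVecLin := by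
    rintro _ ⟨f, rfl⟩
    rw [LinearMap.mem_ker, Matrix.mulVecLin_apply, hC]
    exact D.uφ_ker (φ f) (hφW f)
  have hzero : ∀ f, C f ∈ LinearMap.range (Lam K Y D.d₂).mulVecLin → f = 0 := by
    rintro f ⟨w, hw⟩
    rw [Matrix.mulVecLin_apply, hC] at hw
    have h1 := D.key (φ f) (hφW f) w hw
    refine LinearMap.ext fun b => ?_
    obtain ⟨b, hb⟩ := b
    obtain ⟨j, hj, rfl⟩ := hb
    have h2 := h1 j hj
    rw [hφ] at h2
    have h3 : g (D.W.mkQ j) = ⟨D.W.mkQ j, ⟨j, hj, rfl⟩⟩ :=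
      LinearMap.congr_fun hg ⟨D.W.mkQ j, ⟨j, hj, rfl⟩⟩
    rw [h3] at h2
    exact h2
  have hinj : Function.Injective C := by
    rw [injective_iff_map_eq_zero]
    intro f hf
    refine hzero f ?_
    rw [hf]
    exact zero_mem _
  have hinf : LinearMap.range C ⊓ LinearMap.range (Lam K Y D.d₂).mulVecLin = ⊥ := by
    rw [eq_bot_iff]
    rintro _ ⟨⟨f, rfl⟩, h⟩
    rw [Submodule.mem_bot, hzero f h, map_zero]
  have h1 := Submodule.finrank_sup_add_finrank_inf_eq (LinearMap.range C)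
    (LinearMap.range (Lam K Y D.d₂).mulVecLin)
  rw [hinf, finrank_bot, add_zero, LinearMap.finrank_range_of_inj hinj,
    Subspace.dual_finrank_eq] at h1
  have h2 := Submodule.finrank_mono (sup_le hker D.range_le_ker)
  have h3 := LinearMap.finrank_range_add_finrank_ker (Lam K Y D.d₃).mulVecLin
  rw [Module.finrank_fintype_fun_eq_card, Fintype.card_prod, Fintype.card_fin] at h3
  have h4 : Module.finrank K (LinearMap.range (Lam K Y D.d₂).mulVecLin) = (Lam K Y D.d₂).rank := rfl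
  have h5 : Module.finrank K (LinearMap.range (Lam K Y D.d₃).mulVecLin) = (Lam K Y D.d₃).rank := rfl
  omega

/-- **The relator bound.** -/
theorem relators : ∃ (r : ℕ) (ρ : Fin r → MonoidAlgebra K (FreeGroup (Fin D.d))),
    r + (Lam K Y D.d₂).rank + (Lam K Y D.d₃).rank ≤ D.n₂ * Fintype.card Y ∧
    (∀ j, ρ j ∈ D.J) ∧ D.J ≤ FoxFil.J K ρ ⊔ augF K _ D.n := by
  classical
  let b := Module.finBasis K D.Jq
  have hb : ∀ j, ∃ a ∈ D.J, D.W.mkQ a = b j := fun j => (b j).2
  choose ρ hρ hρb using hb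
  refine ⟨Module.finrank K D.Jq, ρ, D.count, hρ, ?_⟩
  set U := FoxFil.J K ρ ⊔ augF K (FreeGroup (Fin D.d)) D.n with hU
  have hUl : ∀ (a : MonoidAlgebra K (FreeGroup (Fin D.d))) {x}, x ∈ U → a * x ∈ U := by
    intro a x hx
    obtain ⟨y, hy, z, hz, rfl⟩ := mem_sup.1 hx
    rw [mul_add]
    exact add_mem (mem_sup_left (FoxFil.J_mul_left a hy)) (mem_sup_right (augF_mul_left a hz))
  have hUr : ∀ (a : MonoidAlgebra K (FreeGroup (Fin D.d))) {x}, x ∈ U → x * a ∈ U := by
    intro a x hx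
    obtain ⟨y, hy, z, hz, rfl⟩ := mem_sup.1 hx
    rw [add_mul]
    exact add_mem (mem_sup_left (FoxFil.J_mul_right a hy)) (mem_sup_right (augF_mul_right a hz))
  -- first step
  have h1 : D.J ≤ U ⊔ D.W := by
    intro j hj
    have h2 : D.W.mkQ j ∈ Submodule.span K (Set.range fun i => D.W.mkQ (ρ i)) := by
      have h3 : (⟨D.W.mkQ j, ⟨j, hj, rfl⟩⟩ : D.Jq) ∈ Submodule.span K (Set.range b) := by
        rw [b.span_eq]; trivial
      have h4 := Submodule.mem_map_of_mem (f := D.Jq.subtype) h3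
      rw [Submodule.map_span, ← Set.range_comp] at h4
      have h5 : (D.Jq.subtype ∘ b) = fun i => D.W.mkQ (ρ i) := by
        funext i
        rw [hρb]
        rfl
      rw [h5] at h4
      exact h4
    have h3 : (Set.range fun i => D.W.mkQ (ρ i)) = D.W.mkQ '' (Set.range ρ) := by
      rw [← Set.range_comp]; rfl
    rw [h3, ← Submodule.map_span] at h2
    obtain ⟨a, ha, haj⟩ := h2
    have h4 : j - a ∈ D.W := by
      rw [← Submodule.Quotient.mk_eq_zero, ← Submodule.mkQ_apply, map_sub, haj, sub_self]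
    have h5 : a ∈ U := by
      refine mem_sup_left ?_
      refine (Submodule.span_le.2 ?_) ha
      rintro _ ⟨i, rfl⟩
      exact FoxFil.gen_mem i
    rw [← add_sub_cancel a j]
    exact mem_sup.2 ⟨a, h5, j - a, h4, rfl⟩
  have h2 : ∀ k, 1 ≤ k → D.J ≤ U ⊔ augF K (FreeGroup (Fin D.d)) k := by
    intro k hk
    induction k, hk using Nat.le_induction with
    | base => exact D.J_le_one.trans le_sup_right
    | succ k hk ih =>
      refine h1.trans (sup_le le_sup_left ?_)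
      refine sup_le (sup_le ?_ ?_) (le_sup_right.trans le_sup_left)
      · refine Submodule.mul_le.2 fun a ha c hc => ?_
        obtain ⟨y, hy, z, hz, rfl⟩ := mem_sup.1 (ih hc)
        rw [mul_add]
        refine add_mem (mem_sup_left (hUl a hy)) (mem_sup_right ?_)
        rw [add_comm k 1]
        exact augF_mul ha hz
      · refine Submodule.mul_le.2 fun c hc a ha => ?_
        obtain ⟨y, hy, z, hz, rfl⟩ := mem_sup.1 (ih hc)
        rw [add_mul]
        exact add_mem (mem_sup_left (hUr a hy)) (mem_sup_right (augF_mul hz ha))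
  have h3 := h2 D.n (le_trans (by norm_num) D.hn)
  refine h3.trans (sup_le le_rfl ?_)
  exact le_sup_right

end RData

end

end Vale.Agent.P260.H145
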