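import Mathlib
import Vale.Agent.P260.H145.R
import Vale.Agent.P260.H145.C1
import Vale.Agent.P260.H145.C3
import Vale.Agent.P260.H145.FGI
import Vale.Agent.P260.H573.FolSub

/-!
# P260: amenable Poincare duality groups of dimension 4 have bounded first homology
-/

set_option linter.unusedSectionVars false

namespace Vale.Agent.P260.H145

open Finset Submodule MonoidAlgebra Vale.Agent.P300.GS
open scoped commutatorElement

/-- The relations of a finite quotient in block C2. -/
structure C2Rel (q l : ℕ) {Q : Type} [Group Q] (y : Fin 16 × Fin l → Q) : Prop where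
  pow : ∀ p, y p ^ q = 1
  comm : ∀ a i j, Commute (y (a, i)) (y (a, j))
  triple : ∀ a b i j k, a ≠ b → Commute ⁅y (a, i), y (b, j)⁆ (y (a, k))
  code : ∀ a b, a ≠ b →
    ∀ ψ : Subgroup.closure (Set.range fun p : Fin l × Fin l => ⁅y (a, p.1), y (b, p.2)⁆) →*
      Multiplicative (ZMod q), ψ ≠ 1 →
      Nat.card {v : Fin l → ZMod q // ∀ j, ∑ i, v i * Multiplicative.toAdd
        (ψ ⟨⁅y (a, i), y (b, j)⁆, Subgroup.subset_closure ⟨(i, j), rfl⟩⟩) = 0} * q ^ 8 ≤ q ^ l

/-- The statement of block C2. -/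
def C2Statement : Prop := ∀ (q : ℕ) [Fact q.Prime] (l : ℕ) (Γ : Type) [Group Γ]
  (x : Fin 16 × Fin l → Γ), Folner Γ → Subgroup.closure (Set.range x) = ⊤ →
  (∀ B : ℕ, ∃ (Q : Type) (_ : Group Q) (_ : Finite Q) (φ : Γ →* Q), Function.Surjective φ ∧
    B ≤ Nat.card Q ∧ C2Rel q l (fun p => φ (x p))) → False

/-- The relators imply the relations. -/
theorem rel_of_rw (q : ℕ) [Fact q.Prime] (l : ℕ) {Q : Type} [Group Q] (y : Fin 16 × Fin l → Q)
    (L : Matrix (Fin l) (Fin l) (ZMod q) →ₗ[ZMod q] (Fin (15 * l) → ZMod q))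
    (hL : ∀ B, L B = 0 → B ≠ 0 →
      Nat.card {y : Fin l → ZMod q // Matrix.vecMul y B = 0} * q ^ 8 ≤ q ^ l)
    (h : ∀ k : RI l, rw' y (fun k p => (L (Matrix.single p.1 p.2 1) k).val) q k = 1) :
    C2Rel q l y where
  pow := fun p => h (Sum.inr (Sum.inl p))
  comm := fun a i j => by
    have h1 := h (Sum.inl (a, i, j))
    exact commutatorElement_eq_one_iff_commute.1 h1
  triple := fun a b i j k hab => by
    have h1 := h (Sum.inr (Sum.inr (Sum.inr (a, b, i, j, k))))
    have h2 : rw' y (fun k p => (L (Matrix.single p.1 p.2 1) k).val) q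
        (Sum.inr (Sum.inr (Sum.inr (a, b, i, j, k)))) = if a = b then 1 else
          ⁅⁅y (a, i), y (b, j)⁆, y (a, k)⁆ := rfl
    rw [h2, if_neg hab] at h1
    exact commutatorElement_eq_one_iff_commute.1 h1
  code := fun a b hab ψ hψ => by
    classical
    set B : Matrix (Fin l) (Fin l) (ZMod q) := Matrix.of fun i j => Multiplicative.toAdd
        (ψ ⟨⁅y (a, i), y (b, j)⁆, Subgroup.subset_closure ⟨(i, j), rfl⟩⟩) with hB
    have hB0 : B ≠ 0 := by
      intro h0
      refine hψ ?_
      refine MonoidHom.eq_of_eqOn_top ?_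
      intro z _
      obtain ⟨z, hz⟩ := z
      refine Subgroup.closure_induction (p := fun z hz => ψ ⟨z, hz⟩ = 1) ?_ ?_ ?_ ?_ hz
      · rintro _ ⟨p, rfl⟩
        have h1 := congrFun (congrFun h0 p.1) p.2
        exact h1
      · exact map_one ψ
      · intro u v hu hv hu1 hv1
        have : (⟨u * v, mul_mem hu hv⟩ : Subgroup.closure (Set.range fun p : Fin l × Fin l =>
          ⁅y (a, p.1), y (b, p.2)⁆)) = ⟨u, hu⟩ * ⟨v, hv⟩ := rfl
        rw [this, map_mul, hu1, hv1, mul_one]
      · intro u hu hu1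
        have : (⟨u⁻¹, inv_mem hu⟩ : Subgroup.closure (Set.range fun p : Fin l × Fin l =>
          ⁅y (a, p.1), y (b, p.2)⁆)) = ⟨u, hu⟩⁻¹ := rfl
        rw [this, map_inv, hu1, inv_one]
    have hLB : L B = 0 := by
      funext k
      have h1 := h (Sum.inr (Sum.inr (Sum.inl (a, b, k))))
      have h2 : rw' y (fun k p => (L (Matrix.single p.1 p.2 1) k).val) q
          (Sum.inr (Sum.inr (Sum.inl (a, b, k)))) = if a = b then 1 else
            codeWord y (fun k p => (L (Matrix.single p.1 p.2 1) k).val) a b k := rfl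
      rw [h2, if_neg hab] at h1
      -- apply ψ
      let Z := Subgroup.closure (Set.range fun p : Fin l × Fin l => ⁅y (a, p.1), y (b, p.2)⁆)
      let g : Fin l × Fin l → Z := fun p =>
        ⟨⁅y (a, p.1), y (b, p.2)⁆, Subgroup.subset_closure ⟨p, rfl⟩⟩
      have h3 : ((Finset.univ : Finset (Fin l × Fin l)).toList.map fun p =>
          g p ^ (L (Matrix.single p.1 p.2 1) k).val).prod = (1 : Z) := by
        apply Subtype.ext
        rw [← Subgroup.coe_subtype, map_list_prod, List.map_map, Subgroup.coe_subtype,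
          Subgroup.coe_one, ← h1, codeWord]
        rfl
      have h4 := congrArg ψ h3
      rw [map_one, map_list_prod, List.map_map, Finset.prod_map_toList] at h4
      have h5 := congrArg Multiplicative.toAdd h4
      rw [toAdd_one, toAdd_prod] at h5
      have h6 : B = ∑ p : Fin l × Fin l, B p.1 p.2 • Matrix.single p.1 p.2 (1 : ZMod q) := by
        rw [Fintype.sum_prod_type]
        conv_lhs => rw [Matrix.matrix_eq_sum_single B]
        refine Finset.sum_congr rfl fun i _ => Finset.sum_congr rfl fun j _ => ?_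
        rw [Matrix.smul_single, smul_eq_mul, mul_one]
      rw [h6, map_sum, Finset.sum_apply, Pi.zero_apply, ← h5]
      refine Finset.sum_congr rfl fun p _ => ?_
      rw [map_smul, Pi.smul_apply, smul_eq_mul, Function.comp_apply, map_pow, toAdd_pow,
        nsmul_eq_mul, ZMod.natCast_zmod_val, mul_comm]
      rfl
    have h1 := hL B hLB hB0
    have h2 : {v : Fin l → ZMod q // ∀ j, ∑ i, v i * Multiplicative.toAdd
        (ψ ⟨⁅y (a, i), y (b, j)⁆, Subgroup.subset_closure ⟨(i, j), rfl⟩⟩) = 0} =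
        {y : Fin l → ZMod q // Matrix.vecMul y B = 0} := by
      congr 1
      funext v
      rw [funext_iff]
      rfl
    rw [h2]
    exact h1

/-- Homomorphisms from a finitely generated group to a field form a finite-dimensional space. -/
theorem finiteDimensional_hom (K : Type) [Field K] (H : Type) [Group H] (hH : Group.FG H) :
    FiniteDimensional K (Additive H →+ K) := by
  classical
  obtain ⟨⟨T, hT⟩⟩ := hH
  let f : (Additive H →+ K) →ₗ[K] (T → K) :=
    { toFun := fun χ t => χ (Additive.ofMul (t : H))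
      map_add' := fun _ _ => rfl
      map_smul' := fun _ _ => rfl }
  refine FiniteDimensional.of_injective f ?_
  intro χ χ' h
  have h1 : AddMonoidHom.toMultiplicativeRight χ = AddMonoidHom.toMultiplicativeRight χ' := by
    refine MonoidHom.eq_of_eqOn_dense hT ?_
    intro t ht
    exact congrFun h ⟨t, ht⟩
  exact AddMonoidHom.toMultiplicativeRight.injective h1

/-- Følner condition for a subgroup. -/
theorem folner_sub {G : Type} [Group G] (hG : Folner G) (H : Subgroup G) : Folner H :=
  F.Folner.subgroup hG H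

/-- The relator data of a finite-index subgroup. -/
noncomputable def PD4.rdata {K : Type} [Field K] {G : Type} [Group G] (P : PD4 K G)
    {Y : Type} [Fintype Y] [DecidableEq Y] [MulAction G Y] (y₀ : Y)
    (htr : ∀ y : Y, ∃ g : G, g • y₀ = y) {d : ℕ} (x : Fin d → MulAction.stabilizer G y₀)
    (h1 : ∀ χ : Additive (MulAction.stabilizer G y₀) →+ K,
      (∀ i, χ (Additive.ofMul (x i)) = 0) → χ = 0)
    (h2 : ∀ i, ∃ χ : Additive (MulAction.stabilizer G y₀) →+ K,
      ∀ j, χ (Additive.ofMul (x j)) = if j = i then 1 else 0)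
    (n : ℕ) (hn : 2 ≤ n) : RData K (G := G) y₀ where
  n₀ := P.n₀
  n₁ := P.n₁
  n₂ := P.n₂
  n₃ := P.n₃
  ε := P.eps
  d₁ := P.d₁
  d₂ := P.d₂
  d₃ := P.d₃
  hε0 := P.eps_ne
  hε := fun h _ v => P.eps_lt h v
  r₁ := P.range_d₁
  r₂ := P.range_d₂
  r₃ := P.range_d₃
  t := fun y => (htr y).choose
  ht := fun y => (htr y).choose_spec
  d := d
  x := x
  n := n
  hn := hn
  hmin := min_of_sep x h2
  hgen := gen_of_sep x h1

theorem contra_of_C2 (hC2 : C2Statement) (q : ℕ) [Fact q.Prime] (G : Type) [Group G]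
    (P : PD4 (ZMod q) G) (hG : Folner G) (Y : Type) [Fintype Y] [DecidableEq Y] [MulAction G Y]
    (y₀ : Y) (htr : ∀ y : Y, ∃ g : G, g • y₀ = y)
    (hθ : ∀ h : G, h • y₀ = y₀ → ∀ v, P.theta (lt P.n₄ h v) = P.theta v)
    [FiniteDimensional (ZMod q) (Additive (MulAction.stabilizer G y₀) →+ ZMod q)] :
    Module.finrank (ZMod q) (Additive (MulAction.stabilizer G y₀) →+ ZMod q) < 4000 := by
  classical
  by_contra hcon
  push Not at hcon
  have := P.infinite
  obtain ⟨d, hd, x, hx1, hx2⟩ : ∃ d, d = Module.finrank (ZMod q)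
      (Additive (MulAction.stabilizer G y₀) →+ ZMod q) ∧ ∃ x : Fin d → MulAction.stabilizer G y₀,
      (∀ χ : Additive (MulAction.stabilizer G y₀) →+ ZMod q,
        (∀ i, χ (Additive.ofMul (x i)) = 0) → χ = 0) ∧
      ∀ i, ∃ χ : Additive (MulAction.stabilizer G y₀) →+ ZMod q,
        ∀ j, χ (Additive.ofMul (x j)) = if j = i then 1 else 0 :=
    ⟨_, rfl, exists_sep (K := ZMod q) (S := MulAction.stabilizer G y₀)⟩
  rw [← hd] at hcon
  set l := d / 16 with hl
  have hl1 : 250 ≤ l := by omega
  have hl2 : 16 * l ≤ d := by omega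
  have hl3 : d ≤ 16 * l + 15 := by omega
  let e : Fin 16 × Fin l → Fin d := fun p => Fin.castLE hl2 (finProdFinEquiv p)
  have he : Function.Injective e :=
    (Fin.castLE_injective hl2).comp finProdFinEquiv.injective
  obtain ⟨L, hL⟩ := blockC3 q l (by omega)
  have hrel : ∀ n, 2 ≤ n → ∃ (r : ℕ) (ρ : Fin r → MonoidAlgebra (ZMod q) (FreeGroup (Fin d))),
      r ≤ 32 * l + 30 ∧ (∀ j, ρ j ∈ augF (ZMod q) _ 2) ∧
      ∀ w : FreeGroup (Fin d), FreeGroup.lift x w = 1 →
        of (ZMod q) _ w - 1 ∈ FoxFil.J (ZMod q) ρ ⊔ augF (ZMod q) _ n := by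
    intro n hn
    let D := P.rdata y₀ htr x hx1 hx2 n hn
    obtain ⟨r, ρ, hr, hρ, hJ⟩ := D.relators
    refine ⟨r, ρ, ?_, fun j => D.J_le_two (hρ j), fun w hw => hJ ?_⟩
    · have h1 := P.b2_bound hG Y y₀ htr hθ
      have h2 : r + (Lam (ZMod q) Y P.d₂).rank + (Lam (ZMod q) Y P.d₃).rank ≤
        P.n₂ * Fintype.card Y := hr
      rw [← hd] at h1
      omega
    · exact D.of_mem_J w hw
  -- the group Γ
  let π : FreeGroup (Fin 16 × Fin l) →* MulAction.stabilizer G y₀ :=
    FreeGroup.lift fun p => x (e p)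
  let X : Fin 16 × Fin l → π.range := fun p => π.rangeRestrict (FreeGroup.of p)
  refine hC2 q l π.range X (folner_sub (folner_sub hG _) _) ?_ ?_
  · rw [eq_top_iff]
    intro g hg
    obtain ⟨w, rfl⟩ := π.rangeRestrict_surjective g
    clear hg
    induction w using FreeGroup.induction_on with
    | C1 => rw [map_one]; exact one_mem _
    | of p => exact Subgroup.subset_closure ⟨p, rfl⟩
    | inv_of p h => rw [map_inv]; exact inv_mem h
    | mul u v hu hv => rw [map_mul]; exact mul_mem hu hv
  · intro B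
    obtain ⟨N, hN, hNf, hNc, hNk, hNr⟩ := blockC1 q x hl1 e he
      (fun k p => (L (Matrix.single p.1 p.2 1) k).val) hrel B
    have hk : π.ker ≤ (QuotientGroup.mk' N).ker := fun w hw => by
      rw [QuotientGroup.ker_mk']
      exact hNk w hw
    let φ : π.range →* FreeGroup (Fin 16 × Fin l) ⧸ N :=
      (QuotientGroup.lift π.ker (QuotientGroup.mk' N) hk).comp
        (QuotientGroup.quotientKerEquivRange π).symm.toMonoidHom
    have hφ : ∀ w, φ (π.rangeRestrict w) = QuotientGroup.mk' N w := by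
      intro w
      show QuotientGroup.lift π.ker (QuotientGroup.mk' N) hk
        ((QuotientGroup.quotientKerEquivRange π).symm (π.rangeRestrict w)) = _
      have h1 : (QuotientGroup.quotientKerEquivRange π).symm (π.rangeRestrict w) =
          QuotientGroup.mk w := by
        rw [MulEquiv.symm_apply_eq]
        rfl
      rw [h1]
      rfl
    refine ⟨FreeGroup (Fin 16 × Fin l) ⧸ N, inferInstance, hNf, φ, ?_, hNc, ?_⟩
    · intro y
      obtain ⟨w, rfl⟩ := QuotientGroup.mk'_surjective N y
      exact ⟨π.rangeRestrict w, hφ w⟩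
    · refine rel_of_rw q l _ L hL fun k => ?_
      have h1 := rw_map (q := q) (fun k p => (L (Matrix.single p.1 p.2 1) k).val)
        (QuotientGroup.mk' N) FreeGroup.of k
      have h2 : (fun p => φ (X p)) = fun p => QuotientGroup.mk' N (FreeGroup.of p) := by
        funext p
        exact hφ _
      rw [h2, ← h1, QuotientGroup.mk'_apply, QuotientGroup.eq_one_iff]
      exact hNr k

/-- **Bounded first homology.** -/
theorem bound_of_C2 (hC2 : C2Statement) (q : ℕ) [Fact q.Prime] (G : Type) [Group G]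
    (P : PD4 (ZMod q) G) (hG : Folner G) :
    ∃ N : Subgroup G, N.Normal ∧ N.FiniteIndex ∧ ∀ H : Subgroup G, H.FiniteIndex → H ≤ N →
      Module.finrank (ZMod q) (Additive H →+ ZMod q) < 4000 := by
  classical
  obtain ⟨ω, hω⟩ := P.exists_omega
  refine ⟨ω.ker, inferInstance, ?_, ?_⟩
  · exact Subgroup.finiteIndex_ker ω
  · intro H hH hHN
    have := hH
    have : Fintype (G ⧸ H) := Subgroup.fintypeQuotientOfFiniteIndex
    have hst : MulAction.stabilizer G ((1 : G) : G ⧸ H) = H := MulAction.stabilizer_quotient H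
    have hGfg := P.fg
    have : Group.FG G := hGfg
    have : FiniteDimensional (ZMod q)
        (Additive (MulAction.stabilizer G ((1 : G) : G ⧸ H)) →+ ZMod q) := by
      rw [hst]
      refine finiteDimensional_hom _ _ ?_
      infer_instance
    have h1 := contra_of_C2 hC2 q G P hG (G ⧸ H) ((1 : G) : G ⧸ H) (fun y => by
      obtain ⟨g, rfl⟩ := QuotientGroup.mk_surjective y
      refine ⟨g, ?_⟩
      rw [MulAction.Quotient.smul_coe, smul_eq_mul, mul_one]) (fun h hh v => by
      have h2 : h ∈ H := by rw [← hst]; exact hh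
      have h3 : ω h = 1 := hHN h2
      rw [hω, h3, Units.val_one, one_mul])
    rw [hst] at h1
    exact h1

end Vale.Agent.P260.H145
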