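import Mathlib

/-!
# P260: residual finiteness and the finite residual
-/

namespace Vale.Agent.P260.H145

/-- `G` is residually finite. -/
def ResFin (G : Type*) [Group G] : Prop :=
  ∀ g : G, g ≠ 1 → ∃ N : Subgroup G, N.Normal ∧ N.FiniteIndex ∧ g ∉ N

/-- The finite residual: the intersection of the normal subgroups of finite index. -/
def finRes (G : Type*) [Group G] : Subgroup G :=
  sInf {N | N.Normal ∧ N.FiniteIndex}

instance finRes_normal (G : Type*) [Group G] : (finRes G).Normal := by
  constructor
  intro x hx g
  refine Subgroup.mem_sInf.2 fun K hK => ?_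
  exact hK.1.conj_mem x (Subgroup.mem_sInf.1 hx K hK) g

end Vale.Agent.P260.H145
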