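import Mathlib
import Vale.Agent.P260.Defs
import Vale.Agent.P260.H145.ResDef

/-!
# P260: definitions for the residually finite extension
-/

namespace Vale.Agent.P260.H145

/-- The intersection of the normal subgroups of `G` contained in `N` of `p`-power index in `N`. -/
def Rp (p : ℕ) {G : Type*} [Group G] (N : Subgroup G) : Subgroup G :=
  sInf {K | K.Normal ∧ K ≤ N ∧ ∃ a : ℕ, K.relIndex N = p ^ a}

instance Rp_normal (p : ℕ) {G : Type*} [Group G] (N : Subgroup G) : (Rp p N).Normal := by
  constructor
  intro x hx g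
  refine Subgroup.mem_sInf.2 fun K hK => ?_
  exact hK.1.conj_mem x (Subgroup.mem_sInf.1 hx K hK) g

/-- `L` has no pair of elements, independent in `L/[L,L]L^p`, of order `p` and central in every
finite `p`-quotient of `L`. -/
def NoPair (p : ℕ) (L : Type) [Group L] : Prop :=
  ∀ (x y : L) (α β : L →* Multiplicative (ZMod p)),
    α x = Multiplicative.ofAdd 1 → α y = 1 → β x = 1 → β y = Multiplicative.ofAdd 1 →
    (∀ (Q : Type) [Group Q] [Finite Q], IsPGroup p Q → ∀ s : L →* Q,
      s x ^ p = 1 ∧ s y ^ p = 1 ∧ ∀ g, s x * s g = s g * s x ∧ s y * s g = s g * s y) → False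

/-- What is used about the prime `p`: a normal subgroup of finite index containing the commutator
subgroup, such that the finite-index subgroups below it have bounded mod-`p` first Betti number
and satisfy `NoPair`. -/
structure PrimeData (p : ℕ) (G : Type) [Group G] (C : ℕ) where
  N₀ : Subgroup G
  normal : N₀.Normal
  fin : N₀.FiniteIndex
  comm : ⁅(⊤ : Subgroup G), (⊤ : Subgroup G)⁆ ≤ N₀
  bound : ∀ H : Subgroup G, H.FiniteIndex → H ≤ N₀ →
    ∀ (n : ℕ) (f : H →* Multiplicative (Fin n → ZMod p)), Function.Surjective f → n ≤ C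
  nopair : ∀ L : Subgroup G, L.FiniteIndex → L ≤ N₀ → NoPair p L

end Vale.Agent.P260.H145
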