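import Mathlib
import Vale.Agent.P260.H145.R
import Vale.Agent.P260.H145.Gen
import Vale.Agent.P260.H145.RFDefs

/-!
# P260: a pair of central elements of order `p` gives too many relations
-/

set_option linter.unusedSectionVars false

namespace Vale.Agent.P260.H145

open Finset Submodule MonoidAlgebra Vale.Agent.P300.GS
open scoped commutatorElement

section sep

variable {K : Type} [Field K] {S : Type} [Group S]

/-- Separating elements, extending a given independent pair. -/
theorem exists_sep_pair [FiniteDimensional K (Additive S →+ K)] (x y : S)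
    (α β : Additive S →+ K) (hαx : α (Additive.ofMul x) = 1) (hαy : α (Additive.ofMul y) = 0)
    (hβx : β (Additive.ofMul x) = 0) (hβy : β (Additive.ofMul y) = 1) :
    ∃ (z : Fin (Module.finrank K (Additive S →+ K)) → S) (i₀ i₁ : Fin _),
      i₀ ≠ i₁ ∧ z i₀ = x ∧ z i₁ = y ∧
      (∀ χ : Additive S →+ K, (∀ i, χ (Additive.ofMul (z i)) = 0) → χ = 0) ∧
      ∀ i, ∃ χ : Additive S →+ K, ∀ j, χ (Additive.ofMul (z j)) = if j = i then 1 else 0 := by
  classical
  let V := Additive S →+ K
  let ev : S → Module.Dual K V := fun s =>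
    { toFun := fun χ => χ (Additive.ofMul s)
      map_add' := fun _ _ => rfl
      map_smul' := fun _ _ => rfl }
  have hev : ∀ s χ, ev s χ = χ (Additive.ofMul s) := fun _ _ => rfl
  have hspan : Submodule.span K (Set.range ev) = ⊤ := by
    by_contra hne
    obtain ⟨f, hf0, hf⟩ := Submodule.exists_le_ker_of_lt_top _ (lt_top_iff_ne_top.2 hne)
    obtain ⟨χ, rfl⟩ := (Module.evalEquiv K V).surjective f
    refine hf0 ?_
    have hχ : χ = 0 := by
      refine AddMonoidHom.ext fun s => ?_
      have h1 := hf (Submodule.subset_span ⟨s.toMul, rfl⟩)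
      rw [LinearMap.mem_ker] at h1
      exact h1
    rw [hχ, map_zero]
  have hxy : x ≠ y := by
    rintro rfl
    rw [hαx] at hαy
    exact one_ne_zero hαy
  have hind : LinearIndepOn K ev {x, y} := by
    rw [linearIndepOn_pair_iff (K := K) ev hxy]
    · intro c hc
      have h1 := LinearMap.congr_fun hc β
      rw [LinearMap.smul_apply, hev, hev, hβx, hβy, smul_zero] at h1
      exact zero_ne_one h1
    · intro h0
      have h1 := LinearMap.congr_fun h0 α
      rw [hev, hαx] at h1
      exact one_ne_zero h1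
  obtain ⟨b, -, hsb, hbspan, hbind⟩ := exists_linearIndepOn_extension hind (Set.subset_univ _)
  have hbs : Submodule.span K (ev '' b) = ⊤ := by
    rw [eq_top_iff, ← hspan, Submodule.span_le, ← Set.image_univ]
    exact hbspan
  have hbfin : Finite b := hbind.linearIndependent.finite
  have : Fintype b := Fintype.ofFinite b
  have hcard : Fintype.card b = Module.finrank K V := by
    have hB := Module.Basis.mk (v := fun s : b => ev s) hbind (by
      rw [← Set.image_eq_range, hbs])
    have h1 := Module.finrank_eq_card_basis hB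
    rw [← h1, Subspace.dual_finrank_eq]
  let e : Fin (Module.finrank K V) ≃ b := (Fintype.equivFinOfCardEq hcard).symm
  have hx : x ∈ b := hsb (Set.mem_insert _ _)
  have hy : y ∈ b := hsb (Set.mem_insert_of_mem _ rfl)
  have h1 : ∀ χ : V, (∀ i, χ (Additive.ofMul (e i : S)) = 0) → χ = 0 := by
    intro χ hχ
    have h2 : ∀ φ : Module.Dual K V, φ χ = 0 := by
      intro φ
      have h3 : φ ∈ Submodule.span K (ev '' b) := by rw [hbs]; trivial
      have h4 : Submodule.span K (ev '' b) ≤ LinearMap.ker (Module.Dual.eval K V χ) := by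
        refine Submodule.span_le.2 ?_
        rintro _ ⟨s, hs, rfl⟩
        rw [SetLike.mem_coe, LinearMap.mem_ker, Module.Dual.eval_apply]
        have h5 := hχ (e.symm ⟨s, hs⟩)
        rw [Equiv.apply_symm_apply] at h5
        exact h5
      exact h4 h3
    exact (Module.forall_dual_apply_eq_zero_iff K χ).1 h2
  refine ⟨fun i => (e i : S), e.symm ⟨x, hx⟩, e.symm ⟨y, hy⟩, ?_, ?_, ?_, h1, ?_⟩
  · intro h
    exact hxy (congrArg Subtype.val (e.symm.injective h))
  · simp
  · simp
  · let T : V →ₗ[K] (Fin (Module.finrank K V) → K) :=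
      LinearMap.pi fun i => ev (e i : S)
    have hT : Function.Injective T := by
      rw [injective_iff_map_eq_zero]
      intro χ hχ
      exact h1 χ fun i => congrFun hχ i
    have hT' : Function.Surjective T :=
      (LinearMap.injective_iff_surjective_of_finrank_eq_finrank (by
        rw [Module.finrank_fintype_fun_eq_card, Fintype.card_fin])).1 hT
    intro i
    obtain ⟨χ, hχ⟩ := hT' fun j => if j = i then 1 else 0
    exact ⟨χ, fun j => congrFun hχ j⟩

end sep

section kap

variable {K : Type} [Field K] {d : ℕ}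

/-- The homomorphism dual to a generator. -/
noncomputable def dualHom (K : Type) [Field K] {d : ℕ} (i : Fin d) :
    Additive (FreeGroup (Fin d)) →+ K :=
  MonoidHom.toAdditiveLeft (FreeGroup.lift fun j => Multiplicative.ofAdd (if i = j then (1 : K) else 0))

theorem dualHom_of (i j : Fin d) :
    dualHom K i (Additive.ofMul (FreeGroup.of j)) = if i = j then 1 else 0 := by
  show (FreeGroup.lift (fun j => Multiplicative.ofAdd (if i = j then (1 : K) else 0))
    (FreeGroup.of j)).toAdd = _
  rw [FreeGroup.lift_apply_of]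
  rfl

theorem aug_foxD (i : Fin d) (g : FreeGroup (Fin d)) :
    aug K _ (foxD K i g) = dualHom K i (Additive.ofMul g) := by
  classical
  induction g using FreeGroup.induction_on with
  | C1 =>
    have h1 := foxD_mul (F := K) i (1 : FreeGroup (Fin d)) 1
    rw [mul_one, map_one, one_mul] at h1
    have h2 : foxD K i (1 : FreeGroup (Fin d)) = 0 := by simpa using h1
    rw [h2, map_zero, ofMul_one, map_zero]
  | of j => rw [foxD_of, dualHom_of]; split_ifs <;> simp
  | inv_of j h =>
    have h1 := foxD_mul (F := K) i (FreeGroup.of j) (FreeGroup.of j)⁻¹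
    have h2 := foxD_mul (F := K) i (1 : FreeGroup (Fin d)) 1
    rw [mul_one, map_one, one_mul] at h2
    have h3 : foxD K i (1 : FreeGroup (Fin d)) = 0 := by simpa using h2
    rw [mul_inv_cancel, h3] at h1
    have h4 := congrArg (aug K _) h1
    rw [map_zero, map_add, map_mul, aug_of, one_mul, h] at h4
    rw [ofMul_inv, map_neg]
    exact eq_neg_of_add_eq_zero_left h4.symm
  | mul g h hg hh =>
    rw [foxD_mul, map_add, map_mul, aug_of, one_mul, hg, hh, ofMul_mul, map_add, add_comm]

/-- The coefficient of `x_i x_j`. -/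
noncomputable def kap (K : Type) [Field K] {d : ℕ} (i j : Fin d) :
    MonoidAlgebra K (FreeGroup (Fin d)) →ₗ[K] K :=
  der (dualHom K i) ∘ₗ foxL K j

theorem kap_three (i j : Fin d) {a : MonoidAlgebra K (FreeGroup (Fin d))}
    (ha : a ∈ augF K _ 3) : kap K i j a = 0 := by
  classical
  obtain ⟨b, hb, rfl⟩ := augF_dec 2 ha
  show der (dualHom K i) (foxL K j _) = 0
  rw [map_sum, map_sum]
  refine Finset.sum_eq_zero fun l _ => ?_
  rw [foxL_mul_XX]
  split_ifs
  · exact der_two _ (hb l)
  · exact map_zero _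

theorem kap_mul (i j : Fin d) (g h : FreeGroup (Fin d)) :
    kap K i j (of K _ (g * h)) = kap K i j (of K _ g) + kap K i j (of K _ h) +
      dualHom K i (Additive.ofMul g) * dualHom K j (Additive.ofMul h) := by
  show der (dualHom K i) (foxL K j _) = der (dualHom K i) (foxL K j _) +
    der (dualHom K i) (foxL K j _) + _
  rw [foxL_of, foxL_of, foxL_of, foxD_mul, map_add, der_mul, der_of, aug_of, aug_foxD, one_mul]
  ring

theorem kap_one (i j : Fin d) : kap K i j (1 : MonoidAlgebra K (FreeGroup (Fin d))) = 0 := by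
  have h := kap_mul (K := K) i j (1 : FreeGroup (Fin d)) 1
  rw [mul_one, map_one, ofMul_one, map_zero, zero_mul, add_zero] at h
  simpa using h

theorem kap_of (i j l : Fin d) : kap K i j (of K _ (FreeGroup.of l)) = 0 := by
  classical
  show der (dualHom K i) (foxL K j _) = 0
  rw [foxL_of, foxD_of]
  split_ifs
  · exact der_one _
  · exact map_zero _

theorem kap_comm (i j : Fin d) (g h : FreeGroup (Fin d)) :
    kap K i j (of K _ ⁅g, h⁆ - 1) =
      dualHom K i (Additive.ofMul g) * dualHom K j (Additive.ofMul h) -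
      dualHom K i (Additive.ofMul h) * dualHom K j (Additive.ofMul g) := by
  have h1 := kap_mul (K := K) i j ⁅g, h⁆ (h * g)
  have h2 : ⁅g, h⁆ * (h * g) = g * h := by
    rw [commutatorElement_def]
    group
  have h3 : dualHom K i (Additive.ofMul ⁅g, h⁆) = 0 := by
    rw [commutatorElement_def, ofMul_mul, ofMul_mul, ofMul_mul, ofMul_inv, ofMul_inv, map_add,
      map_add, map_add, map_neg, map_neg]
    ring
  rw [h2, h3, zero_mul, add_zero, kap_mul, kap_mul] at h1
  rw [map_sub, kap_one, sub_zero]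
  linear_combination -h1

theorem kap_pow (p : ℕ) [CharP K p] (i j : Fin d) (hij : i ≠ j) (l : Fin d) :
    kap K i j (of K _ (FreeGroup.of l ^ p) - 1) = 0 := by
  classical
  have h1 : ∀ n : ℕ, kap K i j (of K _ (FreeGroup.of l ^ n)) = 0 := by
    intro n
    induction n with
    | zero => rw [pow_zero, map_one, kap_one]
    | succ n ih =>
      rw [pow_succ, kap_mul, ih, kap_of, ofMul_pow, map_nsmul, dualHom_of, dualHom_of]
      rcases eq_or_ne i l with rfl | h
      · rw [if_neg (Ne.symm hij), mul_zero, add_zero, add_zero]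
      · rw [if_neg h, smul_zero, zero_mul, add_zero, add_zero]
  rw [map_sub, kap_one, h1, sub_zero]

end kap

section psi

variable {K : Type} [Field K]

/-- Algebra maps and powers of the augmentation ideal. -/
theorem alg_augF {G : Type} [Group G] {A : Type} [CommRing A] [Algebra K A]
    (f : MonoidAlgebra K G →ₐ[K] A) (I : Ideal A) (h : ∀ g, f (of K G g) - 1 ∈ I) (n : ℕ) :
    ∀ a ∈ augF K G n, f a ∈ I ^ n := by
  have h1 : ∀ a, f a - algebraMap K A (aug K G a) ∈ I := by
    intro a
    induction a using MonoidAlgebra.induction_on with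
    | of g => rw [aug_of, map_one]; exact h g
    | add x y hx hy => rw [map_add, map_add, map_add, add_sub_add_comm]; exact add_mem hx hy
    | smul c x hx =>
      rw [map_smul, map_smul, smul_eq_mul, map_mul, ← Algebra.smul_def, ← smul_sub,
        Algebra.smul_def]
      exact Ideal.mul_mem_left _ _ hx
  induction n with
  | zero => intro a _; rw [pow_zero, Ideal.one_eq_top]; trivial
  | succ n ih =>
    intro a ha
    rw [mem_augF, Submodule.pow_succ] at ha
    refine Submodule.mul_induction_on (C := fun a => f a ∈ I ^ (n + 1)) ha (fun b hb c hc => ?_)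
      fun x y hx hy => ?_
    · rw [map_mul, pow_succ]
      refine Ideal.mul_mem_mul (ih b hb) ?_
      have h2 := h1 c
      rw [mem_augI.1 hc, map_zero, sub_zero] at h2
      exact h2
    · rw [map_add]
      exact add_mem hx hy

/-- The map sending one generator to `u` and the others to `1`. -/
noncomputable def psi {A : Type} [CommRing A] [Algebra K A] {d : ℕ} (i : Fin d) (u : Aˣ) :
    MonoidAlgebra K (FreeGroup (Fin d)) →ₐ[K] A :=
  MonoidAlgebra.lift K A (FreeGroup (Fin d))
    ((Units.coeHom A).comp (FreeGroup.lift fun j => if j = i then u else 1))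

theorem psi_of {A : Type} [CommRing A] [Algebra K A] {d : ℕ} (i : Fin d) (u : Aˣ)
    (g : FreeGroup (Fin d)) : psi (K := K) i u (of K _ g) =
      ((FreeGroup.lift (fun j => if j = i then u else 1) g : Aˣ) : A) := by
  rw [psi, MonoidAlgebra.lift_of]
  rfl

theorem psi_sub {A : Type} [CommRing A] [Algebra K A] {d : ℕ} (i : Fin d) (u : Aˣ) (I : Ideal A)
    (hu : (u : A) - 1 ∈ I) (g : FreeGroup (Fin d)) : psi (K := K) i u (of K _ g) - 1 ∈ I := by
  have h1 : ((Ideal.Quotient.mk I : A →+* A ⧸ I) : A →* A ⧸ I).comp ((Units.coeHom A).comp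
      (FreeGroup.lift fun j => if j = i then u else 1)) = 1 := by
    refine FreeGroup.ext_hom _ _ fun j => ?_
    show Ideal.Quotient.mk I ((FreeGroup.lift (fun j => if j = i then u else 1)
      (FreeGroup.of j) : Aˣ) : A) = 1
    rw [FreeGroup.lift_apply_of]
    split_ifs
    · rw [← map_one (Ideal.Quotient.mk I), Ideal.Quotient.mk_eq_mk_iff_sub_mem]
      exact hu
    · rw [Units.val_one, map_one]
  have h2 := DFunLike.congr_fun h1 g
  rw [← Ideal.Quotient.mk_eq_mk_iff_sub_mem, psi_of, map_one]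
  exact h2

/-- The unit `1 + X`. -/
noncomputable def uX (K : Type) [Field K] : (PowerSeries K)ˣ :=
  IsUnit.unit (a := (1 + PowerSeries.X : PowerSeries K)) (by
    rw [PowerSeries.isUnit_iff_constantCoeff, map_add, map_one, PowerSeries.constantCoeff_X,
      add_zero]
    exact isUnit_one)

theorem uX_val : ((uX K : (PowerSeries K)ˣ) : PowerSeries K) = 1 + PowerSeries.X := rfl

theorem uX_sub : ((uX K : (PowerSeries K)ˣ) : PowerSeries K) - 1 ∈
    Ideal.span {(PowerSeries.X : PowerSeries K)} := by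
  rw [uX_val, add_sub_cancel_left]
  exact Ideal.subset_span rfl

/-- The truncated power series ring. -/
abbrev Tr (K : Type) [Field K] (p : ℕ) : Type :=
  PowerSeries K ⧸ Ideal.span {(PowerSeries.X : PowerSeries K) ^ p}

/-- The unit `1 + X` in the truncated ring. -/
noncomputable def uT (K : Type) [Field K] (p : ℕ) : (Tr K p)ˣ :=
  Units.map ((Ideal.Quotient.mk _ : PowerSeries K →+* Tr K p) : PowerSeries K →* Tr K p) (uX K)

theorem uT_pow (p : ℕ) [Fact p.Prime] [CharP K p] : uT K p ^ p = 1 := by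
  have : CharP (PowerSeries K) p :=
    charP_of_injective_algebraMap (R := K) (algebraMap K (PowerSeries K)).injective p
  apply Units.ext
  show Ideal.Quotient.mk _ ((uX K : (PowerSeries K)ˣ) : PowerSeries K) ^ p = 1
  rw [← map_pow, uX_val, add_pow_char, one_pow, map_add, map_one, add_eq_left,
    Ideal.Quotient.eq_zero_iff_mem]
  exact Ideal.subset_span rfl

/-- The map from `ℤ/p` to the units of the truncated ring. -/
noncomputable def zT (p : ℕ) [Fact p.Prime] : ZMod p →+ Additive (Tr (ZMod p) p)ˣ :=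
  ZMod.lift p ⟨zmultiplesHom (Additive (Tr (ZMod p) p)ˣ) (Additive.ofMul (uT (ZMod p) p)), by
    simp only [zmultiplesHom_apply, natCast_zsmul]
    rw [← ofMul_pow, uT_pow, ofMul_one]⟩

theorem zT_cast (p : ℕ) [Fact p.Prime] (k : ℤ) : zT p k = k • Additive.ofMul (uT (ZMod p) p) := by
  rw [zT, ZMod.lift_coe]
  rfl

/-- The homomorphism to the units of the truncated ring attached to `χ`. -/
noncomputable def hT (p : ℕ) [Fact p.Prime] {L : Type} [Group L] (χ : Additive L →+ ZMod p) :
    L →* (Tr (ZMod p) p)ˣ :=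
  MonoidHom.toAdditive.symm ((zT p).comp χ)

theorem hT_apply (p : ℕ) [Fact p.Prime] {L : Type} [Group L] (χ : Additive L →+ ZMod p) (g : L)
    (k : ℤ) (hk : χ (Additive.ofMul g) = k) : hT p χ g = uT (ZMod p) p ^ k := by
  show Additive.toMul (zT p (χ (Additive.ofMul g))) = _
  rw [hk, zT_cast]
  rfl

end psi

section lower

variable {p : ℕ} [hp : Fact p.Prime] {G : Type} [Group G] {Y : Type} [Fintype Y] [DecidableEq Y]
  [MulAction G Y] {y₀ : Y} (D : RData (ZMod p) (G := G) y₀)

/-- The relation ideal is divisible by `X ^ p`. -/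
theorem psi_J (hn : p ≤ D.n) (i : Fin D.d)
    (χ : Additive (MulAction.stabilizer G y₀) →+ ZMod p)
    (hχ : ∀ j, χ (Additive.ofMul (D.x j)) = if j = i then 1 else 0)
    (a : MonoidAlgebra (ZMod p) (FreeGroup (Fin D.d))) (ha : a ∈ D.J) :
    psi (K := ZMod p) i (uX (ZMod p)) a ∈ Ideal.span {(PowerSeries.X : PowerSeries (ZMod p)) ^ p} := by
  classical
  let I : Ideal (PowerSeries (ZMod p)) := Ideal.span {(PowerSeries.X : PowerSeries (ZMod p)) ^ p}
  let mk : PowerSeries (ZMod p) →ₐ[ZMod p] Tr (ZMod p) p := Ideal.Quotient.mkₐ (ZMod p) I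
  let f : MonoidAlgebra (ZMod p) (MulAction.stabilizer G y₀) →ₐ[ZMod p] Tr (ZMod p) p :=
    MonoidAlgebra.lift (ZMod p) _ _ ((Units.coeHom _).comp (hT p χ))
  have hf : ∀ g : MulAction.stabilizer G y₀, f (of (ZMod p) _ g) = ((hT p χ g : (Tr (ZMod p) p)ˣ) : Tr (ZMod p) p) := by
    intro g
    rw [MonoidAlgebra.lift_of]
    rfl
  have h1 : mk.comp (psi (K := ZMod p) i (uX (ZMod p))) = f.comp D.θ := by
    apply MonoidAlgebra.algHom_ext'
    swap
    · exact Subsingleton.elim _ _
    refine FreeGroup.ext_hom _ _ fun j => ?_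
    show mk (psi (K := ZMod p) i (uX (ZMod p)) (of (ZMod p) (FreeGroup (Fin D.d)) (FreeGroup.of j))) =
      f (D.θ (of (ZMod p) (FreeGroup (Fin D.d)) (FreeGroup.of j)))
    have h2 : D.θ (of (ZMod p) _ (FreeGroup.of j)) = of (ZMod p) _ (D.x j) := by
      rw [RData.θ, amap_of, FreeGroup.lift_apply_of]
    rw [h2, hf, psi_of, FreeGroup.lift_apply_of]
    by_cases hj : j = i
    · rw [if_pos hj, hT_apply p χ (D.x j) 1 (by rw [hχ, if_pos hj, Int.cast_one]), zpow_one]
      rfl
    · rw [if_neg hj, hT_apply p χ (D.x j) 0 (by rw [hχ, if_neg hj, Int.cast_zero]), zpow_zero,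
        Units.val_one, Units.val_one, map_one]
  have h2 : ∀ g, f (of (ZMod p) _ g) - 1 ∈ Ideal.span {mk PowerSeries.X} := by
    intro g
    obtain ⟨k, hk⟩ : ∃ k : ℕ, χ (Additive.ofMul g) = k :=
      ⟨(χ (Additive.ofMul g)).val, (ZMod.natCast_zmod_val _).symm⟩
    rw [hf, hT_apply p χ g k (by rw [hk, Int.cast_natCast]), zpow_natCast, Units.val_pow_eq_pow_val]
    have h3 : ((uT (ZMod p) p : (Tr (ZMod p) p)ˣ) : Tr (ZMod p) p) - 1 ∈
        Ideal.span {mk PowerSeries.X} := by
      have h4 : ((uT (ZMod p) p : (Tr (ZMod p) p)ˣ) : Tr (ZMod p) p) = 1 + mk PowerSeries.X := rfl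
      rw [h4, add_sub_cancel_left]
      exact Ideal.subset_span rfl
    have h5 := sub_dvd_pow_sub_pow ((uT (ZMod p) p : (Tr (ZMod p) p)ˣ) : Tr (ZMod p) p) 1 k
    rw [one_pow] at h5
    exact Ideal.mem_of_dvd _ h5 h3
  have h3 := alg_augF f _ h2 D.n (D.θ a) ha
  have h4 : (Ideal.span {mk PowerSeries.X}) ^ D.n = ⊥ := by
    rw [Ideal.span_singleton_pow, ← map_pow]
    have h5 : mk (PowerSeries.X ^ D.n) = 0 := by
      show Ideal.Quotient.mk I _ = 0
      rw [Ideal.Quotient.eq_zero_iff_mem]
      exact Ideal.mem_span_singleton.2 (pow_dvd_pow _ hn)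
    rw [h5, Ideal.span_singleton_eq_bot]
  rw [h4, Ideal.mem_bot] at h3
  have h5 : mk (psi (K := ZMod p) i (uX (ZMod p)) a) = 0 := by
    rw [← h3]
    exact DFunLike.congr_fun h1 a
  exact Ideal.Quotient.eq_zero_iff_mem.1 h5

theorem coeff_of_mem (n : ℕ) (f : PowerSeries (ZMod p))
    (hf : f ∈ Ideal.span {(PowerSeries.X : PowerSeries (ZMod p)) ^ (n + 1)}) :
    PowerSeries.coeff n f = 0 :=
  PowerSeries.X_pow_dvd_iff.1 (Ideal.mem_span_singleton.1 hf) n (Nat.lt_succ_self n)

/-- The coefficient of `X ^ p` kills the decomposable relations. -/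
theorem psi_W (hn : p + 1 ≤ D.n) (i : Fin D.d)
    (χ : Additive (MulAction.stabilizer G y₀) →+ ZMod p)
    (hχ : ∀ j, χ (Additive.ofMul (D.x j)) = if j = i then 1 else 0)
    (a : MonoidAlgebra (ZMod p) (FreeGroup (Fin D.d))) (ha : a ∈ D.W) :
    PowerSeries.coeff p (psi (K := ZMod p) i (uX (ZMod p)) a) = 0 := by
  have h1 : ∀ m : ℕ, ∀ a ∈ augF (ZMod p) (FreeGroup (Fin D.d)) m,
      psi (K := ZMod p) i (uX (ZMod p)) a ∈
        Ideal.span {(PowerSeries.X : PowerSeries (ZMod p)) ^ m} := by
    intro m a ha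
    have h2 := alg_augF (psi (K := ZMod p) i (uX (ZMod p)))
      (Ideal.span {(PowerSeries.X : PowerSeries (ZMod p))})
      (psi_sub i (uX (ZMod p)) _ uX_sub) m a ha
    rwa [Ideal.span_singleton_pow] at h2
  refine coeff_of_mem p _ ?_
  have hmul : ∀ {m k : ℕ} {f g : PowerSeries (ZMod p)},
      f ∈ Ideal.span {(PowerSeries.X : PowerSeries (ZMod p)) ^ m} →
      g ∈ Ideal.span {(PowerSeries.X : PowerSeries (ZMod p)) ^ k} →
      f * g ∈ Ideal.span {(PowerSeries.X : PowerSeries (ZMod p)) ^ (m + k)} := by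
    intro m k f g hf hg
    rw [Ideal.mem_span_singleton] at hf hg ⊢
    rw [pow_add]
    exact mul_dvd_mul hf hg
  have hW : D.W ≤ ((Ideal.span {(PowerSeries.X : PowerSeries (ZMod p)) ^ (p + 1)}).restrictScalars
      (ZMod p)).comap (psi (K := ZMod p) i (uX (ZMod p))).toLinearMap := by
    refine sup_le (sup_le ?_ ?_) ?_
    · refine Submodule.mul_le.2 fun b hb c hc => ?_
      show psi (K := ZMod p) i (uX (ZMod p)) (b * c) ∈
        Ideal.span {(PowerSeries.X : PowerSeries (ZMod p)) ^ (p + 1)}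
      rw [map_mul, add_comm p 1]
      exact hmul (h1 1 b hb) (psi_J D (by omega) i χ hχ c hc)
    · refine Submodule.mul_le.2 fun b hb c hc => ?_
      show psi (K := ZMod p) i (uX (ZMod p)) (b * c) ∈
        Ideal.span {(PowerSeries.X : PowerSeries (ZMod p)) ^ (p + 1)}
      rw [map_mul]
      exact hmul (psi_J D (by omega) i χ hχ b hb) (h1 1 c hc)
    · intro b hb
      exact h1 (p + 1) b (augF_anti hn hb)
  exact hW ha

/-- The coefficients in degree two kill the decomposable relations. -/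
theorem kap_W (hn : 3 ≤ D.n) (i j : Fin D.d)
    (a : MonoidAlgebra (ZMod p) (FreeGroup (Fin D.d))) (ha : a ∈ D.W) :
    kap (ZMod p) i j a = 0 := by
  have hW : D.W ≤ augF (ZMod p) (FreeGroup (Fin D.d)) 3 := by
    refine sup_le (sup_le ?_ ?_) (augF_anti hn)
    · refine Submodule.mul_le.2 fun b hb c hc => ?_
      exact augF_mul (m := 1) (n := 2) hb (D.J_le_two hc)
    · refine Submodule.mul_le.2 fun b hb c hc => ?_
      exact augF_mul (m := 2) (n := 1) (D.J_le_two hb) hc
  exact kap_three i j (hW ha)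

end lower

section dimsub

variable {p : ℕ} [hp : Fact p.Prime] {L : Type} [Group L]

/-- Elements that die in all finite `p`-quotients are congruent to `1` modulo the powers of the
augmentation ideal. -/
theorem of_sub_one_mem_of_res (n : ℕ) (hfin : Finite ((MonoidAlgebra (ZMod p) L) ⧸ augF (ZMod p) L n))
    (g : L) (hg : ∀ (Q : Type) [Group Q] [Finite Q], IsPGroup p Q → ∀ s : L →* Q, s g = 1) :
    of (ZMod p) L g - 1 ∈ augF (ZMod p) L n := by
  let M : Subgroup L :=
    { carrier := {g | of (ZMod p) L g - 1 ∈ augF (ZMod p) L n}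
      one_mem' := by
        show of (ZMod p) L 1 - 1 ∈ augF (ZMod p) L n
        rw [map_one, sub_self]
        exact zero_mem _
      mul_mem' := by
        intro a b ha hb
        show of (ZMod p) L (a * b) - 1 ∈ augF (ZMod p) L n
        have e : of (ZMod p) L (a * b) - 1 = of (ZMod p) L a * (of (ZMod p) L b - 1) +
            (of (ZMod p) L a - 1) := by
          rw [map_mul, mul_sub, mul_one]
          abel
        rw [e]
        exact add_mem (augF_mul_left _ hb) ha
      inv_mem' := by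
        intro a ha
        show of (ZMod p) L a⁻¹ - 1 ∈ augF (ZMod p) L n
        have e : of (ZMod p) L a⁻¹ - 1 = -(of (ZMod p) L a⁻¹ * (of (ZMod p) L a - 1)) := by
          rw [mul_sub, ← map_mul, inv_mul_cancel, map_one, mul_one]
          abel
        rw [e]
        exact neg_mem (augF_mul_left _ ha) }
  have hM : ∀ g, g ∈ M ↔ of (ZMod p) L g - 1 ∈ augF (ZMod p) L n := fun _ => Iff.rfl
  have hnorm : M.Normal := by
    constructor
    intro a ha b
    rw [hM] at ha ⊢
    have e : of (ZMod p) L (b * a * b⁻¹) - 1 =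
        of (ZMod p) L b * (of (ZMod p) L a - 1) * of (ZMod p) L b⁻¹ := by
      rw [map_mul, map_mul, mul_sub, sub_mul, mul_one, ← map_mul (of (ZMod p) L) b b⁻¹,
        mul_inv_cancel, map_one]
    rw [e]
    exact augF_mul_right _ (augF_mul_left _ ha)
  have hQfin : Finite (L ⧸ M) := by
    let f : L ⧸ M → (MonoidAlgebra (ZMod p) L) ⧸ augF (ZMod p) L n := fun q =>
      Submodule.Quotient.mk (of (ZMod p) L q.out)
    refine Finite.of_injective f ?_
    intro a b hab
    have h1 : of (ZMod p) L a.out - of (ZMod p) L b.out ∈ augF (ZMod p) L n :=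
      (Submodule.Quotient.eq _).1 hab
    rw [← a.out_eq', ← b.out_eq', eq_comm]
    refine (QuotientGroup.eq (s := M)).2 ?_
    rw [hM]
    have e : of (ZMod p) L (b.out⁻¹ * a.out) - 1 = of (ZMod p) L b.out⁻¹ *
        (of (ZMod p) L a.out - of (ZMod p) L b.out) := by
      rw [map_mul, mul_sub, ← map_mul (of (ZMod p) L) b.out⁻¹ b.out, inv_mul_cancel, map_one]
    rw [e]
    exact augF_mul_left _ h1
  have hpg : IsPGroup p (L ⧸ M) := by
    intro q
    obtain ⟨a, rfl⟩ := QuotientGroup.mk_surjective q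
    refine ⟨n, ?_⟩
    rw [← QuotientGroup.mk_pow, QuotientGroup.eq_one_iff, hM]
    have h1 : ∀ k : ℕ, of (ZMod p) L (a ^ p ^ k) - 1 = (of (ZMod p) L a - 1) ^ p ^ k := by
      intro k
      induction k with
      | zero => rw [pow_zero, pow_one, pow_one]
      | succ k ih => rw [pow_succ, pow_mul, of_pow_sub_one p, ih, ← pow_mul]
    rw [h1]
    have h2 : ∀ m : ℕ, (of (ZMod p) L a - 1) ^ m ∈ augF (ZMod p) L m := by
      intro m
      induction m with
      | zero => rw [augF_zero]; trivial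
      | succ m ih => rw [pow_succ]; exact augF_mul ih (augF_one_sub a)
    exact augF_anti (Nat.lt_pow_self hp.out.one_lt).le (h2 _)
  have h1 := hg (L ⧸ M) hpg (QuotientGroup.mk' M)
  rw [QuotientGroup.mk'_apply, QuotientGroup.eq_one_iff] at h1
  exact h1

end dimsub

section family

variable {p : ℕ} [hp : Fact p.Prime] {G : Type} [Group G] {Y : Type} [Fintype Y] [DecidableEq Y]
  [MulAction G Y] {y₀ : Y} (D : RData (ZMod p) (G := G) y₀)

instance finite_quot : Finite ((MonoidAlgebra (ZMod p) (MulAction.stabilizer G y₀)) ⧸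
    augF (ZMod p) (MulAction.stabilizer G y₀) D.n) := by
  have h1 : FiniteDimensional (ZMod p) (MonoidAlgebra (ZMod p) (FreeGroup (Fin D.d)) ⧸
      augF (ZMod p) (FreeGroup (Fin D.d)) D.n) := (foxFil (ZMod p) (Fin D.d)).finite_quot_I D.n
  have h2 : Finite (MonoidAlgebra (ZMod p) (FreeGroup (Fin D.d)) ⧸
      augF (ZMod p) (FreeGroup (Fin D.d)) D.n) := Module.finite_of_finite (ZMod p)
  refine Finite.of_surjective (mapQ (augF (ZMod p) (FreeGroup (Fin D.d)) D.n)
    (augF (ZMod p) (MulAction.stabilizer G y₀) D.n) D.θ.toLinearMap D.pow_le_J) fun y => ?_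
  obtain ⟨r, rfl⟩ := (augF (ZMod p) (MulAction.stabilizer G y₀) D.n).mkQ_surjective y
  obtain ⟨a, ha⟩ := D.gen0 r
  refine ⟨(augF (ZMod p) (FreeGroup (Fin D.d)) D.n).mkQ a, ?_⟩
  show (augF (ZMod p) (MulAction.stabilizer G y₀) D.n).mkQ (D.θ a) = _
  rw [eq_comm, ← sub_eq_zero, ← map_sub, Submodule.mkQ_apply, Submodule.Quotient.mk_eq_zero]
  exact ha

/-- Words that die in all finite `p`-quotients give relations. -/
theorem of_mem_J_of_res (w : FreeGroup (Fin D.d))
    (hw : ∀ (Q : Type) [Group Q] [Finite Q], IsPGroup p Q → ∀ s : MulAction.stabilizer G y₀ →* Q,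
      s (FreeGroup.lift D.x w) = 1) : of (ZMod p) _ w - 1 ∈ D.J := by
  have h1 := of_sub_one_mem_of_res D.n (finite_quot D) _ hw
  rw [RData.mem_J, map_sub, map_one, RData.θ, amap_of]
  exact h1

variable (i₀ i₁ : Fin D.d)

/-- The index set of the relations. -/
abbrev TT : Type := Fin 2 ⊕ {j : Fin D.d // j ≠ i₀} ⊕ {j : Fin D.d // j ≠ i₀ ∧ j ≠ i₁}

/-- The relations. -/
def ww : TT D i₀ i₁ → FreeGroup (Fin D.d)
  | Sum.inl 0 => FreeGroup.of i₀ ^ p
  | Sum.inl 1 => FreeGroup.of i₁ ^ p
  | Sum.inr (Sum.inl j) => ⁅FreeGroup.of i₀, FreeGroup.of (j : Fin D.d)⁆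
  | Sum.inr (Sum.inr j) => ⁅FreeGroup.of i₁, FreeGroup.of (j : Fin D.d)⁆

/-- The power functional. -/
noncomputable def pf (i : Fin D.d) : MonoidAlgebra (ZMod p) (FreeGroup (Fin D.d)) →ₗ[ZMod p] ZMod p :=
  (PowerSeries.coeff p) ∘ₗ (psi (K := ZMod p) i (uX (ZMod p))).toLinearMap

/-- The functionals. -/
noncomputable def ff : TT D i₀ i₁ → MonoidAlgebra (ZMod p) (FreeGroup (Fin D.d)) →ₗ[ZMod p] ZMod p
  | Sum.inl 0 => pf D i₀
  | Sum.inl 1 => pf D i₁
  | Sum.inr (Sum.inl j) => kap (ZMod p) i₀ j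
  | Sum.inr (Sum.inr j) => kap (ZMod p) i₁ j

theorem pf_pow (i j : Fin D.d) : pf D i (of (ZMod p) _ (FreeGroup.of j ^ p) - 1) =
    if j = i then 1 else 0 := by
  classical
  have : CharP (PowerSeries (ZMod p)) p :=
    charP_of_injective_algebraMap (R := ZMod p)
      (algebraMap (ZMod p) (PowerSeries (ZMod p))).injective p
  show PowerSeries.coeff p (psi (K := ZMod p) i (uX (ZMod p)) _) = _
  rw [map_sub, map_one, psi_of, map_pow, FreeGroup.lift_apply_of]
  split_ifs
  · rw [Units.val_pow_eq_pow_val, uX_val, add_pow_char, one_pow, add_sub_cancel_left,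
      PowerSeries.coeff_X_pow_self]
  · rw [one_pow, Units.val_one, sub_self, map_zero]

theorem pf_comm (i : Fin D.d) (g h : FreeGroup (Fin D.d)) :
    pf D i (of (ZMod p) _ ⁅g, h⁆ - 1) = 0 := by
  show PowerSeries.coeff p (psi (K := ZMod p) i (uX (ZMod p)) _) = _
  rw [map_sub, map_one, psi_of, map_commutatorElement, commutatorElement_eq_one_iff_commute.2
    (Commute.all _ _), Units.val_one, sub_self, map_zero]

theorem kap_comm_of (i j a b : Fin D.d) :
    kap (ZMod p) i j (of (ZMod p) _ ⁅FreeGroup.of a, FreeGroup.of b⁆ - 1) =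
      (if i = a then 1 else 0) * (if j = b then 1 else 0) -
      (if i = b then 1 else 0) * (if j = a then 1 else 0) := by
  rw [kap_comm, dualHom_of, dualHom_of, dualHom_of, dualHom_of]

theorem ff_ww (h01 : i₀ ≠ i₁) (s t : TT D i₀ i₁) :
    ff D i₀ i₁ s (of (ZMod p) _ (ww D i₀ i₁ t) - 1) = if s = t then 1 else 0 := by
  classical
  match s, t with
  | Sum.inl 0, Sum.inl 0 => simp only [ff, ww]; rw [pf_pow]; simp
  | Sum.inl 0, Sum.inl 1 => simp only [ff, ww]; rw [pf_pow]; simp [h01.symm]
  | Sum.inl 1, Sum.inl 0 => simp only [ff, ww]; rw [pf_pow]; simp [h01]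
  | Sum.inl 1, Sum.inl 1 => simp only [ff, ww]; rw [pf_pow]; simp
  | Sum.inl 0, Sum.inr (Sum.inl j) => simp only [ff, ww]; rw [pf_comm]; simp
  | Sum.inl 0, Sum.inr (Sum.inr j) => simp only [ff, ww]; rw [pf_comm]; simp
  | Sum.inl 1, Sum.inr (Sum.inl j) => simp only [ff, ww]; rw [pf_comm]; simp
  | Sum.inl 1, Sum.inr (Sum.inr j) => simp only [ff, ww]; rw [pf_comm]; simp
  | Sum.inr (Sum.inl i), Sum.inl 0 => simp only [ff, ww]; rw [kap_pow p _ _ (Ne.symm i.2)]; simp
  | Sum.inr (Sum.inl i), Sum.inl 1 => simp only [ff, ww]; rw [kap_pow p _ _ (Ne.symm i.2)]; simp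
  | Sum.inr (Sum.inr i), Sum.inl 0 => simp only [ff, ww]; rw [kap_pow p _ _ (Ne.symm i.2.2)]; simp
  | Sum.inr (Sum.inr i), Sum.inl 1 => simp only [ff, ww]; rw [kap_pow p _ _ (Ne.symm i.2.2)]; simp
  | Sum.inr (Sum.inl i), Sum.inr (Sum.inl j) =>
    simp only [ff, ww, kap_comm_of, Sum.inr.injEq, Sum.inl.injEq, Subtype.ext_iff]
    rw [if_neg i.2]
    simp
  | Sum.inr (Sum.inl i), Sum.inr (Sum.inr j) =>
    simp only [ff, ww, kap_comm_of]
    rw [if_neg h01, if_neg (Ne.symm j.2.1)]
    simp
  | Sum.inr (Sum.inr i), Sum.inr (Sum.inl j) =>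
    simp only [ff, ww, kap_comm_of]
    rw [if_neg h01.symm, if_neg i.2.1]
    simp
  | Sum.inr (Sum.inr i), Sum.inr (Sum.inr j) =>
    simp only [ff, ww, kap_comm_of, Sum.inr.injEq, Subtype.ext_iff]
    rw [if_neg i.2.2]
    simp

theorem card_TT : 2 * D.d - 1 ≤ Fintype.card (TT D i₀ i₁) := by
  classical
  rw [Fintype.card_sum, Fintype.card_sum, Fintype.card_fin]
  have h1 : Fintype.card {j : Fin D.d // j ≠ i₀} = D.d - 1 := by
    rw [Fintype.card_subtype_compl, Fintype.card_fin, Fintype.card_subtype_eq]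
  have h2 : D.d - 2 ≤ Fintype.card {j : Fin D.d // j ≠ i₀ ∧ j ≠ i₁} := by
    rw [Fintype.card_subtype]
    have h3 : (Finset.univ.filter fun j : Fin D.d => j ≠ i₀ ∧ j ≠ i₁) =
        (Finset.univ.erase i₀).erase i₁ := by
      ext j
      simp [and_comm]
    rw [h3]
    have h4 := Finset.pred_card_le_card_erase (s := Finset.univ.erase i₀) (a := i₁)
    have h5 := Finset.pred_card_le_card_erase (s := (Finset.univ : Finset (Fin D.d))) (a := i₀)
    rw [Finset.card_univ, Fintype.card_fin] at h5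
    omega
  omega

/-- **The lower bound for the number of relations.** -/
theorem lower (hn : p + 1 ≤ D.n) (h01 : i₀ ≠ i₁)
    (hdual : ∀ i, ∃ χ : Additive (MulAction.stabilizer G y₀) →+ ZMod p,
      ∀ j, χ (Additive.ofMul (D.x j)) = if j = i then 1 else 0)
    (hcen : ∀ (Q : Type) [Group Q] [Finite Q], IsPGroup p Q →
      ∀ s : MulAction.stabilizer G y₀ →* Q, s (D.x i₀) ^ p = 1 ∧ s (D.x i₁) ^ p = 1 ∧
        ∀ g, s (D.x i₀) * s g = s g * s (D.x i₀) ∧ s (D.x i₁) * s g = s g * s (D.x i₁)) :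
    2 * D.d - 1 ≤ Module.finrank (ZMod p) D.Jq := by
  classical
  have hJ : ∀ t, of (ZMod p) _ (ww D i₀ i₁ t) - 1 ∈ D.J := by
    intro t
    refine of_mem_J_of_res D _ fun Q _ _ hQ s => ?_
    obtain ⟨h1, h2, h3⟩ := hcen Q hQ s
    match t with
    | Sum.inl 0 => simp only [ww, map_pow, FreeGroup.lift_apply_of]; exact h1
    | Sum.inl 1 => simp only [ww, map_pow, FreeGroup.lift_apply_of]; exact h2
    | Sum.inr (Sum.inl j) =>
      simp only [ww, map_commutatorElement, FreeGroup.lift_apply_of]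
      exact commutatorElement_eq_one_iff_commute.2 (h3 _).1
    | Sum.inr (Sum.inr j) =>
      simp only [ww, map_commutatorElement, FreeGroup.lift_apply_of]
      exact commutatorElement_eq_one_iff_commute.2 (h3 _).2
  have hp2 : 2 ≤ p := hp.out.two_le
  have hff : ∀ s, ∀ a ∈ D.W, ff D i₀ i₁ s a = 0 := by
    intro s a ha
    match s with
    | Sum.inl 0 =>
      obtain ⟨χ, hχ⟩ := hdual i₀
      exact psi_W D hn i₀ χ hχ a ha
    | Sum.inl 1 =>
      obtain ⟨χ, hχ⟩ := hdual i₁
      exact psi_W D hn i₁ χ hχ a ha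
    | Sum.inr (Sum.inl j) => exact kap_W D (by omega) _ _ a ha
    | Sum.inr (Sum.inr j) => exact kap_W D (by omega) _ _ a ha
  let v : TT D i₀ i₁ → D.Jq := fun t =>
    ⟨D.W.mkQ (of (ZMod p) _ (ww D i₀ i₁ t) - 1), ⟨_, hJ t, rfl⟩⟩
  have hv : LinearIndependent (ZMod p) v := by
    rw [Fintype.linearIndependent_iff]
    intro c hc s
    have h1 : D.W.mkQ (∑ t, c t • (of (ZMod p) _ (ww D i₀ i₁ t) - 1)) = 0 := by
      have h2 := congrArg Subtype.val hc
      rw [AddSubmonoidClass.coe_finsetSum] at h2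
      rw [map_sum]
      refine Eq.trans (Finset.sum_congr rfl fun t _ => ?_) h2
      rw [map_smul]
      rfl
    rw [Submodule.mkQ_apply, Submodule.Quotient.mk_eq_zero] at h1
    have h2 := hff s _ h1
    rw [map_sum, Finset.sum_congr rfl fun t _ => by rw [map_smul, ff_ww D i₀ i₁ h01]] at h2
    simpa using h2
  exact (card_TT D i₀ i₁).trans hv.fintype_card_le_finrank

end family

end Vale.Agent.P260.H145
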