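import Mathlib
import Vale.Agent.P260.H145.Pair
import Vale.Agent.P260.H145.MainA
import Vale.Agent.P260.H662.C2
import Vale.Agent.P260.H795.Main

/-!
# P260: the data at a prime for an amenable Poincare duality group of dimension 4
-/

set_option linter.unusedSectionVars false

namespace Vale.Agent.P260.H145

open Finset Submodule MonoidAlgebra Vale.Agent.P300.GS
open scoped commutatorElement

/-- The rank of a matrix whose cokernel is nonzero. -/
theorem rank_lt {K : Type} [Field K] {G : Type} [Group G] {Y : Type} [Fintype Y] [DecidableEq Y]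
    [MulAction G Y] {n₀ n₁ : ℕ} (ε : (Fin n₀ → MonoidAlgebra K G) →ₗ[K] K)
    (d₁ : Matrix (Fin n₁) (Fin n₀) (MonoidAlgebra K G))
    (y₀ : Y) (htr : ∀ y : Y, ∃ g : G, g • y₀ = y)
    (hε0 : ε ≠ 0) (hε : ∀ h : G, h • y₀ = y₀ → ∀ v, ε (lt n₀ h v) = ε v)
    (h₀ : LinearMap.range (vm d₁) = LinearMap.ker ε) :
    (Lam K Y d₁).rank + 1 ≤ n₀ * Fintype.card Y := by
  classical
  obtain ⟨u, hu⟩ := Phi_surj y₀ htr ε hε
  have hu0 : u ≠ 0 := by
    rintro rfl
    rw [Phi_zero] at hu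
    exact hε0 hu.symm
  have hker : (Lam K Y d₁).mulVec u = 0 := by
    rw [mem_ker_Lam d₁ y₀ htr, hu]
    intro v
    have : vm d₁ v ∈ LinearMap.ker ε := by rw [← h₀]; exact ⟨v, rfl⟩
    exact this
  have h1 := LinearMap.finrank_range_add_finrank_ker (Lam K Y d₁).mulVecLin
  rw [Module.finrank_fintype_fun_eq_card, Fintype.card_prod, Fintype.card_fin] at h1
  have h2 : 0 < Module.finrank K (LinearMap.ker (Lam K Y d₁).mulVecLin) := by
    rw [Module.finrank_pos_iff]
    refine ⟨⟨⟨u, ?_⟩, 0, ?_⟩⟩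
    · rw [LinearMap.mem_ker, Matrix.mulVecLin_apply]
      exact hker
    · intro h
      exact hu0 (congrArg Subtype.val h)
  have h3 : Module.finrank K (LinearMap.range (Lam K Y d₁).mulVecLin) = (Lam K Y d₁).rank := rfl
  omega

namespace PD4

variable {K : Type} [Field K] {G : Type} [Group G] (P : PD4 K G)

/-- **The sharp bound on the second homology**: `b₂(H) ≤ 2 dim Hom(H, K) - 2`. -/
theorem b2_bound' [Infinite G] (hG : Folner G) (Y : Type) [Fintype Y] [DecidableEq Y]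
    [MulAction G Y] (y₀ : Y) (htr : ∀ y : Y, ∃ g : G, g • y₀ = y)
    (hθ : ∀ h : G, h • y₀ = y₀ → ∀ v, P.theta (lt P.n₄ h v) = P.theta v)
    [FiniteDimensional K (Additive (MulAction.stabilizer G y₀) →+ K)] :
    P.n₂ * Fintype.card Y + 2 ≤ (Lam K Y P.d₃).rank + (Lam K Y P.d₂).rank +
      2 * Module.finrank K (Additive (MulAction.stabilizer G y₀) →+ K) := by
  have e := euler_zero hG P.eps P.d₁ P.d₂ P.d₃ P.d₄ P.range_d₁ P.range_d₂ P.range_d₃ P.range_d₄
    P.ker_d₄
  have h1 := h1_bound P.eps P.d₁ P.d₂ y₀ htr P.eps_ne (fun h _ v => P.eps_lt h v) P.range_d₁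
    P.range_d₂
  have h2 := h1_bound P.theta (ct P.d₄) (ct P.d₃) y₀ htr P.theta_ne hθ P.range_ct_d₄
    P.range_ct_d₃
  have h3 := rank_lt P.eps P.d₁ y₀ htr P.eps_ne (fun h _ v => P.eps_lt h v) P.range_d₁
  have h4 := rank_lt P.theta (ct P.d₄) y₀ htr P.theta_ne hθ P.range_ct_d₄
  rw [Lam_ct, Lam_ct, Matrix.rank_transpose, Matrix.rank_transpose] at h2
  rw [Lam_ct, Matrix.rank_transpose] at h4
  have h5 : (P.n₀ + P.n₂ + P.n₄) * Fintype.card Y = (P.n₁ + P.n₃) * Fintype.card Y := by rw [e]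
  have h6 : P.n₀ * Fintype.card Y + P.n₂ * Fintype.card Y + P.n₄ * Fintype.card Y =
      P.n₁ * Fintype.card Y + P.n₃ * Fintype.card Y := by
    rw [← add_mul, ← add_mul, ← add_mul]; exact h5
  omega

end PD4

/-- `NoPair` for stabilizers. -/
theorem noPair_stab {p : ℕ} [hp : Fact p.Prime] {G : Type} [Group G] (P : PD4 (ZMod p) G)
    (hG : Folner G) (Y : Type) [Fintype Y] [DecidableEq Y] [MulAction G Y]
    (y₀ : Y) (htr : ∀ y : Y, ∃ g : G, g • y₀ = y)
    (hθ : ∀ h : G, h • y₀ = y₀ → ∀ v, P.theta (lt P.n₄ h v) = P.theta v)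
    [FiniteDimensional (ZMod p) (Additive (MulAction.stabilizer G y₀) →+ ZMod p)] :
    NoPair p (MulAction.stabilizer G y₀) := by
  classical
  intro x y α β hαx hαy hβx hβy hcen
  have := P.infinite
  obtain ⟨z, i₀, i₁, h01, hz0, hz1, hsep, hdual⟩ := exists_sep_pair (K := ZMod p) x y
    (MonoidHom.toAdditiveLeft α) (MonoidHom.toAdditiveLeft β)
    (by show (α x).toAdd = 1; rw [hαx]; rfl) (by show (α y).toAdd = 0; rw [hαy]; rfl)
    (by show (β x).toAdd = 0; rw [hβx]; rfl) (by show (β y).toAdd = 1; rw [hβy]; rfl)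
  let D := P.rdata y₀ htr z hsep hdual (p + 1) (by have := hp.out.two_le; omega)
  have h1 := lower D i₀ i₁ le_rfl h01 hdual (by
    intro Q _ _ hQ s
    show s (z i₀) ^ p = 1 ∧ s (z i₁) ^ p = 1 ∧
      ∀ g, s (z i₀) * s g = s g * s (z i₀) ∧ s (z i₁) * s g = s g * s (z i₁)
    rw [hz0, hz1]
    exact hcen Q hQ s)
  have h2 := D.count
  have h3 := P.b2_bound' hG Y y₀ htr hθ
  have h4 : D.d = Module.finrank (ZMod p) (Additive (MulAction.stabilizer G y₀) →+ ZMod p) := rfl
  have h5 : Module.finrank (ZMod p) D.Jq + (Lam (ZMod p) Y P.d₂).rank +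
    (Lam (ZMod p) Y P.d₃).rank ≤ P.n₂ * Fintype.card Y := h2
  omega

/-- **The data at a prime.** -/
theorem primeData (p : ℕ) [hp : Fact p.Prime] (G : Type) [Group G] (P : PD4 (ZMod p) G)
    (hG : Folner G) : Nonempty (PrimeData p G 3999) := by
  classical
  obtain ⟨ω, hω⟩ := P.exists_omega
  have hGfg := P.fg
  have hfgG : Group.FG G := hGfg
  have hfin : ∀ H : Subgroup G, H.FiniteIndex →
      FiniteDimensional (ZMod p) (Additive H →+ ZMod p) := by
    intro H hH
    exact finiteDimensional_hom _ _ inferInstance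
  have hst : ∀ H : Subgroup G, MulAction.stabilizer G ((1 : G) : G ⧸ H) = H := fun H =>
    MulAction.stabilizer_quotient H
  have htr : ∀ H : Subgroup G, ∀ y : G ⧸ H, ∃ g : G, g • ((1 : G) : G ⧸ H) = y := by
    intro H y
    obtain ⟨g, rfl⟩ := QuotientGroup.mk_surjective y
    refine ⟨g, ?_⟩
    rw [MulAction.Quotient.smul_coe, smul_eq_mul, mul_one]
  have hθ : ∀ H : Subgroup G, H ≤ ω.ker → ∀ h : G, h • ((1 : G) : G ⧸ H) = ((1 : G) : G ⧸ H) →
      ∀ v, P.theta (lt P.n₄ h v) = P.theta v := by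
    intro H hHN h hh v
    have h2 : h ∈ H := by rw [← hst H]; exact hh
    have h3 : ω h = 1 := hHN h2
    rw [hω, h3, Units.val_one, one_mul]
  refine ⟨⟨ω.ker, inferInstance, Subgroup.finiteIndex_ker ω, ?_, ?_, ?_⟩⟩
  · rw [Subgroup.commutator_le]
    intro a _ b _
    rw [MonoidHom.mem_ker, map_commutatorElement]
    exact commutatorElement_eq_one_iff_commute.2 (Commute.all _ _)
  · intro H hH hHN n f hf
    have : Fintype (G ⧸ H) := Subgroup.fintypeQuotientOfFiniteIndex
    have : FiniteDimensional (ZMod p)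
        (Additive (MulAction.stabilizer G ((1 : G) : G ⧸ H)) →+ ZMod p) := by
      rw [hst]
      exact hfin H hH
    have h1 := contra_of_C2 H662.c2 p G P hG (G ⧸ H) ((1 : G) : G ⧸ H) (htr H) (hθ H hHN)
    rw [hst] at h1
    have h2 := H795.le_finrank_hom (q := p) (H := H) inferInstance f hf
    omega
  · intro L hL hLN
    have : Fintype (G ⧸ L) := Subgroup.fintypeQuotientOfFiniteIndex
    have : FiniteDimensional (ZMod p)
        (Additive (MulAction.stabilizer G ((1 : G) : G ⧸ L)) →+ ZMod p) := by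
      rw [hst]
      exact hfin L hL
    have h1 := noPair_stab P hG (G ⧸ L) ((1 : G) : G ⧸ L) (htr L) (hθ L hLN)
    rw [hst] at h1
    exact h1

end Vale.Agent.P260.H145
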