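import Mathlib
import Vale.Agent.P260.Defs
import Vale.Agent.P260.H145.RFDefs

/-!
# P260: quotients of amenable groups; the maximal residually finite quotient
-/

namespace Vale.Agent.P260.H145

open Classical in
/-- Quotients of amenable groups are amenable. -/
theorem folner_quot {G Q : Type} [Group G] [Group Q] (hG : Folner G) (f : G →* Q)
    (hf : Function.Surjective f) : Folner Q := by
  intro E ε hε
  obtain ⟨s, hs⟩ := hf.hasRightInverse
  obtain ⟨F, hF0, hF⟩ := hG (E.image s) (ε / (E.card + 1)) (by positivity)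
  -- the weights
  let w : Q → ℕ := fun q => (F.filter fun x => f x = q).card
  let A : ℕ → Finset Q := fun t => (F.image f).filter fun q => t < w q
  have hA : ∀ t q, q ∈ A t ↔ t < w q := by
    intro t q
    rw [Finset.mem_filter, and_iff_right_iff_imp]
    intro h
    have h1 : 0 < w q := lt_of_le_of_lt (Nat.zero_le t) h
    obtain ⟨x, hx⟩ := Finset.card_pos.1 h1
    rw [Finset.mem_filter] at hx
    exact Finset.mem_image.2 ⟨x, hx.1, hx.2⟩
  have hwF : ∀ q, w q ≤ F.card := fun q => Finset.card_filter_le _ _
  -- the layer cake formula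
  have hsum : ∑ t ∈ Finset.range F.card, (A t).card = F.card := by
    have h1 : ∀ t, (A t).card = ∑ q ∈ F.image f, if t < w q then 1 else 0 := by
      intro t
      rw [Finset.card_filter]
    rw [Finset.sum_congr rfl fun t _ => h1 t, Finset.sum_comm]
    have h2 : ∀ q, ∑ t ∈ Finset.range F.card, (if t < w q then 1 else 0) = w q := by
      intro q
      rw [← Finset.card_filter]
      have h3 : (Finset.range F.card).filter (fun t => t < w q) = Finset.range (w q) := by
        ext t
        rw [Finset.mem_filter, Finset.mem_range, Finset.mem_range]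
        exact ⟨fun h => h.2, fun h => ⟨h.trans_le (hwF q), h⟩⟩
      rw [h3, Finset.card_range]
    rw [Finset.sum_congr rfl fun q _ => h2 q]
    exact (Finset.card_eq_sum_card_image f F).symm
  have hmove : ∀ e ∈ E, ∑ t ∈ Finset.range F.card, (((A t).image fun x => e * x) \ A t).card ≤
      ((F.image fun x => s e * x) \ F).card := by
    intro e he
    set D := (F.image fun x => s e * x) \ F with hD
    have h1 : ∀ q, w (e⁻¹ * q) ≤ (D.filter fun x => f x = q).card + w q := by
      intro q
      have h2 : ((F.filter fun x => f x = e⁻¹ * q).image fun x => s e * x) ⊆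
          (D.filter fun x => f x = q) ∪ (F.filter fun x => f x = q) := by
        intro y hy
        obtain ⟨x, hx, rfl⟩ := Finset.mem_image.1 hy
        rw [Finset.mem_filter] at hx
        have h3 : f (s e * x) = q := by rw [map_mul, hs, hx.2, mul_inv_cancel_left]
        by_cases h4 : s e * x ∈ F
        · exact Finset.mem_union_right _ (Finset.mem_filter.2 ⟨h4, h3⟩)
        · exact Finset.mem_union_left _ (Finset.mem_filter.2 ⟨Finset.mem_sdiff.2
            ⟨Finset.mem_image_of_mem _ hx.1, h4⟩, h3⟩)
      have h3 : w (e⁻¹ * q) = ((F.filter fun x => f x = e⁻¹ * q).image fun x => s e * x).card :=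
        (Finset.card_image_of_injective _ (mul_right_injective _)).symm
      rw [h3]
      exact (Finset.card_le_card h2).trans (Finset.card_union_le _ _)
    have h2 : ∀ t, ((A t).image fun x => e * x) \ A t ⊆
        (D.image f).filter fun q => w q ≤ t ∧ t < w (e⁻¹ * q) := by
      intro t q hq
      rw [Finset.mem_sdiff, Finset.mem_image] at hq
      obtain ⟨⟨x, hx, rfl⟩, hq⟩ := hq
      rw [hA] at hx hq
      rw [not_lt] at hq
      rw [Finset.mem_filter, inv_mul_cancel_left]
      refine ⟨?_, hq, hx⟩
      have h3 := h1 (e * x)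
      rw [inv_mul_cancel_left] at h3
      have h4 : 0 < (D.filter fun y => f y = e * x).card := by omega
      obtain ⟨y, hy⟩ := Finset.card_pos.1 h4
      rw [Finset.mem_filter] at hy
      exact Finset.mem_image.2 ⟨y, hy.1, hy.2⟩
    have h3 : ∀ t, (((A t).image fun x => e * x) \ A t).card ≤
        ∑ q ∈ D.image f, if w q ≤ t ∧ t < w (e⁻¹ * q) then 1 else 0 := by
      intro t
      rw [← Finset.card_filter]
      exact Finset.card_le_card (h2 t)
    refine (Finset.sum_le_sum fun t _ => h3 t).trans ?_
    rw [Finset.sum_comm, Finset.card_eq_sum_card_image f D]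
    refine Finset.sum_le_sum fun q _ => ?_
    rw [← Finset.card_filter]
    have h4 : (Finset.range F.card).filter (fun t => w q ≤ t ∧ t < w (e⁻¹ * q)) ⊆
        Finset.Ico (w q) (w (e⁻¹ * q)) := by
      intro t ht
      rw [Finset.mem_filter] at ht
      exact Finset.mem_Ico.2 ht.2
    refine (Finset.card_le_card h4).trans ?_
    rw [Nat.card_Ico]
    have := h1 q
    omega
  -- a good level
  by_contra hcon
  push Not at hcon
  have hbad : ∀ t ∈ Finset.range F.card, ε * ((A t).card : ℝ) ≤
      ∑ e ∈ E, ((((A t).image fun x => e * x) \ A t).card : ℝ) := by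
    intro t _
    rcases (A t).eq_empty_or_nonempty with h0 | h0
    · rw [h0]
      simp only [Finset.card_empty, Nat.cast_zero, mul_zero]
      exact Finset.sum_nonneg fun _ _ => Nat.cast_nonneg _
    · obtain ⟨e, he, h1⟩ := hcon (A t) h0
      refine h1.le.trans ?_
      exact Finset.single_le_sum (f := fun e => ((((A t).image fun x => e * x) \ A t).card : ℝ))
        (fun _ _ => Nat.cast_nonneg _) he
  have h1 := Finset.sum_le_sum hbad
  rw [← Finset.mul_sum, Finset.sum_comm, ← Nat.cast_sum, hsum] at h1
  have h2 : ∀ e ∈ E, ∑ t ∈ Finset.range F.card, ((((A t).image fun x => e * x) \ A t).card : ℝ) ≤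
      ε / (E.card + 1) * F.card := by
    intro e he
    refine le_trans ?_ (hF (s e) (Finset.mem_image_of_mem _ he))
    rw [← Nat.cast_sum]
    exact_mod_cast hmove e he
  have h3 := h1.trans (Finset.sum_le_sum h2)
  rw [Finset.sum_const, nsmul_eq_mul] at h3
  have hFc : (0 : ℝ) < F.card := by exact_mod_cast hF0.card_pos
  have h4 : (E.card : ℝ) * (ε / (E.card + 1) * F.card) < ε * F.card := by
    rw [← mul_assoc]
    refine mul_lt_mul_of_pos_right ?_ hFc
    rw [mul_div_assoc', div_lt_iff₀ (by positivity)]
    nlinarith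
  linarith

theorem finRes_le {G : Type*} [Group G] (N : Subgroup G) (hN : N.FiniteIndex) : finRes G ≤ N := by
  refine le_trans (sInf_le ?_) N.normalCore_le
  exact ⟨inferInstance, inferInstance⟩

theorem finIndex_map {G Q : Type} [Group G] [Group Q] {f : G →* Q} (hf : Function.Surjective f)
    {N : Subgroup G} (hN : N.FiniteIndex) : (N.map f).FiniteIndex :=
  ⟨fun h0 => hN.index_ne_zero (Nat.eq_zero_of_zero_dvd (h0 ▸ N.index_map_dvd hf))⟩

theorem finIndex_comap {G Q : Type} [Group G] [Group Q] {f : G →* Q}
    (hf : Function.Surjective f) {N : Subgroup Q} (hN : N.FiniteIndex) :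
    (N.comap f).FiniteIndex :=
  ⟨by rw [Subgroup.index_comap_of_surjective _ hf]; exact hN.index_ne_zero⟩

theorem resFin_quot (G : Type) [Group G] : ResFin (G ⧸ finRes G) := by
  intro g hg
  obtain ⟨a, rfl⟩ := QuotientGroup.mk_surjective g
  have ha : a ∉ finRes G := fun h => hg ((QuotientGroup.eq_one_iff a).2 h)
  rw [finRes, Subgroup.mem_sInf] at ha
  push Not at ha
  obtain ⟨N, ⟨hN, hNf⟩, haN⟩ := ha
  have hle : finRes G ≤ N := finRes_le N hNf
  refine ⟨N.map (QuotientGroup.mk' (finRes G)), ?_, ?_, ?_⟩
  · exact hN.map _ (QuotientGroup.mk'_surjective _)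
  · exact finIndex_map (QuotientGroup.mk'_surjective _) hNf
  · rintro ⟨b, hb, hab⟩
    refine haN ?_
    have h1 : b⁻¹ * a ∈ finRes G := QuotientGroup.eq.1 hab
    have h2 := N.mul_mem hb (hle h1)
    rwa [mul_inv_cancel_left] at h2

/-- The restriction of the quotient map to the preimage of a subgroup. -/
def pre {G : Type} [Group G] (R : Subgroup G) [R.Normal] (H : Subgroup (G ⧸ R)) :
    H.comap (QuotientGroup.mk' R) →* H :=
  ((QuotientGroup.mk' R).comp (H.comap (QuotientGroup.mk' R)).subtype).codRestrict H fun x => x.2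

theorem pre_surj {G : Type} [Group G] (R : Subgroup G) [R.Normal] (H : Subgroup (G ⧸ R)) :
    Function.Surjective (pre R H) := by
  rintro ⟨h, hh⟩
  obtain ⟨g, rfl⟩ := QuotientGroup.mk_surjective h
  exact ⟨⟨g, hh⟩, rfl⟩

theorem pre_comap_le {G : Type} [Group G] (R : Subgroup G) [R.Normal] {N : Subgroup G} (hR : R ≤ N)
    {H : Subgroup (G ⧸ R)} (hH : H ≤ N.map (QuotientGroup.mk' R)) :
    H.comap (QuotientGroup.mk' R) ≤ N := by
  intro g hg
  obtain ⟨b, hb, hab⟩ := hH hg
  have h1 : b⁻¹ * g ∈ R := QuotientGroup.eq.1 hab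
  have h2 := N.mul_mem hb (hR h1)
  rwa [mul_inv_cancel_left] at h2

/-- The data at a prime pass to the maximal residually finite quotient. -/
def PrimeData.quot {p : ℕ} {G : Type} [Group G] {C : ℕ} (D : PrimeData p G C) :
    PrimeData p (G ⧸ finRes G) C where
  N₀ := D.N₀.map (QuotientGroup.mk' (finRes G))
  normal := D.normal.map _ (QuotientGroup.mk'_surjective _)
  fin := finIndex_map (QuotientGroup.mk'_surjective _) D.fin
  comm := by
    have h1 : (⊤ : Subgroup (G ⧸ finRes G)) = (⊤ : Subgroup G).map (QuotientGroup.mk' (finRes G)) :=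
      (Subgroup.map_top_of_surjective _ (QuotientGroup.mk'_surjective _)).symm
    rw [h1, ← Subgroup.map_commutator]
    exact Subgroup.map_mono D.comm
  bound := by
    intro H hH hHN n f hf
    exact D.bound _ (finIndex_comap (QuotientGroup.mk'_surjective _) hH)
      (pre_comap_le _ (finRes_le _ D.fin) hHN) n (f.comp (pre _ H)) (hf.comp (pre_surj _ H))
  nopair := by
    intro L hL hLN x y α β hαx hαy hβx hβy hcen
    obtain ⟨x', hx'⟩ := pre_surj _ L x
    obtain ⟨y', hy'⟩ := pre_surj _ L y
    have hL' : (L.comap (QuotientGroup.mk' (finRes G))).FiniteIndex :=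
      finIndex_comap (QuotientGroup.mk'_surjective _) hL
    refine D.nopair _ hL' (pre_comap_le _ (finRes_le _ D.fin) hLN) x' y' (α.comp (pre _ L))
      (β.comp (pre _ L)) ?_ ?_ ?_ ?_ ?_
    · rw [MonoidHom.comp_apply, hx', hαx]
    · rw [MonoidHom.comp_apply, hy', hαy]
    · rw [MonoidHom.comp_apply, hx', hβx]
    · rw [MonoidHom.comp_apply, hy', hβy]
    · intro Q _ _ hQ s
      have hker : (pre (finRes G) L).ker ≤ s.ker := by
        intro r hr
        have h1 : (r : G) ∈ finRes G := by
          have h2 : ((pre (finRes G) L r : L) : G ⧸ finRes G) = 1 := by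
            rw [MonoidHom.mem_ker.1 hr]
            rfl
          exact (QuotientGroup.eq_one_iff _).1 h2
        have h2 : (s.ker.map (L.comap (QuotientGroup.mk' (finRes G))).subtype).FiniteIndex := by
          constructor
          rw [Subgroup.index_map_subtype]
          exact mul_ne_zero (Subgroup.finiteIndex_ker s).index_ne_zero hL'.index_ne_zero
        obtain ⟨r', hr', he⟩ := finRes_le _ h2 h1
        have h3 : r' = r := Subtype.ext he
        rw [← h3]
        exact hr'
      let t : L →* Q := (pre (finRes G) L).liftOfSurjective (pre_surj _ L) ⟨s, hker⟩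
      have ht : ∀ z, t (pre (finRes G) L z) = s z := fun z =>
        (pre (finRes G) L).liftOfRightInverse_comp_apply _ _ ⟨s, hker⟩ z
      obtain ⟨h1, h2, h3⟩ := hcen Q hQ t
      rw [← ht x', ← ht y', hx', hy']
      refine ⟨h1, h2, fun g => ?_⟩
      rw [← ht g]
      exact h3 _

end Vale.Agent.P260.H145
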