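import Mathlib
import Vale.Agent.P260.H145.Prime
import Vale.Agent.P260.H145.Quot
import Vale.Agent.P260.H234.Final
import Vale.Agent.P260.H795.X1

/-!
# P260: the maximal residually finite quotient of an amenable Poincare duality group of dimension 4
-/

namespace Vale.Agent.P260.H145

/-- The residually finite case. -/
theorem vsolv_of_resFin (G : Type) [Group G]
    (P : ∀ (p : ℕ) [Fact p.Prime], Nonempty (PD4 (ZMod p) G))
    (hG : Folner G) (hres : ResFin G) : VSolv G := by
  have h2 : Fact (Nat.Prime 2) := ⟨Nat.prime_two⟩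
  refine H234.final_of (fun p _ G _ hfg N _ _ C hC => H795.rep_exists_rel p G hfg N C hC) G
    (P 2).some.fg hG hres 3999 fun p hp => ?_
  have : Fact p.Prime := ⟨hp⟩
  exact (primeData p G (P p).some hG).some

/-- The general case. -/
theorem vsolv_quot (G : Type) [Group G]
    (P : ∀ (p : ℕ) [Fact p.Prime], Nonempty (PD4 (ZMod p) G))
    (hG : Folner G) : VSolv (G ⧸ finRes G) := by
  have h2 : Fact (Nat.Prime 2) := ⟨Nat.prime_two⟩
  have hfg : Group.FG G := (P 2).some.fg
  refine H234.final_of (fun p _ G _ hfg N _ _ C hC => H795.rep_exists_rel p G hfg N C hC)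
    (G ⧸ finRes G) inferInstance (folner_quot hG (QuotientGroup.mk' (finRes G))
      (QuotientGroup.mk'_surjective _)) (resFin_quot G) 3999 fun p hp => ?_
  have : Fact p.Prime := ⟨hp⟩
  exact (primeData p G (P p).some hG).some.quot

end Vale.Agent.P260.H145
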