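import Mathlib

/-!
# P260: Poincare duality groups of dimension 4 of type FF (over the integers)
-/

namespace Vale.Agent.P260.H145

open Matrix

/-- The augmentation `ℤ[G] → ℤ`. -/
noncomputable abbrev augZ (G : Type) [Group G] : MonoidAlgebra ℤ G →ₐ[ℤ] ℤ :=
  MonoidAlgebra.lift ℤ ℤ G 1

/-- Data showing that `G` is a Poincare duality group of dimension 4 and of type FF: a finite free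
resolution `0 → ℤ[G]^n₄ → ℤ[G]^n₃ → ℤ[G]^n₂ → ℤ[G]^n₁ → ℤ[G]^n₀ → ℤ → 0` of the trivial left module
`ℤ` (row vectors, the maps are right multiplication by the matrices `dᵢ`, the augmentation is
`v ↦ ∑ i, aug (v i) * c i`), such that the dual complex `Hom_{ℤ[G]}(-, ℤ[G])` (column vectors, left
multiplication by the `dᵢ`) is exact except at the end, where the cokernel `H⁴(G; ℤ[G])` is
infinite cyclic. -/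
structure PD4Z (G : Type) [Group G] where
  n₀ : ℕ
  n₁ : ℕ
  n₂ : ℕ
  n₃ : ℕ
  n₄ : ℕ
  c : Fin n₀ → ℤ
  d₁ : Matrix (Fin n₁) (Fin n₀) (MonoidAlgebra ℤ G)
  d₂ : Matrix (Fin n₂) (Fin n₁) (MonoidAlgebra ℤ G)
  d₃ : Matrix (Fin n₃) (Fin n₂) (MonoidAlgebra ℤ G)
  d₄ : Matrix (Fin n₄) (Fin n₃) (MonoidAlgebra ℤ G)
  onto : ∃ v : Fin n₀ → MonoidAlgebra ℤ G, ∑ i, augZ G (v i) * c i = 1
  ex₀ : ∀ v, ∑ i, augZ G (v i) * c i = 0 ↔ ∃ w, w ᵥ* d₁ = v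
  ex₁ : ∀ v, v ᵥ* d₁ = 0 ↔ ∃ w, w ᵥ* d₂ = v
  ex₂ : ∀ v, v ᵥ* d₂ = 0 ↔ ∃ w, w ᵥ* d₃ = v
  ex₃ : ∀ v, v ᵥ* d₃ = 0 ↔ ∃ w, w ᵥ* d₄ = v
  ex₄ : ∀ v, v ᵥ* d₄ = 0 → v = 0
  co₀ : ∀ w, d₁ *ᵥ w = 0 → w = 0
  co₁ : ∀ w, d₂ *ᵥ w = 0 → ∃ u, d₁ *ᵥ u = w
  co₂ : ∀ w, d₃ *ᵥ w = 0 → ∃ u, d₂ *ᵥ u = w
  co₃ : ∀ w, d₄ *ᵥ w = 0 → ∃ u, d₃ *ᵥ u = w
  co₄ : ∃ θ : (Fin n₄ → MonoidAlgebra ℤ G) →+ ℤ,
    Function.Surjective θ ∧ ∀ w, θ w = 0 ↔ ∃ u, d₄ *ᵥ u = w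

end Vale.Agent.P260.H145
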