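import Mathlib
import Vale.Agent.P260.H145.PDZDef
import Vale.Agent.P260.H145.PDDef

/-!
# P260: reduction of Poincare duality data modulo a prime
-/

namespace Vale.Agent.P260.H145

open Matrix

section red

variable (p : ℕ) [hp : Fact p.Prime] {G : Type} [Group G]

/-- Reduction of the group ring modulo `p`. -/
noncomputable def red : MonoidAlgebra ℤ G →+* MonoidAlgebra (ZMod p) G :=
  MonoidAlgebra.mapRingHom G (Int.castRingHom (ZMod p))

theorem red_surj : Function.Surjective (red p (G := G)) := by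
  intro x
  refine ⟨MonoidAlgebra.ofCoeff (x.coeff.mapRange (fun c => (c.val : ℤ)) (by simp)), ?_⟩
  refine MonoidAlgebra.ext ?_
  refine Finsupp.ext fun g => ?_
  rw [red, MonoidAlgebra.coeff_mapRingHom]
  simp

theorem red_zero {x : MonoidAlgebra ℤ G} (hx : red p x = 0) : ∃ y, x = (p : ℤ) • y := by
  refine ⟨MonoidAlgebra.ofCoeff (x.coeff.mapRange (fun c => c / p) (by simp)), ?_⟩
  refine MonoidAlgebra.ext ?_
  refine Finsupp.ext fun g => ?_
  have h1 : (red p x).coeff g = 0 := by rw [hx]; rfl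
  rw [red, MonoidAlgebra.coeff_mapRingHom, Int.coe_castRingHom,
    ZMod.intCast_zmod_eq_zero_iff_dvd] at h1
  rw [MonoidAlgebra.coeff_smul, Finsupp.smul_apply]
  simp only [Finsupp.mapRange_apply, smul_eq_mul]
  exact (Int.mul_ediv_cancel' h1).symm

theorem tf {x : MonoidAlgebra ℤ G} (hx : (p : ℤ) • x = 0) : x = 0 := by
  refine MonoidAlgebra.ext ?_
  refine Finsupp.ext fun g => ?_
  have h1 : ((p : ℤ) • x).coeff g = 0 := by rw [hx]; rfl
  rw [MonoidAlgebra.coeff_smul, Finsupp.smul_apply, smul_eq_mul] at h1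
  have h2 : (p : ℤ) ≠ 0 := by exact_mod_cast hp.out.ne_zero
  exact (mul_eq_zero.1 h1).resolve_left h2

/-- Reduction of vectors. -/
noncomputable def rv {n : ℕ} (v : Fin n → MonoidAlgebra ℤ G) : Fin n → MonoidAlgebra (ZMod p) G :=
  fun i => red p (v i)

theorem rv_surj {n : ℕ} (v : Fin n → MonoidAlgebra (ZMod p) G) : ∃ w, rv p w = v := by
  choose w hw using fun i => red_surj p (v i)
  exact ⟨w, funext hw⟩

theorem rv_zero {n : ℕ} {v : Fin n → MonoidAlgebra ℤ G} (hv : rv p v = 0) :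
    ∃ u, v = (p : ℤ) • u := by
  choose u hu using fun i => red_zero p (congrFun hv i)
  exact ⟨u, funext hu⟩

theorem rv_smul {n : ℕ} (v : Fin n → MonoidAlgebra ℤ G) : rv p ((p : ℤ) • v) = 0 := by
  funext i
  show red p ((p : ℤ) • v i) = 0
  rw [map_zsmul]
  refine MonoidAlgebra.ext ?_
  refine Finsupp.ext fun g => ?_
  rw [MonoidAlgebra.coeff_smul, Finsupp.smul_apply]
  simp

theorem rv_add {n : ℕ} (v w : Fin n → MonoidAlgebra ℤ G) : rv p (v + w) = rv p v + rv p w := by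
  funext i
  exact map_add _ _ _

theorem rv_sub {n : ℕ} (v w : Fin n → MonoidAlgebra ℤ G) : rv p (v - w) = rv p v - rv p w := by
  funext i
  exact map_sub _ _ _

theorem rv_zero' {n : ℕ} : rv p (0 : Fin n → MonoidAlgebra ℤ G) = 0 := by
  funext i
  exact map_zero _

theorem vtf {n : ℕ} {v : Fin n → MonoidAlgebra ℤ G} (hv : (p : ℤ) • v = 0) : v = 0 :=
  funext fun i => tf p (congrFun hv i)

theorem rv_vecMul {m n : ℕ} (v : Fin m → MonoidAlgebra ℤ G)
    (M : Matrix (Fin m) (Fin n) (MonoidAlgebra ℤ G)) :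
    rv p (v ᵥ* M) = rv p v ᵥ* M.map (red p) := by
  funext i
  exact RingHom.map_vecMul _ _ _ _

theorem rv_mulVec {m n : ℕ} (v : Fin n → MonoidAlgebra ℤ G)
    (M : Matrix (Fin m) (Fin n) (MonoidAlgebra ℤ G)) :
    rv p (M *ᵥ v) = M.map (red p) *ᵥ rv p v := by
  funext i
  exact RingHom.map_mulVec _ _ _ _

/-- The abstract reduction step: exactness modulo `p`. -/
theorem exact_mod {A B C : Type*} [AddCommGroup A] [AddCommGroup B] [AddCommGroup C]
    (f : A →+ B) (g : B →+ C) (hfg : ∀ b, g b = 0 ↔ ∃ a, f a = b)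
    (hC : ∀ (b : B) (c : C), g b = (p : ℤ) • c → ∃ b', g b' = c)
    (b : B) (c : C) (h : g b = (p : ℤ) • c) : ∃ a b', b = f a + (p : ℤ) • b' := by
  obtain ⟨b', hb'⟩ := hC b c h
  have h1 : g (b - (p : ℤ) • b') = 0 := by rw [map_sub, map_zsmul, h, hb', sub_self]
  obtain ⟨a, ha⟩ := (hfg _).1 h1
  exact ⟨a, b', by rw [ha, sub_add_cancel]⟩

end red

/-- The augmentation, as an additive map. -/
noncomputable def PD4Z.eps {G : Type} [Group G] (P : PD4Z G) :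
    (Fin P.n₀ → MonoidAlgebra ℤ G) →+ ℤ where
  toFun v := ∑ i, augZ G (v i) * P.c i
  map_zero' := by simp
  map_add' v w := by
    rw [← Finset.sum_add_distrib]
    refine Finset.sum_congr rfl fun i _ => ?_
    rw [Pi.add_apply, map_add, add_mul]

/-- Row multiplication as an additive map. -/
noncomputable def rowM {G : Type} [Group G] {m n : ℕ}
    (M : Matrix (Fin m) (Fin n) (MonoidAlgebra ℤ G)) :
    (Fin m → MonoidAlgebra ℤ G) →+ (Fin n → MonoidAlgebra ℤ G) where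
  toFun v := v ᵥ* M
  map_zero' := Matrix.zero_vecMul M
  map_add' v w := Matrix.add_vecMul _ _ _

/-- Column multiplication as an additive map. -/
noncomputable def colM {G : Type} [Group G] {m n : ℕ}
    (M : Matrix (Fin m) (Fin n) (MonoidAlgebra ℤ G)) :
    (Fin n → MonoidAlgebra ℤ G) →+ (Fin m → MonoidAlgebra ℤ G) where
  toFun v := M *ᵥ v
  map_zero' := Matrix.mulVec_zero M
  map_add' v w := Matrix.mulVec_add _ _ _

theorem aug_red (p : ℕ) [Fact p.Prime] {G : Type} [Group G] (x : MonoidAlgebra ℤ G) :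
    augm (ZMod p) G (red p x) = ((augZ G x : ℤ) : ZMod p) := by
  induction x using MonoidAlgebra.induction_on with
  | of g =>
    rw [red, MonoidAlgebra.of_apply, MonoidAlgebra.mapRingHom_single]
    simp
  | add x y hx hy => rw [map_add, map_add, map_add, hx, hy, Int.cast_add]
  | smul c x hx =>
    rw [map_zsmul, map_zsmul, map_zsmul, hx, zsmul_eq_mul, smul_eq_mul, Int.cast_mul]

namespace PD4Z

variable {G : Type} [Group G] (P : PD4Z G) (p : ℕ) [hp : Fact p.Prime]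

theorem eps_red (v : Fin P.n₀ → MonoidAlgebra ℤ G) :
    ∑ i, augm (ZMod p) G (rv p v i) * (P.c i : ZMod p) = ((P.eps v : ℤ) : ZMod p) := by
  show _ = ((∑ i, augZ G (v i) * P.c i : ℤ) : ZMod p)
  rw [Int.cast_sum]
  refine Finset.sum_congr rfl fun i _ => ?_
  rw [Int.cast_mul]
  congr 1
  exact aug_red p _

theorem mul_zero_row {a b c : ℕ} (A : Matrix (Fin a) (Fin b) (MonoidAlgebra ℤ G))
    (B : Matrix (Fin b) (Fin c) (MonoidAlgebra ℤ G)) (h : ∀ v, (v ᵥ* A) ᵥ* B = 0) : A * B = 0 := by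
  refine Matrix.ext fun i j => ?_
  have h1 := congrFun (h (Pi.single i 1)) j
  rw [Matrix.vecMul_vecMul, Matrix.single_one_vecMul] at h1
  exact h1

theorem d₂₁ : P.d₂ * P.d₁ = 0 := mul_zero_row _ _ fun v => (P.ex₁ _).2 ⟨v, rfl⟩

theorem d₃₂ : P.d₃ * P.d₂ = 0 := mul_zero_row _ _ fun v => (P.ex₂ _).2 ⟨v, rfl⟩

theorem d₄₃ : P.d₄ * P.d₃ = 0 := mul_zero_row _ _ fun v => (P.ex₃ _).2 ⟨v, rfl⟩

/-- Exactness modulo `p` for rows. -/
theorem row_mod {a b c : ℕ} (A : Matrix (Fin a) (Fin b) (MonoidAlgebra ℤ G))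
    (B : Matrix (Fin b) (Fin c) (MonoidAlgebra ℤ G)) (hAB : A * B = 0)
    (hex : ∀ v, v ᵥ* B = 0 → ∃ w, w ᵥ* A = v)
    (hC : ∀ v u, v ᵥ* B = (p : ℤ) • u → ∃ v', v' ᵥ* B = u)
    (v : Fin b → MonoidAlgebra (ZMod p) G) :
    v ᵥ* B.map (red p) = 0 ↔ ∃ w, w ᵥ* A.map (red p) = v := by
  constructor
  · intro h
    obtain ⟨v, rfl⟩ := rv_surj p v
    rw [← rv_vecMul] at h
    obtain ⟨u, hu⟩ := rv_zero p h
    obtain ⟨v', hv'⟩ := hC v u hu
    obtain ⟨w, hw⟩ := hex (v - (p : ℤ) • v') (by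
      rw [Matrix.sub_vecMul, hu]
      have : ((p : ℤ) • v') ᵥ* B = (p : ℤ) • (v' ᵥ* B) := map_zsmul (rowM B) _ _
      rw [this, hv', sub_self])
    refine ⟨rv p w, ?_⟩
    rw [← rv_vecMul, hw, rv_sub, rv_smul, sub_zero]
  · rintro ⟨w, rfl⟩
    obtain ⟨w, rfl⟩ := rv_surj p w
    rw [← rv_vecMul, ← rv_vecMul, Matrix.vecMul_vecMul, hAB, Matrix.vecMul_zero, rv_zero']

/-- Exactness modulo `p` for columns. -/
theorem col_mod {a b c : ℕ} (A : Matrix (Fin b) (Fin a) (MonoidAlgebra ℤ G))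
    (B : Matrix (Fin c) (Fin b) (MonoidAlgebra ℤ G))
    (hex : ∀ v, B *ᵥ v = 0 → ∃ w, A *ᵥ w = v)
    (hC : ∀ v u, B *ᵥ v = (p : ℤ) • u → ∃ v', B *ᵥ v' = u)
    (v : Fin b → MonoidAlgebra (ZMod p) G) (h : B.map (red p) *ᵥ v = 0) :
    ∃ w, A.map (red p) *ᵥ w = v := by
  obtain ⟨v, rfl⟩ := rv_surj p v
  rw [← rv_mulVec] at h
  obtain ⟨u, hu⟩ := rv_zero p h
  obtain ⟨v', hv'⟩ := hC v u hu
  obtain ⟨w, hw⟩ := hex (v - (p : ℤ) • v') (by
    rw [Matrix.mulVec_sub, hu]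
    have : B *ᵥ ((p : ℤ) • v') = (p : ℤ) • (B *ᵥ v') := map_zsmul (colM B) _ _
    rw [this, hv', sub_self])
  refine ⟨rv p w, ?_⟩
  rw [← rv_mulVec, hw, rv_sub, rv_smul, sub_zero]

/-- A multiple of `p` in the kernel of the next map. -/
theorem row_next {a b c : ℕ} (A : Matrix (Fin a) (Fin b) (MonoidAlgebra ℤ G))
    (B : Matrix (Fin b) (Fin c) (MonoidAlgebra ℤ G)) (hAB : A * B = 0)
    (hex : ∀ v, v ᵥ* B = 0 → ∃ w, w ᵥ* A = v) (v : Fin a → MonoidAlgebra ℤ G)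
    (u : Fin b → MonoidAlgebra ℤ G) (h : v ᵥ* A = (p : ℤ) • u) : ∃ v', v' ᵥ* A = u := by
  refine hex u (vtf p ?_)
  have : ((p : ℤ) • u) ᵥ* B = (p : ℤ) • (u ᵥ* B) := map_zsmul (rowM B) _ _
  rw [← this, ← h, Matrix.vecMul_vecMul, hAB, Matrix.vecMul_zero]

theorem col_next {a b c : ℕ} (A : Matrix (Fin b) (Fin a) (MonoidAlgebra ℤ G))
    (B : Matrix (Fin c) (Fin b) (MonoidAlgebra ℤ G)) (hBA : B * A = 0)
    (hex : ∀ v, B *ᵥ v = 0 → ∃ w, A *ᵥ w = v) (v : Fin a → MonoidAlgebra ℤ G)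
    (u : Fin b → MonoidAlgebra ℤ G) (h : A *ᵥ v = (p : ℤ) • u) : ∃ v', A *ᵥ v' = u := by
  refine hex u (vtf p ?_)
  have : B *ᵥ ((p : ℤ) • u) = (p : ℤ) • (B *ᵥ u) := map_zsmul (colM B) _ _
  rw [← this, ← h, Matrix.mulVec_mulVec, hBA, Matrix.zero_mulVec]

/-- **Reduction modulo `p`.** -/
noncomputable def modp : PD4 (ZMod p) G where
  n₀ := P.n₀
  n₁ := P.n₁
  n₂ := P.n₂
  n₃ := P.n₃
  n₄ := P.n₄
  c := fun i => P.c i
  d₁ := P.d₁.map (red p)
  d₂ := P.d₂.map (red p)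
  d₃ := P.d₃.map (red p)
  d₄ := P.d₄.map (red p)
  c_ne := by
    intro h
    obtain ⟨v, hv⟩ := P.onto
    have h1 := P.eps_red p v
    have h2 : P.eps v = 1 := hv
    rw [h2, Int.cast_one] at h1
    have h3 : ∀ i, (P.c i : ZMod p) = 0 := fun i => congrFun h i
    simp only [h3, mul_zero, Finset.sum_const_zero] at h1
    exact zero_ne_one h1
  ex₀ := by
    intro v
    obtain ⟨v, rfl⟩ := rv_surj p v
    rw [P.eps_red p v]
    constructor
    · intro h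
      rw [ZMod.intCast_zmod_eq_zero_iff_dvd] at h
      obtain ⟨m, hm⟩ := h
      obtain ⟨e, he⟩ := P.onto
      have he' : P.eps e = 1 := he
      have h1 : P.eps (v - ((p : ℤ) * m) • e) = 0 := by
        rw [map_sub, map_zsmul, he', hm, smul_eq_mul, mul_one, sub_self]
      obtain ⟨w, hw⟩ := (P.ex₀ _).1 h1
      refine ⟨rv p w, ?_⟩
      rw [← rv_vecMul, hw, rv_sub, mul_smul, rv_smul, sub_zero]
    · rintro ⟨w, hw⟩
      obtain ⟨w, rfl⟩ := rv_surj p w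
      rw [← rv_vecMul] at hw
      have h1 : rv p (v - w ᵥ* P.d₁) = 0 := by rw [rv_sub, hw, sub_self]
      obtain ⟨u, hu⟩ := rv_zero p h1
      have h2 : P.eps (w ᵥ* P.d₁) = 0 := (P.ex₀ _).2 ⟨w, rfl⟩
      have h3 : P.eps v = (p : ℤ) * P.eps u := by
        have h4 := congrArg P.eps hu
        rw [map_sub, h2, sub_zero, map_zsmul, smul_eq_mul] at h4
        exact h4
      rw [h3, Int.cast_mul, Int.cast_natCast, CharP.cast_eq_zero, zero_mul]
  ex₁ := row_mod p _ _ P.d₂₁ (fun v => (P.ex₁ v).1) (fun v u h => by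
    refine (P.ex₀ u).1 ?_
    have h1 : P.eps (v ᵥ* P.d₁) = 0 := (P.ex₀ _).2 ⟨v, rfl⟩
    rw [h, map_zsmul, smul_eq_mul] at h1
    have h2 : (p : ℤ) ≠ 0 := by exact_mod_cast hp.out.ne_zero
    exact (mul_eq_zero.1 h1).resolve_left h2)
  ex₂ := row_mod p _ _ P.d₃₂ (fun v => (P.ex₂ v).1)
    (row_next p _ _ P.d₂₁ fun v => (P.ex₁ v).1)
  ex₃ := row_mod p _ _ P.d₄₃ (fun v => (P.ex₃ v).1)
    (row_next p _ _ P.d₃₂ fun v => (P.ex₂ v).1)
  ex₄ := by
    intro v h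
    obtain ⟨v, rfl⟩ := rv_surj p v
    rw [← rv_vecMul] at h
    obtain ⟨u, hu⟩ := rv_zero p h
    obtain ⟨v', hv'⟩ := row_next p _ _ P.d₄₃ (fun v => (P.ex₃ v).1) v u hu
    have h1 := P.ex₄ (v - (p : ℤ) • v') (by
      rw [Matrix.sub_vecMul, hu]
      have : ((p : ℤ) • v') ᵥ* P.d₄ = (p : ℤ) • (v' ᵥ* P.d₄) := map_zsmul (rowM P.d₄) _ _
      rw [this, hv', sub_self])
    rw [sub_eq_zero] at h1
    rw [h1, rv_smul]
  co₀ := by
    intro v h
    obtain ⟨v, rfl⟩ := rv_surj p v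
    rw [← rv_mulVec] at h
    obtain ⟨u, hu⟩ := rv_zero p h
    obtain ⟨v', hv'⟩ := col_next p _ _ P.d₂₁ P.co₁ v u hu
    have h1 := P.co₀ (v - (p : ℤ) • v') (by
      rw [Matrix.mulVec_sub, hu]
      have : P.d₁ *ᵥ ((p : ℤ) • v') = (p : ℤ) • (P.d₁ *ᵥ v') := map_zsmul (colM P.d₁) _ _
      rw [this, hv', sub_self])
    rw [sub_eq_zero] at h1
    rw [h1, rv_smul]
  co₁ := col_mod p _ _ P.co₁ (col_next p _ _ P.d₃₂ P.co₂)
  co₂ := col_mod p _ _ P.co₂ (col_next p _ _ P.d₄₃ P.co₃)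
  co₃ := col_mod p _ _ P.co₃ (fun v u h => by
    obtain ⟨θ, -, hθ⟩ := P.co₄
    refine (hθ u).1 ?_
    have h1 : θ (P.d₄ *ᵥ v) = 0 := (hθ _).2 ⟨v, rfl⟩
    rw [h, map_zsmul, smul_eq_mul] at h1
    have h2 : (p : ℤ) ≠ 0 := by exact_mod_cast hp.out.ne_zero
    exact (mul_eq_zero.1 h1).resolve_left h2)
  co₄ := by
    obtain ⟨θ, hθs, hθ⟩ := P.co₄
    let r : (Fin P.n₄ → MonoidAlgebra ℤ G) →+ (Fin P.n₄ → MonoidAlgebra (ZMod p) G) :=
      { toFun := rv p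
        map_zero' := rv_zero' p
        map_add' := rv_add p }
    have hr : Function.Surjective r := rv_surj p
    let θ₁ : (Fin P.n₄ → MonoidAlgebra ℤ G) →+ ZMod p := (Int.castAddHom (ZMod p)).comp θ
    have hker : r.ker ≤ θ₁.ker := by
      intro v hv
      obtain ⟨u, hu⟩ := rv_zero p (show rv p v = 0 from hv)
      show ((θ v : ℤ) : ZMod p) = 0
      rw [hu, map_zsmul, smul_eq_mul, Int.cast_mul, Int.cast_natCast, CharP.cast_eq_zero, zero_mul]
    let θ₂ : (Fin P.n₄ → MonoidAlgebra (ZMod p) G) →+ ZMod p :=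
      r.liftOfSurjective hr ⟨θ₁, hker⟩
    have hθ₂ : ∀ v, θ₂ (rv p v) = ((θ v : ℤ) : ZMod p) := fun v =>
      r.liftOfRightInverse_comp_apply _ _ ⟨θ₁, hker⟩ v
    refine ⟨θ₂.toZModLinearMap p, ?_, ?_⟩
    · intro h0
      obtain ⟨e, he⟩ := hθs 1
      have h1 : θ₂ (rv p e) = 0 := LinearMap.congr_fun h0 (rv p e)
      rw [hθ₂, he, Int.cast_one] at h1
      exact one_ne_zero h1
    · intro w
      obtain ⟨w, rfl⟩ := rv_surj p w
      show θ₂ (rv p w) = 0 ↔ _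
      rw [hθ₂]
      constructor
      · intro h
        rw [ZMod.intCast_zmod_eq_zero_iff_dvd] at h
        obtain ⟨m, hm⟩ := h
        obtain ⟨e, he⟩ := hθs 1
        have h1 : θ (w - ((p : ℤ) * m) • e) = 0 := by
          rw [map_sub, map_zsmul, he, hm, smul_eq_mul, mul_one, sub_self]
        obtain ⟨u, hu⟩ := (hθ _).1 h1
        refine ⟨rv p u, ?_⟩
        rw [← rv_mulVec, hu, rv_sub, mul_smul, rv_smul, sub_zero]
      · rintro ⟨u, hu⟩
        obtain ⟨u, rfl⟩ := rv_surj p u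
        rw [← rv_mulVec] at hu
        have h1 : rv p (w - P.d₄ *ᵥ u) = 0 := by rw [rv_sub, hu, sub_self]
        obtain ⟨x, hx⟩ := rv_zero p h1
        have h2 : θ (P.d₄ *ᵥ u) = 0 := (hθ _).2 ⟨u, rfl⟩
        have h3 : θ w = (p : ℤ) * θ x := by
          have h4 := congrArg θ hx
          rw [map_sub, h2, sub_zero, map_zsmul, smul_eq_mul] at h4
          exact h4
        rw [h3, Int.cast_mul, Int.cast_natCast, CharP.cast_eq_zero, zero_mul]

end PD4Z

end Vale.Agent.P260.H145
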